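import Vale.Agent.P280X.Kl.Defs
import Vale.Agent.P281Z.An.Rem
import Vale.Agent.P277Z.Top.Grx

/-!
# P280X, block KL: row IND
-/

open Set Filter
open Vale.Agent.P272.K Vale.Agent.P285.H281.FD Vale.Agent.P281Z Vale.Agent.P280Z
open Vale.Agent.P277.HD (pull)

namespace Vale.Agent.P280X.Kl

namespace IndH

variable {n d d' : ℕ} {V : Mf n} {A A' : Set V.X}

theorem mono (h : Cv V d A) (k : d ≤ d') : Cv V d' A := by
  induction h with
  | nil => exact .nil
  | add F f a b c _ ih => exact .add F f (a.trans_le k) b c ih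

theorem union (h : Cv V d A) (h' : Cv V d A') : Cv V d (A ∪ A') := by
  induction h with
  | nil => rwa [empty_union]
  | add F f a b c _ ih =>
    rw [union_assoc]
    exact .add F f a b c ih

theorem an (h : Cv V d A) : An n A := by
  induction h with
  | nil => exact an_empty
  | add F f _ _ c _ ih => exact (Ana.remm _ _ _ _ f c).union ih

theorem push {p : ℕ} {Y : Mf p} {ν : V.X → Y.X} (hν : HolM n p ν) (h : Cv V d A) :
    Cv Y d (ν '' A) := by
  induction h with
  | nil =>
    rw [image_empty]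
    exact .nil
  | add F f a b c _ ih =>
    rw [image_union, ← range_comp]
    exact .add F _ a b (hν.comp c) ih

theorem thin [ConnectedSpace V.X] {L : Bd V.X} (hL : IsLB n L) {s : L.ι → V.X → ℂ}
    (hs : IsSec n L s) (h : ∃ x, NZ L s x) : Thin n {x | ¬ NZ L s x} := by
  obtain ⟨x, hx⟩ := h
  have hA : An n {x | ¬ NZ L s x} := fun x => (hL.cover x).elim fun a ha =>
    ⟨1, fun _ => s a, fun _ => sec_hol hs ha, (lb_near hL ha).mono fun y hy =>
      ((nz_iff hL (fun a b => hs.change a b y) hy).not.trans not_not).trans (forall_const _).symm⟩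
  exact hA.thin fun e => eq_univ_iff_forall.1 e x hx

theorem sub {L : Bd V.X} (h : PosOn n L A) (k : A' ⊆ A) : PosOn n L A' :=
  let ⟨ψ, h1, h2⟩ := h
  ⟨ψ, h1, fun x hx => h2 x (k hx)⟩

end IndH

open IndH in
/-- **row IND** -/
theorem ind_of (hR : RSV) (hT : THN) (hS : SEC) (hP : STEP) : IND := by
  intro n V L H i pV lL lH pH low
  have lB := lb_mul (lb_pow lL i) lH
  have key : ∀ d ≤ n, ∀ A, Cv V d A → PosOn n ((L.pow i).mul H) A := fun d => by
    induction d with
    | zero =>
      intro _ A hA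
      cases hA with
      | nil => exact (P277Z.Top.Gx.ex_met lB).imp fun ψ h => ⟨h, fun _ k => k.elim⟩
      | add F f a => exact absurd a (Nat.not_lt_zero _)
    | succ d ih =>
      intro hd A hA
      suffices ∀ A', Cv V d A' → PosOn n ((L.pow i).mul H) (A ∪ A') from
        sub (this ∅ .nil) subset_union_left
      induction hA with
      | nil =>
        intro A' h'
        rw [empty_union]
        exact ih (by omega) A' h'
      | @add e F f A₀ a b c h₀ ih' =>
        intro A' h'
        by_cases k : range f ⊆ A₀ ∪ A'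
        · exact sub (ih' A' h') (union_subset (union_subset k subset_union_left) subset_union_right)
        obtain ⟨ρ, hρ, W, ν, Z, cW, pW, rs, s1, s2⟩ :=
          hR n e V F f _ pV b c ((an h₀).union (an h')) k
        have hν := rs.ov.hol
        obtain ⟨w, hw⟩ := rs.ov.dense.nonempty
        obtain ⟨M, O, σ, k, dc, nz, zs⟩ := hS ρ n W V ν H (ν ⁻¹' Z) cW pW hν ⟨w, rs.ov.imm w hw⟩ lH pH
          ⟨rs.an.pre hν, rs.ov.dense⟩
        obtain ⟨A₁, c₁, s₃⟩ := hT ρ W _ pW (thin dc.lO dc.sec nz)
        have l1 := lb_pow (hν.lb lL) (i * k)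
        refine sub (hP ρ n W V ν Z _ _ _ O σ k rs lB
          ⟨hν.lb lB, lb_mul l1 dc.lM, dc.lO, low ρ (by omega) W ν cW pW hν M dc.lM dc.pos _,
            dc.sec, dc.kp, ?_⟩ zs (fun w h => .inr (.inr ⟨w, s₃ h, rfl⟩))
          (ih' _ (union h' (mono (push hν c₁) (by omega))))) ?_
        · rw [cls_mul l1 dc.lM, add_assoc, ← dc.cl, cls_pow (hν.lb lL), cls_pull hν lB,
            cls_mul (lb_pow lL i) lH, cls_pow lL, map_add, map_nsmul, ← cls_pull hν lL,
            ← cls_pull hν lH, smul_add, smul_smul, mul_comm]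
        · rintro x ((h | h) | h)
          exacts [.inl (s2 ▸ h), .inr ⟨.inl h, s1 (.inl h)⟩, .inr ⟨.inr (.inl h), s1 (.inr h)⟩]
  exact key n le_rfl

end Vale.Agent.P280X.Kl
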