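import Vale.Agent.P280X.Kl.Defs
import Vale.Agent.P281Z.Rs.All

/-!
# P280X, block KL: the resolution of an image
-/

open scoped Manifold ContDiff Topology
open Set Filter Function
open Vale.Agent.P272.K Vale.Agent.P285.H281.FD Vale.Agent.P281Z Vale.Agent.P280Z
open Vale.Agent.P277Z (at_chart)

noncomputable section

namespace Vale.Agent.P280X.Kl

namespace RsvH

theorem subM_off {n d : ℕ} {X : Type} [TopologicalSpace X] [ChartedSpace (Cm n) X] {A B S : Set X}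
    (h : SubM n d (A \ B)) (hS : IsClosed S) : SubM n d (A \ (B ∪ S)) := fun x hx => by
  obtain ⟨c, g, h1, h2, h3⟩ := h x ⟨hx.1, fun k => hx.2 (.inl k)⟩
  refine ⟨c, g, h1, h2, ?_⟩
  filter_upwards [h3, hS.isOpen_compl.mem_nhds fun k => hx.2 (.inr k)] with y a b
  exact ⟨fun k => a.1 ⟨k.1, fun c => k.2 (.inl c)⟩,
    fun k => ⟨(a.2 k).1, fun c => c.elim (a.2 k).2 b⟩⟩

/-- a model of the image of a connected manifold is connected and has the same image -/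
theorem model {e n ρ : ℕ} {F : Mf e} {V : Mf n} {W : Mf ρ} {f : F.X → V.X} {ν : W.X → V.X}
    {Z : Set V.X} [ConnectedSpace F.X] (hf : HolM e n f) (hν : Over ρ n ν (range f) Z)
    (hZ : Thin e (f ⁻¹' Z)) : ConnectedSpace W.X ∧ range ν = range f := by
  have : Nonempty W.X := hZ.2.nonempty.elim fun x hx => ⟨(hν.ex ⟨x, rfl⟩ hx).choose⟩
  have h1 : ∀ x ∉ f ⁻¹' Z, ν (invFun ν (f x)) = f x := fun x hx => invFun_eq (hν.ex ⟨x, rfl⟩ hx)
  have h2 : ContinuousOn (fun x => invFun ν (f x)) (f ⁻¹' Z)ᶜ := fun x hx =>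
    (hν.lift_at (g := fun x => invFun ν (f x)) ((h1 x hx).symm ▸ hx) ((hf.at x).cng
      (mem_of_superset (hZ.closed.isOpen_compl.mem_nhds hx)
        fun y hy => (h1 y hy).symm))).cont.continuousWithinAt
  have h3 : (ν ⁻¹' Z)ᶜ ⊆ (fun x => invFun ν (f x)) '' (f ⁻¹' Z)ᶜ := fun w hw => by
    obtain ⟨x, hx⟩ := hν.maps w
    have k : x ∉ f ⁻¹' Z := fun c => hw (show ν w ∈ Z from hx ▸ c)
    exact ⟨x, k, hν.inj hw ((h1 x k).trans hx)⟩
  refine ⟨connectedSpace_iff_univ.2 ?_, (range_subset_iff.2 hν.maps).antisymm ?_⟩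
  · rw [← (hν.dense.mono h3).closure_eq]
    exact (hZ.conn.image _ h2).closure
  · rintro _ ⟨x, rfl⟩
    exact closure_minimal (s := (f ⁻¹' Z)ᶜ) (t := f ⁻¹' range ν) (fun y hy => ⟨_, h1 y hy⟩)
      ((isCompact_range hν.hol.cont).isClosed.preimage hf.cont) (hZ.2 x)

end RsvH

open RsvH in
theorem rsv : RSV := by
  intro n e V F f S hV hF hf hS hn
  obtain ⟨ρ, B, b1, b2, b3, b4⟩ := img e n F V f hf hF
  have hT : Thin e (f ⁻¹' (B ∪ S)) := Thin.union ⟨b1.pre hf, b2⟩ (Thin.pre_of_ex hS hf (by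
    obtain ⟨_, ⟨x, rfl⟩, hx⟩ := not_subset.1 hn
    exact ⟨x, hx⟩))
  obtain ⟨I, hI⟩ := idl n V (B ∪ S) (b1.union hS)
  have hA : An n (range f) := image_univ ▸ rem _ _ F V f univ hf an_univ
  have hs := subM_off b3 hS.closed
  obtain ⟨W, ν, r, E, a, -, -, -, -, b⟩ := res n ρ V (range f) I hA (hI ▸ hs)
  rw [hI] at a
  obtain ⟨c, d⟩ := model hf a hT
  obtain ⟨x, hx⟩ := b2.nonempty
  obtain ⟨L, l1, l2⟩ := hV
  refine ⟨ρ, ?_, W, ν, B ∪ S, c, b L l1 l2, ⟨d ▸ a, b1.union hS, d ▸ hs⟩, subset_union_right, d⟩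
  rw [← b4 x hx _ _ (at_chart _) (at_chart _)]
  exact (LinearMap.finrank_range_le _).trans (Module.finrank_fin_fun ℂ).le

end Vale.Agent.P280X.Kl
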