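import Vale.Agent.P280X.Kl.Defs
import Vale.Agent.P285N.Tp.Kodp
import Vale.Agent.P285N.Tp.Har
import Vale.Agent.P285N.Tp.Mon

/-!
# P280X, block KL, row SEC: the lemma of Kodaira with a section which vanishes on a thin set
-/

open scoped Manifold ContDiff Topology
open Set Filter
open Vale.Agent.P272.K Vale.Agent.P285.H281.FD Vale.Agent.P281Z Vale.Agent.P285N.Tp
open Vale.Agent.P277Z (Hol at_chart)
open Vale.Agent.P277Z.Slc (Ind dd lin)
open Vale.Agent.P277.HD (pull)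
open Vale.Agent.P280Z.Ld (Bs Va)

noncomputable section

namespace Vale.Agent.P280X.Kl

namespace S60

variable {ρ n : ℕ} {Y W : Mf ρ} {V : Mf n}

theorem kap {f : Y.X → V.X} (hf : HolM ρ n f) {y : Y.X} (hy : Imm ρ n f y) {L : Bd V.X}
    {r : ℕ} {s : Fin r → L.ι → V.X → ℂ} (h : Va n L s) : En.Kap0 ρ (pull f L) ρ := by
  obtain ⟨b, hb⟩ := h.lb.cover (f y)
  obtain ⟨l, hl⟩ := not_forall.1 (show f y ∉ Bs L s from h.bpf ▸ notMem_empty _)
  have h0 : s l b (f y) ≠ 0 := (of_not_not hl : NZ L (s l) (f y)) b hb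
  have hh : ∀ j, Hol n (s j b) (f y) := fun j => sec_hol (h.sec j).1 hb
  have he := at_chart (n := n) (f y)
  have he' := at_chart (n := ρ) y
  obtain ⟨τ, hτ⟩ := KpH.sel (fun j => dd (fun z => s j b (f z) / s l b (f z)) (chartAt (Cm ρ) y) y)
    fun v k => by
      have k' : ∀ j, dd (fun z => s j b z / s l b z) (chartAt (Cm n) (f y)) (f y)
          (df f (chartAt (Cm ρ) y) (chartAt (Cm n) (f y)) y v) = 0 := fun j =>
        (DFunLike.congr_fun (dd_comp ((hh j).div (hh l) h0) (hf.at y) he' he) v).symm.trans (k j)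
      refine hy _ _ he' he ((h.tan _ b _ _ hb he fun j j' => mul_right_cancel₀ h0 ?_).trans
        (map_zero _).symm)
      rw [mul_right_comm, KpH.dd_ratio (hh j) (hh l) h0 he (k' j),
        mul_right_comm _ (s j b _) (s l b _), KpH.dd_ratio (hh j') (hh l) h0 he (k' j'),
        mul_right_comm]
  refine ⟨Fin.cons (fun a z => s l a (f z)) fun c a z => s (τ c) a (f z), fun c => ?_, y, trivial,
    b, hb, h0, Ind.of_chart (fun c => (hf.at y).hol ((hh (τ c)).div (hh l) h0)) he' hτ⟩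
  induction c using Fin.cases with
  | zero => exact hf.sec (h.sec l).1
  | succ c => exact hf.sec (h.sec (τ c)).1

theorem desc {π : Y.X → W.X} {B : Set W.X} (hM : Modif ρ π B) {L : Bd W.X} (hL : IsLB ρ L)
    {s : L.ι → Y.X → ℂ} (hs : IsSec ρ (pull π L) s) :
    ∃ u, IsSec ρ L u ∧ ∀ a y, π y ∈ L.U a → s a y = u a (π y) := by
  obtain ⟨u, u1, u2⟩ := har ρ W Y π B Empty (fun l => l.elim) (fun _ => 0) L s hM
    (fun y => ⟨fun l => l.elim, fun l => l.elim, fun l => l.1.elim, fun _ _ =>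
      have : IsEmpty {l : Empty // y ∈ (l.elim : Set Y.X)} := ⟨fun l => l.1.elim⟩
      linearIndependent_empty_type⟩) hL (fun l => l.elim)
    (secP_of_sec continuous_id hs fun _ => le_rfl)
  exact ⟨u, u1, fun a y h => u2 a y h fun l => l.elim⟩

end S60

open S60

theorem sec60 : SEC := by
  intro ρ n W V ν H S hc ⟨A, lA, pA⟩ hν ⟨w, hw⟩ hH hP hS
  obtain ⟨I, hI⟩ := Rs.idl' Rs.idl _ W _ hS.1
  subst hI
  obtain ⟨Q⟩ := Rs.res ρ ρ W univ I an_univ (subM_open (isOpen_univ.sdiff hS.closed))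
  have hM : Modif ρ Q.π I.Z := ⟨hS, Q.ovr⟩
  have := hM.conn
  have hG := Hyp.of_snc Q.snc
  obtain ⟨O, σ, hD⟩ := hG.exists_div
  have lO := fun l => (hD l).lb
  obtain ⟨k, r, s, hk, hs⟩ := P280Z.Ld.va V H hH hP
  obtain ⟨x, x1, x2⟩ := hS.2.inter_nhds_nonempty (hw.near (hν.at w))
  obtain ⟨y, rfl⟩ := hM.surj x
  have hf : HolM ρ n fun z => ν (Q.π z) := hν.comp hM.hol
  have l1 := hf.lb hs.lb
  have l2 := lb_mul l1 (lb_mul (hM.hol.lb (lb_zp lA (-1))) (lb_lin lO fun _ => -1))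
  obtain ⟨j, u, hu, z, -, a, h1, h2, -⟩ := En.kod Rs.res (St.start_of genS) genS ρ Q.V _ _ this l1 l2
    (kap hf (Imm.comp (hν.at _) (hM.hol.at y) x2 (hM.2.imm y x1)) hs)
  have l3 := lb_mul (lb_pow l1 j) l2
  have l4 := lb_lin lO fun _ => ((1 : ℕ) : ℤ)
  have lP := hν.lb hH
  have l5 := lb_mul (lb_pow lP (k * (j + 1))) (lb_zp lA (-1))
  have l6 := lb_mul l3 l4
  have e1 : cls ρ (pull (fun z => ν (Q.π z)) (H.pow k)) = k • hM.hol.pic (cls ρ (pull ν H)) := by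
    rw [← cls_pull hM.hol lP, ← cls_pow (hM.hol.lb lP)]
    rfl
  obtain ⟨τ, hτ⟩ := (cls_eq (hM.hol.lb l5) l6).1 (by
    rw [cls_mul l3 l4, cls_mul (lb_pow l1 j) l2,
      cls_mul l1 (lb_mul (hM.hol.lb (lb_zp lA (-1))) (lb_lin lO fun _ => -1)),
      cls_mul (hM.hol.lb (lb_zp lA (-1))) (lb_lin lO fun _ => -1), cls_pow l1, e1, cls_lin lO,
      cls_lin lO, cls_pull hM.hol l5, cls_mul (lb_pow lP _) (lb_zp lA (-1)), cls_pow lP, map_add,
      map_nsmul, cls_pull hM.hol (lb_zp lA (-1))]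
    simp only [neg_smul, Nat.cast_one, one_smul, Finset.sum_neg_distrib]
    module)
  have hm := sec_mon (fun l => (hD l).sec) fun _ => 1
  have hv : IsSec ρ _ (fun p : (Bd.mul _ _).ι => fun y => u 0 p.1 y * mon σ (fun _ => 1) p.2 y) :=
    isSec_of (fun _ _ e => (sec_hol (hu 0) e.1).mul (sec_hol hm e.2)) fun p q y e e' => by
      rw [(hu 0).change _ _ y e.1 e'.1, hm.change _ _ y e.2 e'.2]
      exact mul_mul_mul_comm _ _ _ _
  obtain ⟨t, t1, t2⟩ := desc hM l5 (hτ.sec (hM.hol.lb l5) l6 hv)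
  obtain ⟨z', z1, z2, z3⟩ := hG.dense.inter_nhds_nonempty
    (((sec_hol (hu 0) h1).ne_near h2).and (lb_near l3 h1))
  refine ⟨A, _, t, k * (j + 1), ⟨lP, lA, l5, pA, t1, Nat.mul_pos hk j.succ_pos, by
    rw [cls_mul (lb_pow lP _) (lb_zp lA (-1)), cls_pow lP, cls_zp lA]
    module⟩, ⟨Q.π z', fun b hb => ?_⟩, fun x hx k => ?_⟩
  · rw [← t2 b z' hb]
    refine hτ.nz l6 (fun p hp => mul_ne_zero ?_ (mon_ne hD _ hp.2 fun l _ => z1 l)) b hb
    exact (nz_iff l3 (fun a b => (hu 0).change a b z') z3).2 z2 p.1 hp.1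
  · obtain ⟨y, rfl⟩ := hM.surj x
    obtain ⟨l, hl⟩ := (Q.bad y).1 hx
    obtain ⟨b, hb⟩ := l5.cover (Q.π y)
    obtain ⟨p, hp⟩ := l6.cover y
    refine k b hb ?_
    rw [← t2 b y hb, hτ.map_eq (hM.hol.lb l5) l6 (fun b b' => hv.change b b' y) hb hp]
    refine mul_eq_zero_of_right _ (mul_eq_zero_of_right _
      (Finset.prod_eq_zero (Finset.mem_univ l) ?_))
    rw [pow_one]
    exact ((hD l).leq _ y (hp.2 l)).mem.2 hl

end Vale.Agent.P280X.Kl
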