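import Vale.Agent.P280X.Kl.Defs
import Vale.Agent.P281Z.An.All
import Vale.Agent.P281Z.Rs.All
import Vale.Agent.P281Z.Mf.Sub

/-!
# P280X, block KL: row THN
-/

open scoped Manifold ContDiff Topology
open Set Filter
open Vale.Agent.P272.K Vale.Agent.P285.H281.FD Vale.Agent.P281Z Vale.Agent.P280Z

noncomputable section

namespace Vale.Agent.P280X.Kl

namespace ThnH

variable {d : ℕ} {W : Mf d}

/-- the set is the image of a connected manifold of lower dimension -/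
def Lw (W : Mf d) (T : Set W.X) : Prop :=
  ∃ ρ < d, ∃ (F : Mf ρ) (f : F.X → W.X), ConnectedSpace F.X ∧ HolM ρ d f ∧ range f = T

theorem one (h : RSV) (hW : W.Prj) {S : Set W.X} (hS : Thin d S) {e : ℕ} (F : Mf e)
    (f : F.X → W.X) (hF : ConnectedSpace F.X) (hf : HolM e d f) (k : range f ⊆ S) :
    Lw W (range f) := by
  obtain ⟨ρ, -, W', ν, Z, h1, -, h2, -, h3⟩ := h d e W F f ∅ hW hF hf an_empty fun l =>
    l ⟨Classical.arbitrary _, rfl⟩
  refine ⟨ρ, ?_, W', ν, h1, h2.ov.hol, h3⟩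
  obtain ⟨w, hw⟩ := h2.ov.dense.nonempty
  obtain ⟨c, g, h4, -, h5⟩ := h2.sub (ν w) ⟨⟨w, rfl⟩, hw⟩
  rcases Nat.eq_zero_or_pos c with rfl | hc
  · obtain ⟨y, k1, k2⟩ := hS.2.inter_nhds_nonempty h5
    exact (k1 (k (h3 ▸ (k2.2 fun a => a.elim0).1))).elim
  · omega

theorem fin {I : Type} [Finite I] (T : I → Set W.X) (h : ∀ i, Lw W (T i)) :
    ∃ A, Cv W d A ∧ ∀ i, T i ⊆ A := by
  classical
  have := Fintype.ofFinite I
  suffices k : ∀ s : Finset I, ∃ A, Cv W d A ∧ ∀ i ∈ s, T i ⊆ A from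
    let ⟨A, k1, k2⟩ := k Finset.univ
    ⟨A, k1, fun i => k2 i (Finset.mem_univ i)⟩
  intro s
  induction s using Finset.induction_on with
  | empty => exact ⟨∅, Cv.nil, fun i hi => (Finset.notMem_empty i hi).elim⟩
  | insert j s _ ih =>
    obtain ⟨A, k1, k2⟩ := ih
    obtain ⟨ρ, l1, F, f, l2, l3, l4⟩ := h j
    refine ⟨_, Cv.add F f l1 l2 l3 k1, fun i hi => ?_⟩
    rcases Finset.mem_insert.1 hi with rfl | hi
    · exact l4 ▸ subset_union_left
    · exact (k2 i hi).trans subset_union_right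

end ThnH

/-- **row THN** -/
theorem thn_of (h : RSV) : THN := by
  intro d W S hW hS
  obtain ⟨V, g, h1, h2, -⟩ := par_of_res res d W S hS.1
  choose J hJ U i k1 k2 _ k4 _ using fun e : Fin (d + 1) => comps (V e)
  obtain ⟨A, l1, l2⟩ := ThnH.fin (I := Σ e, J e) (fun q => range fun x => g q.1 (i q.1 q.2 x))
    fun q => ThnH.one h hW hS _ _ (k1 q.1 q.2) ((h1 q.1).comp (k2 q.1 q.2).hol) (by
      rintro _ ⟨x, rfl⟩
      rw [h2]
      exact mem_iUnion.2 ⟨q.1, _, rfl⟩)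
  refine ⟨A, l1, fun y hy => ?_⟩
  rw [h2] at hy
  obtain ⟨e, x, rfl⟩ := mem_iUnion.1 hy
  obtain ⟨j, z, rfl⟩ := k4 e x
  exact l2 ⟨e, j⟩ ⟨z, rfl⟩

end Vale.Agent.P280X.Kl
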