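import Vale.Agent.P280X.Kl.Defs
import Vale.Agent.P272.K.AMP.Calc
import Vale.Agent.P272.K.Inv.Hess

/-!
# P280X, block KL: the regularized maximum (row MAXG)
-/

open scoped Manifold ContDiff Topology Matrix ComplexOrder
open Set Filter
open Vale.Agent.P272.K Vale.Agent.P285.H281.FD Vale.Agent.P281Z Vale.Agent.P280Z
open Vale.Agent.P277Z (at_chart Hol)

noncomputable section

namespace Vale.Agent.P280X.Kl

namespace M84

theorem exm : ∃ m : ℝ → ℝ, ContDiff ℝ ∞ m ∧ (∀ t ≤ 0, m t = 0) ∧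
    deriv m = Real.smoothTransition := by
  have hc : Continuous Real.smoothTransition := Real.smoothTransition.continuous
  have hd : ∀ t, HasDerivAt (fun t => ∫ s in (0 : ℝ)..t, Real.smoothTransition s)
      (Real.smoothTransition t) t := fun t => (hc.integral_hasStrictDerivAt 0 t).hasDerivAt
  have he : deriv (fun t => ∫ s in (0 : ℝ)..t, Real.smoothTransition s) = Real.smoothTransition :=
    funext fun t => (hd t).deriv
  refine ⟨_, contDiff_infty_iff_deriv.2 ⟨fun t => (hd t).differentiableAt, ?_⟩, fun t ht => ?_, he⟩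
  · rw [he]
    exact Real.smoothTransition.contDiff
  · rw [intervalIntegral.integral_congr (g := fun _ => 0) fun s hs =>
      Real.smoothTransition.zero_of_nonpos ((uIcc_of_ge ht ▸ hs : s ∈ Icc t 0).2)]
    simp

theorem comb {d : ℕ} {P Q G : Matrix (Fin d) (Fin d) ℂ} {a c : ℝ} (h0 : 0 ≤ a) (h1 : a ≤ 1)
    (hc : 0 ≤ c) (hP : a = 1 ∨ P.PosDef) (hQ : Q.PosDef) (hG : G.PosSemidef) :
    (P + ((a : ℂ) • (Q - P) + (c : ℂ) • G)).PosDef := by
  have e : P + ((a : ℂ) • (Q - P) + (c : ℂ) • G) =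
      (((1 - a : ℝ) : ℂ) • P + (a : ℂ) • Q) + (c : ℂ) • G := by
    push_cast
    module
  rw [e]
  refine Matrix.PosDef.add_posSemidef ?_ (hG.smul (by exact_mod_cast hc))
  rcases h1.eq_or_lt with rfl | h
  · simpa using hQ
  · exact ((hP.resolve_left h.ne).smul (by exact_mod_cast sub_pos.2 h)).add_posSemidef
      (hQ.posSemidef.smul (by exact_mod_cast h0))

theorem two {d : ℕ} {f : Cm d → ℝ} {z : Cm d} (h : ContDiffAt ℝ ∞ f z) : ContDiffAt ℝ 2 f z :=
  h.of_le (by exact WithTop.coe_le_coe.2 le_top)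

theorem lg {d : ℕ} {f : Cm d → ℂ} {z : Cm d} (h : AnalyticAt ℂ f z) (h0 : f z ≠ 0) :
    ContDiffAt ℝ ∞ (fun y => Real.log (‖f y‖ ^ 2)) z :=
  (((h.contDiffAt (n := ∞)).restrict_scalars ℝ).norm_sq ℂ).log (pow_ne_zero 2 (norm_ne_zero_iff.2 h0))

theorem cont {d : ℕ} {W : Mf d} {u : W.X → ℝ} {x : W.X}
    (h : ∀ e : Chart d W.X, At e x → ContDiffAt ℝ ∞ (fun z => u (e.symm z)) (e x)) :
    ContinuousAt u x := by
  have he := at_chart (n := d) x
  exact ((h _ he).continuousAt.comp ((chartAt (Cm d) x).continuousAt he.2)).congr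
    ((at_near he).mono fun y hy => congrArg u ((chartAt (Cm d) x).left_inv hy.2))

end M84

open M84

theorem maxg84 : MAXG := by
  classical
  intro d W B M O σ k ψ U hD hψ hU hZ
  obtain ⟨φ, hφ, pφ⟩ := hD.pos
  have lK := lb_pow hD.lB k
  have lN := lb_mul hD.lM hD.lO
  obtain ⟨t, ht⟩ := (cls_eq lK lN).1 (by rw [cls_pow hD.lB, cls_mul hD.lM hD.lO, hD.cl])
  have kp : (0 : ℝ) < k := Nat.cast_pos.2 hD.kp
  have lP := lb_mul hD.lB lN
  let w : (B.mul (M.mul O)).ι → W.X → ℂ := fun p y => σ p.2.2 y * t p.1 p.2 y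
  have hw : ∀ p x, x ∈ (B.mul (M.mul O)).U p → Hol d (w p) x := fun p x hx =>
    (sec_hol hD.sec hx.2.2).mul (ht.hol _ _ x hx.1 hx.2)
  have nw : ∀ p x, x ∈ (B.mul (M.mul O)).U p → NZ O σ x → w p x ≠ 0 := fun p x hx h =>
    mul_ne_zero (h _ hx.2.2) (ht.ne _ _ x hx.1 hx.2)
  have zw : ∀ p x, x ∈ (B.mul (M.mul O)).U p → ¬ NZ O σ x → w p x = 0 := fun p x hx h => by
    have : σ p.2.2 x = 0 := not_not.1 fun c =>
      h ((nz_iff hD.lO (fun a b => hD.sec.change a b x) hx.2.2).2 c)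
    simp only [w, this, zero_mul]
  obtain ⟨u, hu⟩ := glue lP
    (fun p y => (k : ℝ)⁻¹ * (φ p.2.1 y + Real.log (‖w p y‖ ^ 2)) - ψ p.1 y) (NZ O σ) (by
      intro p q x hp hq hx
      have g1 := norm_ne_zero_iff.2 (hD.lB.ne_zero _ _ x hp.1 hq.1)
      have g2 := norm_ne_zero_iff.2 (hD.lM.ne_zero _ _ x hp.2.1 hq.2.1)
      have g3 := norm_ne_zero_iff.2 (nw p x hp hx)
      have g4 := norm_ne_zero_iff.2 (nw q x hq hx)
      have e : w p x * M.g p.2.1 q.2.1 x = B.g p.1 q.1 x ^ k * w q x := by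
        have e1 := ht.chg p.1 q.1 p.2 q.2 x hp.1 hq.1 hp.2 hq.2
        simp only [Bd.mul, Bd.pow] at e1
        simp only [w]
        rw [hD.sec.change _ _ x hp.2.2 hq.2.2]
        linear_combination σ q.2.2 x * e1
      have e2 := congrArg (fun c => Real.log ‖c‖) e
      simp only [norm_mul, norm_pow] at e2
      rw [Real.log_mul g3 g2, Real.log_mul (pow_ne_zero _ g1) g4, Real.log_pow] at e2
      rw [hφ.change _ _ x hp.2.1 hq.2.1, hψ.change _ _ x hp.1 hq.1]
      simp only [Real.log_pow]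
      push_cast
      field_simp
      linear_combination 2 * e2)
  have op : ∀ x, NZ O σ x → ∀ᶠ y in 𝓝 x, NZ O σ y := fun x hx => by
    obtain ⟨b, hb⟩ := hD.lO.cover x
    filter_upwards [lb_near hD.lO hb, (sec_hol hD.sec hb).cont.eventually_ne (hx b hb)] with y k1 k2
    exact (nz_iff hD.lO (fun a b => hD.sec.change a b y) k1).2 k2
  have ev : ∀ p x, x ∈ (B.mul (M.mul O)).U p → NZ O σ x → ∀ e : Chart d W.X, At e x →
      (fun z => u (e.symm z)) =ᶠ[𝓝 (e x)] fun z => (k : ℝ)⁻¹ * (φ p.2.1 (e.symm z) +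
        Real.log (‖w p (e.symm z)‖ ^ 2)) - ψ p.1 (e.symm z) := fun p x hp hx e he =>
    at_ev he (P := fun y => u y = (k : ℝ)⁻¹ * (φ p.2.1 y + Real.log (‖w p y‖ ^ 2)) - ψ p.1 y)
      (((lb_near lP hp).and (op x hx)).mono fun y hy => hu p y hy.1 hy.2)
  have sl : ∀ p x, x ∈ (B.mul (M.mul O)).U p → NZ O σ x → ∀ e : Chart d W.X, At e x →
      ContDiffAt ℝ ∞ (fun z => Real.log (‖w p (e.symm z)‖ ^ 2)) (e x) := fun p x hp hx e he =>
    lg (hw p x hp e he) (by rw [e.left_inv he.2]; exact nw p x hp hx)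
  have su : ∀ x, NZ O σ x → ∀ e : Chart d W.X, At e x →
      ContDiffAt ℝ ∞ (fun z => u (e.symm z)) (e x) := fun x hx e he => by
    obtain ⟨p, hp⟩ := lP.cover x
    exact ((contDiffAt_const.mul ((hφ.smooth _ e x he hp.2.1).add (sl p x hp hx e he))).sub
      (hψ.smooth _ e x he hp.1)).congr_of_eventuallyEq (ev p x hp hx e he)
  have lo : ∀ (c : ℝ) x, ¬ NZ O σ x → ∀ᶠ y in 𝓝 x, NZ O σ y → u y ≤ c := fun c x hx => by
    obtain ⟨p, hp⟩ := lP.cover x
    have c1 := cont fun e he => hφ.smooth _ e x he hp.2.1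
    have c2 := cont fun e he => hψ.smooth _ e x he hp.1
    have c3 : ContinuousAt (fun y => ‖w p y‖ ^ 2) x := (hw p x hp).cont.norm.pow 2
    filter_upwards [lb_near lP hp, c1.eventually_lt_const (lt_add_one _),
      c2.eventually_const_lt (sub_one_lt _), c3.eventually_lt_const
        (show _ < Real.exp (k * (c + (ψ p.1 x - 1)) - (φ p.2.1 x + 1)) by
          simp only [zw p x hp hx, norm_zero]
          simpa using Real.exp_pos _)] with y k1 k2 k3 k4 k5
    have k6 := (Real.log_lt_iff_lt_exp (pow_pos (norm_pos_iff.2 (nw p y k1 k5)) 2)).2 k4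
    rw [hu p y k1 k5, sub_le_iff_le_add, inv_mul_le_iff₀ kp]
    have := mul_le_mul_of_nonneg_left k3.le kp.le
    nlinarith
  have nU : ∀ x ∉ U, NZ O σ x := fun x hx => not_not.1 fun c => hx (hZ x c)
  obtain ⟨c, hc⟩ := (hU.isClosed_compl.isCompact.bddBelow_image fun x hx =>
    (cont (su x (nU x hx))).continuousWithinAt :)
  obtain ⟨m, m1, m2, m3⟩ := exm
  have g0 : ∀ x, ¬ NZ O σ x → ∀ᶠ y in 𝓝 x, (if NZ O σ y then m (u y + (1 - c)) else 0) = 0 :=
    fun x hx => (lo (c - 1) x hx).mono fun y hy => by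
      split_ifs with h
      exacts [m2 _ (by linarith [hy h]), rfl]
  have g1 : ∀ x, NZ O σ x → ∀ e : Chart d W.X, At e x → ∀ᶠ z in 𝓝 (e x),
      (if NZ O σ (e.symm z) then m (u (e.symm z) + (1 - c)) else 0) =
        m (u (e.symm z) + (1 - c)) := fun x hx e he =>
    (at_ev he (op x hx)).mono fun z hz => if_pos hz
  refine ⟨fun y => if NZ O σ y then m (u y + (1 - c)) else 0, fun e x he => ?_, g0,
    fun x hx hp i e he hi => ?_⟩
  · by_cases hx : NZ O σ x
    · exact (m1.contDiffAt.comp _ ((su x hx e he).add contDiffAt_const)).congr_of_eventuallyEq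
        (g1 x hx e he)
    · exact contDiffAt_const.congr_of_eventuallyEq (at_ev he (g0 x hx))
  obtain ⟨q, hq⟩ := lN.cover x
  have hp' : x ∈ (B.mul (M.mul O)).U (i, q) := ⟨hi, hq⟩
  have s1 := two (hψ.smooth i e x he hi)
  have s2 := two (hφ.smooth _ e x he hq.1)
  have s3 := two (sl _ x hp' hx e he)
  have s4 := two (su x hx e he)
  have s5 : ContDiffAt ℝ 2 (fun z => u (e.symm z) + (1 - c)) (e x) := s4.add contDiffAt_const
  have s6 : ContDiffAt ℝ 2 m (u (e.symm (e x)) + (1 - c)) :=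
    m1.contDiffAt.of_le (by exact WithTop.coe_le_coe.2 le_top)
  have s7 : ContDiffAt ℝ 2 (fun z => m (u (e.symm z) + (1 - c))) (e x) := s6.comp (e x) s5
  have e1 : cHess (fun z => u (e.symm z) + (1 - c)) (e x) =
      (((k : ℝ)⁻¹ : ℝ) : ℂ) • cHess (fun z => φ q.1 (e.symm z)) (e x) -
        cHess (fun z => ψ i (e.symm z)) (e x) := by
    rw [C2.cHess_add s4 contDiffAt_const, C2.cHess_const, add_zero,
      C2.cHess_congr (ev _ x hp' hx e he), C2.cHess_sub (contDiffAt_const.mul (s2.add s3)) s1,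
      C2.cHess_const_mul _ (s2.add s3), C2.cHess_add s2 s3, cHess_log_norm_sq
        (hw _ x hp' e he).contDiffAt (by rw [e.left_inv he.2]; exact nw _ x hp' hx), add_zero]
  rw [C2.cHess_congr (v := fun z => ψ i (e.symm z) + m (u (e.symm z) + (1 - c)))
    ((g1 x hx e he).mono fun z hz => congrArg (ψ i (e.symm z) + ·) hz),
    C2.cHess_add s1 s7, AMP.cHess_comp_real s6 s5, e1, m3]
  refine comb (Real.smoothTransition.nonneg _) (Real.smoothTransition.le_one _)
    (Real.smoothTransition.monotone.deriv_nonneg) ?_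
    ((pφ _ e x he hq.1).smul (by exact_mod_cast inv_pos.2 kp)) (AMP.gm_self_posSemidef _ _)
  by_cases hxU : x ∈ U
  · exact .inr (hp hxU i e he hi)
  · refine .inl (Real.smoothTransition.one_of_one_le ?_)
    rw [e.left_inv he.2]
    linarith [hc ⟨x, hxU, rfl⟩]

end Vale.Agent.P280X.Kl
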