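import Vale.Agent.P280X.Kl.Defs
import Vale.Agent.P281Z.Lf.Rech

/-!
# P280X, block KL: one stratum (row STEP)
-/

open scoped Manifold ContDiff Topology Matrix ComplexOrder
open Set Filter
open Vale.Agent.P272.K Vale.Agent.P285.H281.FD Vale.Agent.P281Z
open Vale.Agent.P277Z (at_chart)
open Vale.Agent.P277.HD (pull)

noncomputable section

namespace Vale.Agent.P280X.Kl

namespace StepH

variable {n p : ℕ} {V : Mf n} {W : Mf p} {B : Bd V.X} {ψ ψ' : B.ι → V.X → ℝ} {x : V.X}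

theorem tend {e : Chart n V.X} (he : At e x) : Tendsto e.symm (𝓝 (e x)) (𝓝 x) :=
  e.tendsto_symm he.2

theorem cng (h : PosAt n B ψ x) (k : ∀ᶠ y in 𝓝 x, ∀ i, ψ' i y = ψ i y) : PosAt n B ψ' x :=
  fun i e he hi => by
    have : (fun z => ψ' i (e.symm z)) =ᶠ[𝓝 (e x)] fun z => ψ i (e.symm z) :=
      ((tend he).eventually k).mono fun _ hz => hz i
    have t : cHess (fun z => ψ' i (e.symm z)) (e x) = cHess (fun z => ψ i (e.symm z)) (e x) :=
      P272.K.cHess_congr this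
    exact t ▸ h i e he hi

theorem add (h : IsMet n B ψ) {g : V.X → ℝ} (hg : SmoothFn (n := n) g) :
    IsMet n B fun i y => ψ i y + g y :=
  ⟨fun i e x he hi => (h.smooth i e x he hi).add (hg e x he), fun i j x hi hj => by
    rw [h.change i j x hi hj]; ring⟩

theorem pl {f : W.X → V.X} (hf : HolM p n f) (h1 : IsMet n B ψ) :
    IsMet p (pull f B) (fun i y => ψ i (f y)) ∧ ∀ x, Imm p n f x → PosAt n B ψ (f x) →
      PosAt p (pull f B) (fun i y => ψ i (f y)) x := by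
  have e0 : ∀ i (e : Chart p W.X) x, At e x → (fun z => ψ i (f (e.symm z))) =ᶠ[𝓝 (e x)] fun z =>
      ψ i ((chartAt (Cm n) (f x)).symm (chartAt (Cm n) (f x) (f (e.symm z)))) := fun i e x he =>
    (at_map (hf.at x).cont he (at_chart _)).mono fun z hz => congrArg (ψ i) hz.left_inv.symm
  have s0 : ∀ i (e : Chart p W.X) x, At e x → f x ∈ B.U i → ContDiffAt ℝ ∞
      (fun z => ψ i ((chartAt (Cm n) (f x)).symm z)) (chartAt (Cm n) (f x) (f (e.symm (e x)))) :=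
    fun i e x he hi => he.left_inv.symm ▸ h1.smooth i _ _ (at_chart _) hi
  have s1 : ∀ i (e : Chart p W.X) x, At e x → f x ∈ B.U i →
      ContDiffAt ℝ ∞ (fun z => ψ i (f (e.symm z))) (e x) := fun i e x he hi =>
    ContDiffAt.congr_of_eventuallyEq (ContDiffAt.comp (e x)
      (f := fun z => chartAt (Cm n) (f x) (f (e.symm z))) (s0 i e x he hi)
      (((hf.at x).an he (at_chart _)).restrictScalars (𝕜 := ℝ)).contDiffAt) (e0 i e x he)
  refine ⟨⟨s1, fun i j x => h1.change i j (f x)⟩, fun x h h2 i e he hi => ?_⟩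
  have t : (2 : WithTop ℕ∞) ≤ ∞ := WithTop.coe_le_coe.2 le_top
  refine (Lf.posDef_iff ((s1 i e x he hi).of_le t)).2 fun w hw => ?_
  have s2 := (s0 i e x he hi).of_le t
  rw [Hm.levi_congr (e0 i e x he), Hm.levi_comp
    (g := fun z => chartAt (Cm n) (f x) (f (e.symm z))) s2 ((hf.at x).an he (at_chart _))]
  rw [he.left_inv] at s2 ⊢
  exact (Lf.posDef_iff s2).1 (h2 i _ (at_chart _) hi) _ fun k =>
    hw ((injective_iff_map_eq_zero _).1 (h e _ he (at_chart _)) w k)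

end StepH

open StepH in
/-- row STEP -/
theorem step_of (hO : OPN) (hm : MIN) (hM : MAXG) (hE : EXT) (hL : LOC) : STEP := by
  classical
  rintro ρ n W V ν Z S B M O σ k hR hB hD h1 h2 ⟨ψ, hψ, hS⟩
  have hν := hR.ov.hol
  have oU := hO n V B ψ hB hψ
  obtain ⟨m1, m2⟩ := pl hν hψ
  obtain ⟨g, g1, g2, g3⟩ := hM ρ W _ M O σ k _ (ν ⁻¹' {x | PosAt n B ψ x}) hD m1
    (oU.preimage hν.cont) fun w hw => hS _ (h2 w hw)
  obtain ⟨G, G1, G2, G3⟩ := hE ρ n W V ν Z g hR g1 fun w hw => g2 w (h1 w hw)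
  have hφ := add hψ G1
  have oN : IsOpen {x | PosAt n B ψ x ∧ ∀ᶠ y in 𝓝 x, G y = 0} :=
    oU.inter isOpen_setOfPred_eventually_nhds
  have pN : ∀ x, PosAt n B ψ x → (∀ᶠ y in 𝓝 x, G y = 0) →
      PosAt n B (fun i y => ψ i y + G y) x := fun x k1 k2 =>
    cng k1 (k2.mono fun y hy i => by rw [hy, add_zero])
  have cK : IsCompact (range ν \ {x | PosAt n B ψ x ∧ ∀ᶠ y in 𝓝 x, G y = 0}) :=
    (isCompact_range hν.cont).diff oN
  have key : ∀ x ∈ range ν \ {x | PosAt n B ψ x ∧ ∀ᶠ y in 𝓝 x, G y = 0},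
      ∃ R : V.X → ℝ, SmoothFn (n := n) R ∧ (∀ x ∈ Z, ∀ᶠ y in 𝓝 x, R y = 0) ∧ (∀ x, 0 ≤ R x) ∧
        (∀ y, R (ν y) = 0) ∧ PosAt n B (fun i y => ψ i y + G y + R y) x := by
    rintro _ ⟨⟨w, rfl⟩, hw⟩
    have hZ : ν w ∉ Z := fun c => hw ⟨hS _ (h2 w (h1 w c)), G3 _ c⟩
    refine hL ρ n W V ν Z B _ w hR hB hφ hZ ?_
    simp only [G2]
    by_cases c : NZ O σ w
    · exact g3 w c (m2 w (hR.ov.imm w hZ))
    · exact cng (m2 w (hR.ov.imm w hZ) (hS _ (h2 w c)))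
        ((g2 w c).mono fun y hy i => by rw [hy, add_zero])
  choose! R R1 R2 R3 R4 R5 using key
  obtain ⟨t, t1, t2⟩ := cK.elim_nhds_subcover
    (fun x => {y | PosAt n B (fun i y => ψ i y + G y + R x y) y}) fun x hx =>
      (hO n V B _ hB (add hφ (R1 x hx))).mem_nhds (R5 x hx)
  have sm : ∀ s ⊆ t, SmoothFn (n := n) fun y => ∑ x ∈ s, R x y := fun s hs e y he =>
    ContDiffAt.sum fun x hx => R1 x (t1 x (hs hx)) e y he
  have nn : ∀ s ⊆ t, ∀ y, 0 ≤ ∑ x ∈ s, R x y := fun s hs y =>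
    Finset.sum_nonneg fun x hx => R3 x (t1 x (hs hx)) y
  have zz : ∀ s ⊆ t, ∀ w, ∑ x ∈ s, R x (ν w) = 0 := fun s hs w =>
    Finset.sum_eq_zero fun x hx => R4 x (t1 x (hs hx)) w
  refine ⟨_, add hφ (sm t subset_rfl), ?_⟩
  rintro x (⟨w, rfl⟩ | ⟨x1, x2⟩)
  · by_cases c : ν w ∈ {x | PosAt n B ψ x ∧ ∀ᶠ y in 𝓝 x, G y = 0}
    · exact hm n V B _ _ _ hB hφ (sm t subset_rfl) (nn t subset_rfl) (zz t subset_rfl w)
        (pN _ c.1 c.2)
    · obtain ⟨x, hx, k⟩ := mem_iUnion₂.1 (t2 ⟨⟨w, rfl⟩, c⟩)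
      have s := Finset.erase_subset x t
      refine cng (hm n V B _ _ _ hB (add hφ (R1 x (t1 x hx))) (sm _ s) (nn _ s) (zz _ s w) k)
        (.of_forall fun y i => ?_)
      rw [← Finset.add_sum_erase t _ hx, add_assoc (ψ i y + G y)]
  · refine cng (pN x (hS x x1) (G3 x x2)) ?_
    filter_upwards [(eventually_all_finset t).2 fun z hz => R2 z (t1 z hz) x x2] with y hy i
    rw [Finset.sum_eq_zero hy, add_zero]

end Vale.Agent.P280X.Kl
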