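import Vale.Agent.P280Z.Hr.Bl
import Vale.Agent.P280Z.Rh.Defs
import Vale.Agent.P281Z.Sc.Pic
import Vale.Agent.P272.K.Iface

/-!
# P280X, block KL: the theorem of Kleiman and the top Segre number (definitions, rows)
-/

open scoped Manifold ContDiff Topology Matrix ComplexOrder
open Set Filter
open Vale.Agent.P272.K Vale.Agent.P285.H281.FD Vale.Agent.P281Z Vale.Agent.P280Z
open Vale.Agent.P277 (Bd.inv)
open Vale.Agent.P277Z (at_chart)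
open Vale.Agent.P277.HD (pull)
open Vale.Agent.P280Z.Rh (Th Cls)

noncomputable section

namespace Vale.Agent.P280X.Kl

section
variable (n : ℕ) {X : Type} [TopologicalSpace X] [ChartedSpace (Cm n) X]

/-- the curvature of the weights `ψ` is positive at `x` -/
def PosAt (L : Bd X) (ψ : L.ι → X → ℝ) (x : X) : Prop :=
  ∀ i (e : Chart n X), At e x → x ∈ L.U i → (cHess (fun z => ψ i (e.symm z)) (e x)).PosDef

/-- there is a metric whose curvature is positive along `Z` -/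
def PosOn (L : Bd X) (Z : Set X) : Prop := ∃ ψ, IsMet n L ψ ∧ ∀ x ∈ Z, PosAt n L ψ x

end

/-- the degree on the curves is not negative -/
def Cn {n : ℕ} (V : Mf n) (L : Bd V.X) : Prop :=
  ∀ (C : Mf 1) (f : C.X → V.X), ConnectedSpace C.X → HolM 1 n f → ¬ Pos 1 (Bd.inv (pull f L))

/-- limits of positive bundles -/
def Nf {n : ℕ} (V : Mf n) (L : Bd V.X) : Prop :=
  ∀ H : Bd V.X, IsLB n H → Pos n H → ∀ i : ℕ, Pos n ((L.pow i).mul H)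

/-- the same in lower dimension -/
def Low {n : ℕ} (V : Mf n) (L : Bd V.X) : Prop :=
  ∀ ρ < n, ∀ (W : Mf ρ) (ν : W.X → V.X), ConnectedSpace W.X → W.Prj → HolM ρ n ν →
    Nf W (pull ν L)

/-- finite unions of images of connected manifolds of dimension less than `d` -/
inductive Cv {n : ℕ} (V : Mf n) (d : ℕ) : Set V.X → Prop
  | nil : Cv V d ∅
  | add {e : ℕ} (F : Mf e) (f : F.X → V.X) {A : Set V.X} : e < d → ConnectedSpace F.X →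
      HolM e n f → Cv V d A → Cv V d (range f ∪ A)

/-- `ν` is a resolution of its image, an isomorphism over the complement of `Z` -/
structure Rs {ρ n : ℕ} {W : Mf ρ} {V : Mf n} (ν : W.X → V.X) (Z : Set V.X) : Prop where
  ov : Over ρ n ν (range ν) Z
  an : An n Z
  sub : SubM n ρ (range ν \ Z)

/-- `k B = M + O`, with `M` positive and a section `σ` of `O` -/
structure Dc {d : ℕ} (W : Mf d) (B M O : Bd W.X) (σ : O.ι → W.X → ℂ) (k : ℕ) : Prop where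
  lB : IsLB d B
  lM : IsLB d M
  lO : IsLB d O
  pos : Pos d M
  sec : IsSec d O σ
  kp : 0 < k
  cl : k • cls d B = cls d M + cls d O

/-- ROW RSV -/
def RSV : Prop := ∀ (n e : ℕ) (V : Mf n) (F : Mf e) (f : F.X → V.X) (S : Set V.X), V.Prj →
  ConnectedSpace F.X → HolM e n f → An n S → ¬ range f ⊆ S →
  ∃ ρ ≤ e, ∃ (W : Mf ρ) (ν : W.X → V.X) (Z : Set V.X), ConnectedSpace W.X ∧ W.Prj ∧ Rs ν Z ∧
    S ⊆ Z ∧ range ν = range f

/-- ROW THN -/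
def THN : Prop := ∀ (d : ℕ) (W : Mf d) (S : Set W.X), W.Prj → Thin d S → ∃ A, Cv W d A ∧ S ⊆ A

/-- ROW SEC -/
def SEC : Prop := ∀ (ρ n : ℕ) (W : Mf ρ) (V : Mf n) (ν : W.X → V.X) (H : Bd V.X) (S : Set W.X),
  ConnectedSpace W.X → W.Prj → HolM ρ n ν → (∃ w, Imm ρ n ν w) → IsLB n H → Pos n H → Thin ρ S →
  ∃ (A O : Bd W.X) (σ : O.ι → W.X → ℂ) (k : ℕ), Dc W (pull ν H) A O σ k ∧ (∃ w, NZ O σ w) ∧
    ∀ w ∈ S, ¬ NZ O σ w

/-- ROW OPN -/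
def OPN : Prop := ∀ (n : ℕ) (V : Mf n) (B : Bd V.X) (ψ : B.ι → V.X → ℝ), IsLB n B → IsMet n B ψ →
  IsOpen {x | PosAt n B ψ x}

/-- ROW MAXG: the regularized maximum -/
def MAXG : Prop := ∀ (d : ℕ) (W : Mf d) (B M O : Bd W.X) (σ : O.ι → W.X → ℂ) (k : ℕ)
  (ψ : B.ι → W.X → ℝ) (U : Set W.X), Dc W B M O σ k → IsMet d B ψ → IsOpen U →
  (∀ x, ¬ NZ O σ x → x ∈ U) →
  ∃ g : W.X → ℝ, SmoothFn (n := d) g ∧ (∀ x, ¬ NZ O σ x → ∀ᶠ y in 𝓝 x, g y = 0) ∧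
    ∀ x, NZ O σ x → (x ∈ U → PosAt d B ψ x) → PosAt d B (fun i y => ψ i y + g y) x

/-- ROW EXT: extension of smooth functions -/
def EXT : Prop := ∀ (ρ n : ℕ) (W : Mf ρ) (V : Mf n) (ν : W.X → V.X) (Z : Set V.X) (g : W.X → ℝ),
  Rs ν Z → SmoothFn (n := ρ) g → (∀ w, ν w ∈ Z → ∀ᶠ y in 𝓝 w, g y = 0) →
  ∃ G : V.X → ℝ, SmoothFn (n := n) G ∧ (∀ w, G (ν w) = g w) ∧ ∀ x ∈ Z, ∀ᶠ y in 𝓝 x, G y = 0

/-- ROW LOC: the normal directions at one point -/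
def LOC : Prop := ∀ (ρ n : ℕ) (W : Mf ρ) (V : Mf n) (ν : W.X → V.X) (Z : Set V.X) (B : Bd V.X)
  (φ : B.ι → V.X → ℝ) (w : W.X), Rs ν Z → IsLB n B → IsMet n B φ → ν w ∉ Z →
  PosAt ρ (pull ν B) (fun i y => φ i (ν y)) w →
  ∃ R : V.X → ℝ, SmoothFn (n := n) R ∧ (∀ x ∈ Z, ∀ᶠ y in 𝓝 x, R y = 0) ∧ (∀ x, 0 ≤ R x) ∧
    (∀ y, R (ν y) = 0) ∧ PosAt n B (fun i y => φ i y + R y) (ν w)

/-- ROW MIN: at a minimum the complex Hessian is semipositive -/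
def MIN : Prop := ∀ (n : ℕ) (V : Mf n) (B : Bd V.X) (φ : B.ι → V.X → ℝ) (R : V.X → ℝ) (x : V.X),
  IsLB n B → IsMet n B φ → SmoothFn (n := n) R → (∀ y, 0 ≤ R y) → R x = 0 → PosAt n B φ x →
  PosAt n B (fun i y => φ i y + R y) x

/-- ROW STEP -/
def STEP : Prop := ∀ (ρ n : ℕ) (W : Mf ρ) (V : Mf n) (ν : W.X → V.X) (Z S : Set V.X) (B : Bd V.X)
  (M O : Bd W.X) (σ : O.ι → W.X → ℂ) (k : ℕ), Rs ν Z → IsLB n B → Dc W (pull ν B) M O σ k →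
  (∀ w, ν w ∈ Z → ¬ NZ O σ w) → (∀ w, ¬ NZ O σ w → ν w ∈ S) → PosOn n B S →
  PosOn n B (range ν ∪ S ∩ Z)

/-- ROW IND -/
def IND : Prop := ∀ (n : ℕ) (V : Mf n) (L H : Bd V.X) (i : ℕ), V.Prj → IsLB n L → IsLB n H →
  Pos n H → Low V L → ∀ A, Cv V n A → PosOn n ((L.pow i).mul H) A

/-- ROW NK -/
def NK : Prop := ∀ (n : ℕ) (V : Mf n) (L H M O : Bd V.X) (σ : O.ι → V.X → ℂ) (i k : ℕ),
  ConnectedSpace V.X → V.Prj → IsLB n L → IsLB n H → Pos n H → Low V L →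
  Dc V ((L.pow i).mul H) M O σ k → (∃ x, NZ O σ x) → Pos n ((L.pow i).mul H)

/-- ROW NUM -/
def NUM : Prop := ∀ T : CT, T.OK → ∀ (d : ℕ) (V : Mf (d + 1)) (L P : Bd V.X),
  ConnectedSpace V.X → V.Prj → IsLB (d + 1) L → IsLB (d + 1) P → Bpf (d + 1) P → Cn V L →
  0 ≤ T.int V (T.c1 V P ^ d * T.c1 V L)

/-- ROW IMPR -/
def IMPR : Prop := ∀ (d : ℕ) (V : Mf (d + 1)) (L H : Bd V.X) (a b : ℕ), ConnectedSpace V.X →
  V.Prj → IsLB (d + 1) L → IsLB (d + 1) H → Pos (d + 1) H → Cn V L → Low V L → 0 < b →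
  Pos (d + 1) ((L.pow a).mul (H.pow b)) →
  Pos (d + 1) ((L.pow ((4 * d + 4) * a)).mul (H.pow ((4 * d + 3) * b)))

/-- ROW KL: the theorem of Kleiman -/
def KL : Prop := ∀ (n : ℕ) (V : Mf n) (L : Bd V.X), ConnectedSpace V.X → V.Prj → IsLB n L →
  Cn V L → Nf V L

/-- the cotangent bundle -/
def cotV {n : ℕ} (V : Mf n) : P281Z.VB n V where
  ι := Chart n V.X
  U e := {x | At e x}
  T e e' x := (dfM (fun y : V.X => y) e e' x)ᵀ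
  isOpen _ := isOpen_iff_mem_nhds.2 fun _ h => at_near h
  cover x := ⟨_, at_chart x⟩
  hol _ _ y h h' a b := hol_dfM (holM_id.at y) h h' b a
  self _ _ h := by rw [dfM_id_self h, Matrix.transpose_one]
  cocycle _ _ _ y h h' h'' := by
    rw [← Matrix.transpose_mul, ← dfM_comp (f := fun y => y) (g := fun y => y) (holM_id.at y)
      (holM_id.at y) h h' h'']

/-- ROW PTA -/
def PTA : Prop := ∀ (d : ℕ) (V : Mf (d + 1)) (P : PB (cotV V) (d + 1 + d)), Cls (d + 1) V →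
  ConnectedSpace P.P.X ∧ P.P.Prj ∧ Cn P.P P.H

/-- ROW PTB -/
def PTB : Prop := ∀ (d : ℕ) (V : Mf (d + 1)) (P : PB (cotV V) (d + 1 + d)),
  ∃ (K : VB P.P.X) (φ ψ : _), K.r = d ∧
    Ses (d + 1 + d) K ((VB.tan (d + 1) V.X).pull P.pr) (VB.ln P.H) φ ψ

/-- the complete symmetric functions of the roots of the tangent bundle -/
def Hs (T : CT) {n : ℕ} (V : Mf n) (h : ℕ → T.H V) : Prop :=
  h 0 = 1 ∧ ∀ k, ((k + 1 : ℕ) : ℝ) • h (k + 1) =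
    ∑ i ∈ Finset.range (k + 1), T.ps V (VB.tan n V.X) (i + 1) * h (k - i)

/-- ROW SGA -/
def SGA : Prop := ∀ T : CT, T.OK → ∀ (d : ℕ) (V : Mf (d + 1)) (P : Mf (d + 1 + d))
  (π : P.X → V.X) (H : Bd P.X) (K : VB P.X) (φ ψ : _) (h : ℕ → T.H V), Sub (d + 1 + d) (d + 1) π →
  IsLB (d + 1 + d) H → K.r = d →
  Ses (d + 1 + d) K ((VB.tan (d + 1) V.X).pull π) (VB.ln H) φ ψ →
  T.push π (T.c1 P H ^ d) = 1 → Hs T V h →
  T.int P (T.c1 P H ^ (d + 1 + d)) = T.int V (h (d + 1))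

/-- ROW TOPN -/
def TOPN : Prop := ∀ T : CT, T.OK → ∀ (n : ℕ) (V : Mf n) (L : Bd V.X), V.Prj → IsLB n L →
  Nf V L → 0 ≤ T.int V (T.c1 V L ^ n)

/-- **SEG** -/
def SEG : Prop := ∀ T : CT, Th T → ∀ {n : ℕ} (V : Mf n), Cls n V → ∀ h : ℕ → T.H V, h 0 = 1 →
  (∀ k, ((k + 1 : ℕ) : ℝ) • h (k + 1) =
    ∑ i ∈ Finset.range (k + 1), T.ps V (VB.tan n V.X) (i + 1) * h (k - i)) → 0 ≤ T.int V (h n)

end Vale.Agent.P280X.Kl
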