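import Vale.Agent.P280X.Kl.Defs
import Vale.Agent.P281Z.Mf.An
import Vale.Agent.P272.K.INT.Part

/-!
# P280X, block KL: extension of smooth functions
-/

open scoped Manifold ContDiff Topology
open Set Filter
open Vale.Agent.P272.K Vale.Agent.P285.H281.FD Vale.Agent.P281Z
open Vale.Agent.P277Z (at_chart)

noncomputable section

namespace Vale.Agent.P280X.Kl

namespace ExtH

variable {n p : ℕ} {X Y : Type} [TopologicalSpace X] [ChartedSpace (Cm n) X]
  [TopologicalSpace Y] [ChartedSpace (Cm p) Y] [IsManifold 𝓘(ℂ, Cm n) ω X]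
  [IsManifold 𝓘(ℂ, Cm p) ω Y]

theorem cm {r : X → Y} {x : X} (h : HolA n p r x) {g : Y → ℝ} (hg : SmoothFn (n := p) g) :
    ContMDiffAt 𝓘(ℝ, Cm n) 𝓘(ℝ, ℝ) ∞ (fun y => g (r y)) x := by
  have := INT.isManifold_real n X
  have he := at_chart (n := n) x
  have he' := at_chart (n := p) (r x)
  have h1 : ContDiffAt ℝ ∞ (fun z => g ((chartAt (Cm p) (r x)).symm z))
      (chartAt (Cm p) (r x) (r ((chartAt (Cm n) x).symm (chartAt (Cm n) x x)))) := by
    rw [he.left_inv]
    exact hg _ _ he'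
  have h2 := h1.comp (f := fun z => chartAt (Cm p) (r x) (r ((chartAt (Cm n) x).symm z))) _
    (((h.an he he').contDiffAt (n := ∞)).restrict_scalars ℝ)
  have h3 : ContMDiffAt 𝓘(ℝ, Cm n) 𝓘(ℝ, Cm n) ∞ (chartAt (Cm n) x) x :=
    (contMDiffOn_of_mem_maximalAtlas (IsManifold.subset_maximalAtlas he.1)).contMDiffAt
      ((chartAt (Cm n) x).open_source.mem_nhds he.2)
  refine ((contMDiffAt_iff_contDiffAt.2 h2).comp x h3).congr_of_eventuallyEq ?_
  filter_upwards [at_near he, h.cont.eventually (at_near he')] with y k1 k2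
  simp only [Function.comp_apply, k1.left_inv, k2.left_inv]

end ExtH

theorem ext : EXT := by
  intro ρ n W V ν Z g R hg h0
  have := INT.isManifold_real n V.X
  have hc := R.ov.hol.cont
  have hK : IsClosed (ν '' tsupport g) := hc.isClosedMap _ (isClosed_tsupport g)
  obtain ⟨C, c1, c2, c3⟩ := exists_compact_between R.an.closed.isCompact hK.isOpen_compl (by
    rintro _ hz ⟨w, hw, rfl⟩
    exact notMem_tsupport_iff_eventuallyEq.2 (h0 w hz) hw)
  obtain ⟨G, hG⟩ := exists_contMDiffMap_forall_mem_convex_of_local (n := ⊤) 𝓘(ℝ, Cm n)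
    (t := fun x : V.X => {r : ℝ | (∀ w, ν w = x → r = g w) ∧ (x ∈ C → r = 0)}) (fun x => by
      intro a ha b hb s t _ _ st
      refine ⟨fun w hw => ?_, fun hx => ?_⟩
      · rw [ha.1 w hw, hb.1 w hw, ← add_smul, st, one_smul]
      · rw [ha.2 hx, hb.2 hx, smul_zero, smul_zero, add_zero]) fun x => by
      by_cases hx : x ∈ ν '' tsupport g
      · obtain ⟨w, hw, rfl⟩ := hx
        have xC : ν w ∉ C := fun k => c3 k ⟨w, hw, rfl⟩
        have xZ : ν w ∉ Z := fun k => xC (interior_subset (c2 k))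
        obtain ⟨r, -, r2, r3⟩ := (R.ov.imm w xZ).ret (R.ov.hol.at w)
        have r4 := hc.isClosedMap.eventually_nhds_fiber (p := fun y => r (ν y) = y) (ν w)
          fun w' k => by rw [(R.ov.one _ ⟨w, rfl⟩ xZ).unique k rfl]; exact r3
        refine ⟨_, (r2.near.and r4).and (c1.isClosed.isOpen_compl.mem_nhds xC), fun y => g (r y),
          fun y k => (ExtH.cm k.1.1 hg).contMDiffWithinAt, fun y k => ⟨fun w' e => ?_, fun e =>
            (k.2 e).elim⟩⟩
        have l := k.1.2 w' e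
        rw [← e]
        exact congrArg g l
      · exact ⟨_, hK.isOpen_compl.mem_nhds hx, fun _ => 0, contMDiffOn_const, fun y k =>
          ⟨fun w e => (image_eq_zero_of_notMem_tsupport fun l => k ⟨w, l, e⟩).symm, fun _ => rfl⟩⟩
  refine ⟨G, INT.smoothFn_of_contMDiff G.contMDiff, fun w => (hG _).1 w rfl, fun x hx => ?_⟩
  filter_upwards [mem_interior_iff_mem_nhds.1 (c2 hx)] with y k using (hG y).2 k

end Vale.Agent.P280X.Kl
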