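import Vale.Agent.P280X.Kl.Defs
import Vale.Agent.P285S.E3.Siu
import Vale.Agent.P285W.J.Scale
import Vale.Agent.P280Z.Co.All

/-!
# P280X, block KL, row IMPR: the inequality of Siu improves the ratio
-/

open Set Filter
open Vale.Agent.P272.K Vale.Agent.P285.H281.FD Vale.Agent.P281Z Vale.Agent.P280Z

namespace Vale.Agent.P280X.Kl

/-- row IMPR -/
theorem impr_of (hN : NUM) (hK : NK) : IMPR := by
  intro d V L H a b cV pV hL hH pH hC hW b0 pP
  have hT := Co.ct_ok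
  generalize Co.ct = T at hT
  have kH := hT.c1.pos V H hH pH
  have pw : ∀ k, 0 < k → Pos (d + 1) (H.pow k) := fun k k0 => hT.kp V _ (lb_pow hH k) (by
    rw [hT.c1.pow V _ _ hH]
    exact hT.po.smul _ (Nat.cast_pos.2 k0) kH)
  have lP := lb_mul (lb_pow hL a) (lb_pow hH b)
  have kP := hT.c1.pos V _ lP pP
  obtain ⟨k₁, k1, b1⟩ := P285W.J.ScaleX.ex_bpf lP pP
  obtain ⟨k₂, k2, b2⟩ := P285W.J.ScaleX.ex_bpf hH pH
  have l0 := lb_mul (lb_pow hL ((4 * d + 4) * a)) (lb_pow hH ((4 * d + 2) * b))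
  have lD := lb_pow l0 (k₁ * k₂)
  have lB := lb_pow hH (2 * b * (k₁ * k₂))
  have cD := (cls_pow l0 (k₁ * k₂)).trans (congrArg _ ((cls_mul (lb_pow hL _) (lb_pow hH _)).trans
    (congrArg₂ _ (cls_pow hL _) (cls_pow hH _))))
  have eD := (hT.c1.pow V _ (k₁ * k₂) l0).trans (congrArg _ ((hT.c1.mul V _ _ (lb_pow hL _)
    (lb_pow hH _)).trans (congrArg₂ _ (hT.c1.pow V _ _ hL) (hT.c1.pow V _ _ hH))))
  generalize ((L.pow ((4 * d + 4) * a)).mul (H.pow ((4 * d + 2) * b))).pow (k₁ * k₂) = D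
    at lD cD eD
  have bB := Bpf.iso lB (lb_pow (lb_pow hH k₂) _) ((cls_eq lB (lb_pow (lb_pow hH k₂) _)).1 (by
    rw [cls_pow (lb_pow hH _), cls_pow hH, cls_pow hH]
    module)) (P285W.J.ScaleX.bpf_pow b2 (2 * b * k₁))
  have bM := Bpf.iso (lb_mul lD lB) (lb_pow (lb_pow lP k₁) _)
    ((cls_eq (lb_mul lD lB) (lb_pow (lb_pow lP k₁) _)).1 (by
      rw [cls_mul lD lB, cD, cls_pow (lb_pow lP _), cls_pow lP,
        cls_mul (lb_pow hL _) (lb_pow hH _), cls_pow hL, cls_pow hH, cls_pow hH]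
      module)) (P285W.J.ScaleX.bpf_pow b1 (k₂ * (4 * d + 4)))
  have n1 := hN T hT d V L _ cV pV hL (lb_mul lD lB) bM hC
  rw [hT.c1.mul V _ _ lD lB] at n1
  have eB := hT.c1.pow V _ (2 * b * (k₁ * k₂)) hH
  have kM : T.Kc V (T.c1 V D + T.c1 V (H.pow (2 * b * (k₁ * k₂)))) := by
    have := hT.po.smul ((k₁ * k₂ * (4 * d + 4) : ℕ) : ℝ) (by positivity) kP
    rw [hT.c1.mul V _ _ (lb_pow hL _) (lb_pow hH _), hT.c1.pow V _ _ hL,
      hT.c1.pow V _ _ hH] at this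
    refine Eq.subst (motive := T.Kc V) ?_ this
    rw [eD, eB]
    module
  have n2 := hT.po.pos d 1 (Classical.arbitrary _) kM kH rfl rfl (by simp)
  rw [pow_one] at n2
  have n3 : 0 < T.int V ((T.c1 V D + T.c1 V (H.pow (2 * b * (k₁ * k₂)))) ^ (d + 1)) -
      (d + 1) * T.int V ((T.c1 V D + T.c1 V (H.pow (2 * b * (k₁ * k₂)))) ^ d *
        T.c1 V (H.pow (2 * b * (k₁ * k₂)))) := by
    rw [pow_succ]
    generalize (_ + _ : T.H V) ^ d = y at n1 n2 ⊢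
    rw [eD, eB]
    simp only [mul_add, smul_add, mul_smul_comm, map_add, map_smul, smul_eq_mul]
    push_cast
    have h1 : (0 : ℝ) < k₁ * k₂ * ((2 * d + 2) * b) * T.int V (y * T.c1 V H) := by positivity
    have h2 : (0 : ℝ) ≤ k₁ * k₂ * ((4 * d + 4) * a) * T.int V (y * T.c1 V L) := by positivity
    linarith
  obtain ⟨j, j1, j0⟩ := ((P285S.E3.siul T hT d V D _ _ ⟨cV, pV⟩ lD lB bB bM (half_pos n3)).and
    (eventually_gt_atTop 0)).exists
  have lO := lb_pow lD j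
  have h0 : 0 < Ld.h0 (d + 1) (D.pow j) := Nat.pos_of_ne_zero fun e => by
    rw [e, sub_half, Nat.cast_zero, mul_zero] at j1
    exact j1.not_gt (by positivity)
  obtain ⟨⟨σ, s1, s2⟩, s0⟩ := @exists_ne _ (Module.nontrivial_of_finrank_pos h0) 0
  obtain ⟨c, x, hx⟩ : ∃ c x, σ c x ≠ 0 := by
    by_contra! h
    exact s0 (Subtype.ext (funext₂ h))
  refine hK _ V L _ (H.pow (b * (k₁ * k₂) * j)) _ σ _ (k₁ * k₂ * j) cV pV hL (lb_pow hH _)
    (pw _ (by positivity)) hW ⟨lb_mul (lb_pow hL _) (lb_pow hH _), lb_pow hH _, lO,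
      pw _ (by positivity), s1, by positivity, ?_⟩
    ⟨x, (nz_iff lO (fun a b => s1.change a b x) (by_contra fun k => hx (s2 c x k))).2 hx⟩
  rw [cls_mul (lb_pow hL _) (lb_pow hH _), cls_pow lD, cD, cls_pow hL, cls_pow hH, cls_pow hH]
  module

end Vale.Agent.P280X.Kl
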