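import Vale.Agent.P280X.Kl.Defs
import Vale.Agent.P280Z.Ma.UpA
import Vale.Agent.P284Y.P.PshB

/-!
# P280X, block KL: the normal directions at one point
-/

open scoped Manifold ContDiff Topology
open Set Filter
open Vale.Agent.P272.K Vale.Agent.P285.H281.FD Vale.Agent.P281Z
open Vale.Agent.P277Z (at_chart Hol)
open Vale.Agent.P277Z.Slc (dd dd_congr ind_iff_surj)
open Vale.Agent.P284Y.Lib
open Vale.Agent.P280Z.Ma.Up

noncomputable section

namespace Vale.Agent.P280X.Kl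

theorem Loc15.ker {ρ c n : ℕ} (hc : ρ + c = n) (J : Cm ρ →ₗ[ℂ] Cm n) (D : Cm n →ₗ[ℂ] Fin c → ℂ)
    (hJ : Function.Injective J) (hD : Function.Surjective D) (h : ∀ s, D (J s) = 0) {v : Cm n}
    (hv : D v = 0) : ∃ s, J s = v := by
  have h1 := D.finrank_range_add_finrank_ker
  rw [LinearMap.range_eq_top.2 hD, finrank_top, Module.finrank_fin_fun, Module.finrank_fin_fun]
    at h1
  have h2 : J.range = D.ker := Submodule.eq_of_le_of_finrank_eq
    (by rintro _ ⟨s, rfl⟩; exact h s)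
    (by rw [LinearMap.finrank_range_of_inj hJ, Module.finrank_fin_fun]; omega)
  exact (h2.ge hv :)

theorem loc15 : LOC := by
  intro ρ n W V ν Z B φ w hR hB hφ hw hp
  obtain ⟨c, h, hc, hI, hz⟩ := hR.sub (ν w) ⟨⟨w, rfl⟩, hw⟩
  have hν := hR.ov.hol
  have hZ : ∀ᶠ y in 𝓝 (ν w), y ∉ Z := hR.an.closed.isOpen_compl.mem_nhds hw
  have := INT.isManifold_real n V.X
  obtain ⟨χ, -, hχ⟩ := (SmoothBumpFunction.nhds_basis_tsupport (I := 𝓘(ℝ, Cm n)) (ν w)).mem_iff.1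
    (hZ.and ((eventually_all.2 fun a => (hI.1 a).near).and hz))
  have sχ : SmoothFn (n := n) χ := INT.smoothFn_of_contMDiff χ.contMDiff
  have h0 : ∀ y, ¬ (y ∉ Z ∧ (∀ a, Hol n (h a) y) ∧ (y ∈ range ν \ Z ↔ ∀ a, h a y = 0)) →
      ∀ᶠ z in 𝓝 y, χ z = 0 := fun y k => notMem_tsupport_iff_eventuallyEq.1 fun k' => k (hχ k')
  have hq : ∀ y, (∀ a, Hol n (h a) y) → ∀ e : Chart n V.X, At e y → ∀ a,
      ContDiffAt ℝ ∞ (fun z => ‖h a (e.symm z)‖ ^ 2) (e y) := fun y k e he a =>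
    ((k a e he).contDiffAt.restrict_scalars ℝ).norm_sq ℝ
  obtain ⟨i, hi⟩ := hB.cover (ν w)
  have he := at_chart (n := n) (ν w)
  have he₁ := at_chart (n := ρ) w
  set e := chartAt (Cm n) (ν w)
  set e₁ := chartAt (Cm ρ) w
  have s1 := hφ.smooth i e _ he hi
  have s2 : ContDiffAt ℝ ∞ (fun z => ∑ a, ‖h a (e.symm z)‖ ^ 2) (e (ν w)) :=
    .sum fun a _ => hq _ hI.1 e he a
  have lq : ∀ v, P284Z.levi (fun z => ∑ a, ‖h a (e.symm z)‖ ^ 2) (e (ν w)) v =
      ∑ a, 4 * ‖dd (h a) e (ν w) v‖ ^ 2 := fun v => by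
    rw [levi_sum _ fun a _ => (hq _ hI.1 e he a).of_le two_le_inf]
    exact Finset.sum_congr rfl fun a _ => P284Y.Ps.levi_nsq (hI.1 a e he) v
  have l0 : ∀ v, 0 ≤ P284Z.levi (fun z => ∑ a, ‖h a (e.symm z)‖ ^ 2) (e (ν w)) v := fun v => by
    rw [lq]
    positivity
  obtain ⟨t, ht⟩ := pos_gen (s1.of_le two_le_inf) (s2.of_le two_le_inf) l0 fun v hv k => by
    rw [lq, Finset.sum_eq_zero_iff_of_nonneg fun a _ => by positivity] at k
    obtain ⟨s, rfl⟩ := Loc15.ker hc (df ν e₁ e w : Cm ρ →ₗ[ℂ] Cm n)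
      (ContinuousLinearMap.pi fun a => dd (h a) e (ν w) : Cm n →ₗ[ℂ] Fin c → ℂ)
      (hR.ov.imm w hw e₁ e he₁ he) ((ind_iff_surj _).1 (hI.2 e he)) (fun s => funext fun a => by
        have k1 := dd_comp (hI.1 a) (hν.at w) he₁ he
        rw [dd_congr (b := fun _ => 0) ((hν.cont.continuousAt.eventually (hZ.and hz)).mono
          fun y k => k.2.1 ⟨⟨y, rfl⟩, k.1⟩ a) he₁] at k1
        have k2 := DFunLike.congr_fun k1 s
        rw [dd, fderiv_fun_const] at k2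
        exact k2.symm) (v := v) (funext fun a => by simpa using k a (Finset.mem_univ a))
    have k1 := pull_sm hν he₁ he s1
    refine ((pd_iff (k1.1.of_le two_le_inf)).1 (hp i e₁ he₁ hi) s ?_).trans_eq (k1.2.1 s)
    rintro rfl
    exact hv (map_zero _)
  have sR : SmoothFn (n := n) fun y => max t 0 * (χ y * ∑ a, ‖h a y‖ ^ 2) := fun e y he => by
    by_cases k : y ∉ Z ∧ (∀ a, Hol n (h a) y) ∧ (y ∈ range ν \ Z ↔ ∀ a, h a y = 0)
    · exact contDiffAt_const.mul ((sχ e y he).mul (.sum fun a _ => hq y k.2.1 e he a))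
    · exact (contDiffAt_const (c := (0 : ℝ))).congr_of_eventuallyEq
        ((at_ev he (h0 y k)).mono fun z hz => by simp only [hz, zero_mul, mul_zero])
  have hM : IsMet n B fun i y => φ i y + max t 0 * (χ y * ∑ a, ‖h a y‖ ^ 2) :=
    ⟨fun i e x he hi => (hφ.smooth i e x he hi).add (sR e x he), fun i j x hi hj => by
      rw [hφ.change i j x hi hj, add_right_comm]⟩
  refine ⟨_, sR, fun x hx => (h0 x fun k => k.1 hx).mono fun y k => by
    rw [k, zero_mul, mul_zero], fun x => mul_nonneg (le_max_right _ _)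
      (mul_nonneg χ.nonneg (by positivity)), fun y => ?_, fun j e' he' hj =>
    (pd_iff ((hM.smooth j e' _ he' hj).of_le two_le_inf)).2 fun v hv => ?_⟩
  · by_cases k : ν y ∉ Z ∧ (∀ a, Hol n (h a) (ν y)) ∧ (ν y ∈ range ν \ Z ↔ ∀ a, h a (ν y) = 0)
    · simp [k.2.2.1 ⟨⟨y, rfl⟩, k.1⟩]
    · rw [(h0 _ k).self_of_nhds, zero_mul, mul_zero]
  · refine Eq.trans_gt (lv_chg hB hM he' he hj hi) ?_
    have k1 := ht.self_of_nhds _ fun k => hv (tr_inj he he' (k.trans (map_zero _).symm))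
    rw [Lv, levi_congr (v := fun z => φ i (e.symm z) + max t 0 * ∑ a, ‖h a (e.symm z)‖ ^ 2)
      ((at_ev he χ.eventuallyEq_one).mono fun z hz => by simp only [hz, Pi.one_apply, one_mul]),
      levi_add (s1.of_le two_le_inf) (contDiffAt_const.mul (s2.of_le two_le_inf)),
      levi_const_mul (s2.of_le two_le_inf)]
    linarith [mul_le_mul_of_nonneg_right (le_max_left t 0) (l0 (P277Z.Slc.tr e e' (ν w) v))]

end Vale.Agent.P280X.Kl
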