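import Vale.Agent.P280X.Kl.Defs
import Vale.Agent.P280Z.Co.All
import Vale.Agent.P280Z.Ld.Api

/-!
# P280X, block KL: rows NK and KL
-/

open scoped Topology
open Set Filter
open Vale.Agent.P272.K Vale.Agent.P285.H281.FD Vale.Agent.P281Z Vale.Agent.P280Z
open Vale.Agent.P277.HD (pull)

noncomputable section

namespace Vale.Agent.P280X.Kl

/-- **NK** -/
theorem nk_of (thn : THN) (ind : IND) (opn : OPN) (mx : MAXG) : NK := by
  intro n V L H M O σ i k _ hV hL hH pH lo hD ⟨x₀, h0⟩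
  have hA : An n {x | ¬ NZ O σ x} := fun x =>
    (hD.lO.cover x).elim fun a ha => ⟨1, fun _ z => σ a z, fun _ => sec_hol hD.sec ha,
      (lb_near hD.lO ha).mono fun y hy => (Ld.not_nz hD.lO hD.sec hy).trans (forall_const _).symm⟩
  obtain ⟨A, a1, a2⟩ := thn n V _ hV (hA.thin fun e => eq_univ_iff_forall.1 e x₀ h0)
  obtain ⟨ψ, p1, p2⟩ := ind n V L H i hV hL hH pH lo A a1
  obtain ⟨g, g1, g2, g3⟩ := mx n V _ M O σ k ψ _ hD p1 (opn n V _ ψ hD.lB p1)
    fun x hx => p2 x (a2 hx)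
  refine ⟨fun a y => ψ a y + g y, ⟨fun a e x he ha => (p1.smooth a e x he ha).add (g1 e x he),
    fun a b x ha hb => by rw [p1.change a b x ha hb, add_right_comm]⟩, fun a e x he ha => ?_⟩
  by_cases hx : NZ O σ x
  · exact g3 x hx id a e he ha
  · rw [cHess_congr (g := fun z => ψ a (e.symm z))
      ((at_ev he (g2 x hx)).mono fun z hz => by simp only [hz, add_zero])]
    exact p2 x (a2 hx) a e he ha

theorem NkH.kc {T : CT} (hT : T.OK) {n : ℕ} {V : Mf n} {w h : T.H V} (hw : T.Kc V w)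
    (hh : T.Kc V h) {c : ℝ} (hc : 0 < c) : T.Kc V (w + c • h) :=
  hT.po.mono (hT.po.add hw (hT.po.smul c hc hh)) fun _ => inf_le_left

theorem NkH.ex (m b : ℕ) : ∃ k : ℕ, (m : ℝ) ^ k * b < ((m : ℝ) + 1) ^ k := by
  have h1 : (0 : ℝ) < (m : ℝ) + 1 := by positivity
  have h2 : (m : ℝ) / (m + 1) < 1 := (div_lt_one h1).2 (lt_add_one _)
  have h3 := (tendsto_pow_atTop_nhds_zero_of_lt_one (by positivity) h2).mul_const (b : ℝ)
  rw [zero_mul] at h3
  obtain ⟨k, hk⟩ := (h3.eventually (gt_mem_nhds one_pos)).exists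
  refine ⟨k, ?_⟩
  rwa [div_pow, div_mul_eq_mul_div, div_lt_one (pow_pos h1 k)] at hk

/-- **KL** -/
theorem kl_of (im : IMPR) : KL := by
  intro n
  induction n using Nat.strong_induction_on with
  | _ n ih =>
  intro V L cV hV hL hC H hH pH i
  have hT := Co.ct_ok
  have kH := hT.c1.pos V H hH pH
  have cl : ∀ a b : ℕ, Co.ct.c1 V ((L.pow a).mul (H.pow b)) =
      (a : ℝ) • Co.ct.c1 V L + (b : ℝ) • Co.ct.c1 V H := fun a b => by
    rw [hT.c1.mul _ _ _ (lb_pow hL a) (lb_pow hH b), hT.c1.pow _ _ _ hL, hT.c1.pow _ _ _ hH]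
  refine hT.kp V _ (lb_mul (lb_pow hL i) hH) ?_
  rw [hT.c1.mul _ _ _ (lb_pow hL i) hH, hT.c1.pow _ _ _ hL]
  rcases n with _ | d
  · rwa [← (hT.c1.deg V L : Co.ct.pr V 1 _ = _), hT.rg.pr_zero V 1 _ one_pos, smul_zero, zero_add]
  have lo : Low V L := fun ρ hρ W ν cW hW hν => ih ρ hρ W _ cW hW (hν.lb hL)
    fun C f cC hf => hC C (fun x => ν (f x)) cC (hν.comp hf)
  obtain ⟨c, -, hc⟩ := hT.po.opn kH _ (hT.tp.c1 V _ (lb_pow hL i)) (hT.c1.deg V _)
  obtain ⟨b, hb⟩ := exists_nat_gt (max c 0)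
  have b0 : 0 < b := Nat.cast_pos.1 ((le_max_right _ _).trans_lt hb)
  have st : ∀ k : ℕ, Pos (d + 1)
      ((L.pow ((4 * d + 4) ^ k * i)).mul (H.pow ((4 * d + 3) ^ k * b))) := fun k => by
    induction k with
    | zero =>
      refine hT.kp V _ (lb_mul (lb_pow hL _) (lb_pow hH _)) ?_
      have := NkH.kc hT hc kH (sub_pos.2 ((le_max_left _ _).trans_lt hb))
      rw [hT.c1.pow _ _ _ hL, add_right_comm, ← add_smul, add_sub_cancel, add_comm (_ • _)] at this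
      rwa [cl, pow_zero, pow_zero, one_mul, one_mul]
    | succ k hk =>
      rw [pow_succ', pow_succ', mul_assoc, mul_assoc]
      exact im d V L H _ _ cV hV hL hH pH hC lo (by positivity) hk
  obtain ⟨k, hk⟩ := NkH.ex (4 * d + 3) b
  have m0 : (0 : ℝ) < (((4 * d + 3 : ℕ) : ℝ) + 1) ^ k := by positivity
  have h1 := hT.po.smul _ (inv_pos.2 m0) (NkH.kc hT
    (cl _ _ ▸ hT.c1.pos V _ (lb_mul (lb_pow hL _) (lb_pow hH _)) (st k)) kH (sub_pos.2 hk))
  have e : (((4 * d + 4) ^ k * i : ℕ) : ℝ) = (((4 * d + 3 : ℕ) : ℝ) + 1) ^ k * i := by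
    push_cast
    ring
  rw [add_assoc, ← add_smul, e, Nat.cast_mul, Nat.cast_pow, add_sub_cancel, smul_add, smul_smul,
    smul_smul, inv_mul_cancel_left₀ m0.ne', inv_mul_cancel₀ m0.ne', one_smul] at h1
  exact h1

end Vale.Agent.P280X.Kl
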