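import Vale.Agent.P280X.Kl.Defs
import Vale.Agent.P285W.Ct.Cmp
import Vale.Agent.P285W.J.Cuts
import Vale.Agent.P285W.J.Nb

/-!
# P280X, block KL: the rows NUM and TOPN
-/

open scoped Manifold ContDiff Topology
open Set Filter
open Vale.Agent.P272.K Vale.Agent.P285.H281.FD Vale.Agent.P281Z Vale.Agent.P280Z
open Vale.Agent.P277 (Bd.inv)
open Vale.Agent.P277.HD (pull)

noncomputable section

namespace Vale.Agent.P280X.Kl

namespace NumH

variable {T : CT} {n : ℕ} {V : Mf n}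

theorem lb_inv {L : Bd V.X} (h : IsLB n L) : IsLB n (Bd.inv L) where
  isOpen := h.isOpen
  cover := h.cover
  holo i j e x he hi hj := (h.holo i j e x he hi hj).inv (by
    rw [e.left_inv he.2]
    exact h.ne_zero i j x hi hj)
  ne_zero i j x hi hj := inv_ne_zero (h.ne_zero i j x hi hj)
  cocycle i j k x hi hj hk := (mul_inv _ _).symm.trans (congrArg _ (h.cocycle i j k x hi hj hk))

theorem c1_inv (hT : T.C1) {L : Bd V.X} (h : IsLB n L) : T.c1 V (Bd.inv L) = -T.c1 V L := by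
  rw [eq_neg_iff_add_eq_zero, add_comm, ← hT.mul V _ _ h (lb_inv h)]
  refine hT.triv V _ (fun a x => L.g a.1 a.2 x) (lb_mul h (lb_inv h))
    ⟨fun a e x he ha => h.holo a.1 a.2 e x he ha.1 ha.2, fun a b x ha hb => ?_⟩
    fun x a ha => h.ne_zero a.1 a.2 x ha.1 ha.2
  show L.g a.1 a.2 x = L.g a.1 b.1 x * (L.g a.2 b.2 x)⁻¹ * L.g b.1 b.2 x
  rw [mul_right_comm, h.cocycle _ _ _ x ha.1 hb.1 hb.2, ← h.cocycle _ _ _ x ha.1 ha.2 hb.2,
    mul_inv_cancel_right₀ (h.ne_zero _ _ x ha.2 hb.2)]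

/-- on a connected curve, the dual of a bundle of negative degree is positive -/
theorem curve (hT : T.OK) {C : Mf 1} (hc : ConnectedSpace C.X) (hp : C.Prj) {M : Bd C.X}
    (hM : IsLB 1 M) (h : T.int C (T.c1 C M) < 0) : Pos 1 (Bd.inv M) := by
  obtain ⟨H, h1, h2⟩ := hp
  have hw := hT.c1.pos C H h1 h2
  obtain ⟨a, a1, a2⟩ := (hT.ho.hl hw 0 1 rfl).2 _ (hT.c1.deg C M)
  obtain ⟨c, rfl⟩ := hT.rg.h0 C inferInstance a a1
  obtain ⟨x⟩ : Nonempty C.X := inferInstance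
  have h3 := hT.po.pos 0 1 x hw hw rfl rfl (by rw [finrank_bot]; exact Nat.zero_le _)
  rw [pow_zero, one_mul, pow_one] at h3
  rw [pow_one, mul_comm, ← Algebra.smul_def] at a2
  rw [← a2, map_smul, smul_eq_mul] at h
  have h4 : 0 < -c := by
    by_contra k
    exact absurd h (not_lt.2 (mul_nonneg (by linarith) h3.le))
  refine hT.kp C _ (lb_inv hM) ?_
  rw [c1_inv hT.c1 hM, ← a2, ← neg_smul]
  exact hT.po.smul _ h4 hw

end NumH

open NumH

/-- **row NUM** -/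
theorem num : NUM := by
  intro T hT d V L P hc hp hL hP hb hC
  obtain ⟨ι, _, Z, i, h, h1, h2⟩ := P285W.J.cuts_of P285W.Ct.cut T hT d 1 (d + 1) V
    (T.c1 V P ^ d) ∅ (add_comm d 1) hc
    ⟨fun _ => T.c1 V P, fun _ => ⟨P, hP, hb, rfl⟩, by rw [Fin.prod_const]⟩ P281Z.neg_empty
  rw [h2]
  refine Finset.sum_nonneg fun j _ => ?_
  rw [← hT.c1.pull (h j) L hL]
  by_contra k
  exact hC (Z j) (i j) (h1 j).1 (h j)
    (curve hT (h1 j).1 ((h1 j).2.2 hp) ((h j).lb hL) (not_le.1 k))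

/-- **row TOPN** -/
theorem topn : TOPN := by
  intro T hT n V L hp hL hN
  obtain ⟨H, h1, h2⟩ := hp
  have hw : T.Nn V (T.c1 V H) := hT.po.mono (hT.c1.pos V H h1 h2) fun _ => le_top
  have k : P285W.J.Nf T V (T.c1 V L) := by
    refine ⟨_, hw, fun ε hε => ?_⟩
    obtain ⟨i, hi⟩ := exists_nat_one_div_lt hε
    have h3 := hT.c1.pos V _ (lb_mul (lb_pow hL (i + 1)) h1) (hN H h1 h2 (i + 1))
    rw [hT.c1.mul V _ _ (lb_pow hL (i + 1)) h1, hT.c1.pow V L _ hL] at h3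
    have h0 : (0 : ℝ) < (i : ℝ) + 1 := by positivity
    have h4 := hT.po.add (hT.po.smul _ (one_div_pos.2 h0) h3) (hT.po.smul _ (sub_pos.2 hi) hw)
    have e : (1 / ((i : ℝ) + 1)) • ((((i + 1 : ℕ)) : ℝ) • T.c1 V L + T.c1 V H) +
        (ε - 1 / ((i : ℝ) + 1)) • T.c1 V H = T.c1 V L + ε • T.c1 V H := by
      rw [smul_add, smul_smul, Nat.cast_add, Nat.cast_one, one_div_mul_cancel h0.ne', one_smul,
        add_assoc, ← add_smul, add_sub_cancel]
    rw [e] at h4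
    exact hT.po.mono h4 fun _ => le_top
  have k' : T.c1 V L ∈ Submonoid.closure {a | P285W.J.Nf T V a} := Submonoid.subset_closure k
  exact P285W.J.mn_int hT (Submonoid.pow_mem _ k' n)

end Vale.Agent.P280X.Kl
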