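import Vale.Agent.P280X.Kl.Defs
import Vale.Agent.P280Z.Ma.UpA

/-!
# P280X, block KL: positivity of the curvature is an open condition, and is kept at a minimum
-/

open scoped Manifold ContDiff Topology Matrix ComplexOrder
open Set Filter
open Vale.Agent.P272.K Vale.Agent.P285.H281.FD Vale.Agent.P281Z Vale.Agent.P280Z
open Vale.Agent.P277Z (at_chart)
open Vale.Agent.P284Z (levi cHess_quad)
open Vale.Agent.P284Y.Lib
open Vale.Agent.P280Z.Ma.Up (pd_iff pos_gen lv_chg)

noncomputable section

namespace Vale.Agent.P280X.Kl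

theorem levi_min {n : ℕ} {u : Cm n → ℝ} {z : Cm n} (hu : ContDiffAt ℝ 2 u z)
    (h : IsLocalMin u z) (w : Cm n) : 0 ≤ levi u z w := by
  have h1 : ContDiffAt ℝ 2 (fun y => -1 * u y) z := contDiffAt_const.mul hu
  have h2 := (N.neg_cHess_posSemidef h1 (h.mono fun y hy => by
    show -1 * u y ≤ -1 * u z
    linarith [show u z ≤ u y from hy])).dotProduct_mulVec_nonneg (star w)
  rw [Matrix.neg_mulVec, dotProduct_neg, cHess_quad h1, star_star, levi_const_mul hu,
    ← Complex.ofReal_neg, Complex.zero_le_real] at h2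
  linarith

theorem opn : OPN := fun n V B ψ hB hψ => isOpen_iff_mem_nhds.2 fun x hx => by
  obtain ⟨i, hi⟩ := hB.cover x
  have he := at_chart (n := n) x
  have h1 := (hψ.smooth i _ x he hi).of_le two_le_inf
  obtain ⟨t, ht⟩ := pos_gen (f := fun _ => 0) h1 contDiffAt_const (fun v => (levi_const 0).ge)
    fun v hv _ => (pd_iff h1).1 (hx i _ he hi) v hv
  filter_upwards [((chartAt (Cm n) x).continuousAt he.2).eventually ht, at_near he,
    (hB.isOpen i).eventually_mem hi] with y k1 k2 k3 j e he' hj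
  refine (pd_iff ((hψ.smooth j e y he' hj).of_le two_le_inf)).2 fun v hv => ?_
  have k4 := k1 _ fun k => hv (tr_inj k2 he' (k.trans (map_zero _).symm))
  rw [levi_const, mul_zero, add_zero] at k4
  exact k4.trans_eq (lv_chg hB hψ he' k2 hj k3).symm

theorem min : MIN := fun n V B φ R x _ hφ hR h0 hx h i e he hi => by
  have h1 := (hφ.smooth i e x he hi).of_le two_le_inf
  have h2 := (hR e x he).of_le two_le_inf
  refine (pd_iff (h1.add h2)).2 fun v hv => ?_
  rw [levi_add h1 h2]
  refine add_pos_of_pos_of_nonneg ((pd_iff h1).1 (h i e he hi) v hv) (levi_min h2 ?_ v)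
  refine Eventually.of_forall fun z => ?_
  show R (e.symm (e x)) ≤ R (e.symm z)
  rw [he.left_inv, hx]
  exact h0 _

end Vale.Agent.P280X.Kl
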