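import Vale.Agent.P280X.Kl.Pre
import Vale.Agent.P280X.Kl.Maxg84
import Vale.Agent.P280X.Kl.Loc15

/-!
# P280X, block KL: the theorem of Kleiman and the sign of the top Segre number
-/

noncomputable section

namespace Vale.Agent.P280X.Kl

theorem kl : KL := kl_pre maxg84 loc15

theorem seg : SEG := seg_pre maxg84 loc15

end Vale.Agent.P280X.Kl
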