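import Vale.Agent.P280X.Kl.Defs
import Vale.Agent.P272.K.INT.Part
import Vale.Agent.P281Z.Mf.Loc
import Vale.Agent.P281Z.Mf.An

/-!
# P280X, block KL, row EXT: extension of smooth functions
-/

open scoped Manifold ContDiff Topology
open Set Filter
open Vale.Agent.P272.K Vale.Agent.P285.H281.FD Vale.Agent.P281Z
open Vale.Agent.P277Z (at_chart)

noncomputable section

namespace Vale.Agent.P280X.Kl

theorem Ext40.sm {ρ n : ℕ} {W : Mf ρ} {V : Mf n} {r : V.X → W.X} {g : W.X → ℝ} {y : V.X}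
    (hr : HolA n ρ r y) (hg : SmoothFn (n := ρ) g) :
    ContMDiffAt 𝓘(ℝ, Cm n) 𝓘(ℝ, ℝ) ∞ (fun z => g (r z)) y := by
  have := INT.isManifold_real n V.X
  have he := at_chart (n := n) y
  have he' := at_chart (n := ρ) (r y)
  have h1 := ((hr.an he he').contDiffAt (n := ∞)).restrict_scalars ℝ
  have h2 := hg _ _ he'
  have h3 := (ContDiffAt.comp (g := fun z => g ((chartAt (Cm ρ) (r y)).symm z)) _
    (by rwa [he.left_inv]) h1).contMDiffAt
  refine (h3.comp y ((contMDiffOn_chart (I := 𝓘(ℝ, Cm n)) (n := ∞)).contMDiffAt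
    (chart_source_mem_nhds _ y))).congr_of_eventuallyEq ?_
  filter_upwards [at_near he, hr.cont.eventually (at_near he')] with z k1 k2
  simp only [Function.comp_apply, k1.left_inv, k2.left_inv]

/-- ROW EXT -/
theorem ext40 : EXT := by
  intro ρ n W V ν Z g hR hg h0
  have := INT.isManifold_real n V.X
  have hν := hR.ov.hol
  have hK : IsClosed (ν '' tsupport g) := ((isClosed_tsupport g).isCompact.image hν.cont).isClosed
  have hd : ∀ w ∈ tsupport g, ν w ∉ Z := fun w hw k => notMem_tsupport_iff_eventuallyEq.2 (h0 w k) hw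
  obtain ⟨N, O, hN, hO, n1, o1, hNO⟩ := normal_separation hR.an.closed hK
    (disjoint_left.2 fun _ k ⟨w, hw, e⟩ => hd w hw (e ▸ k))
  obtain ⟨G, hG⟩ := exists_contMDiffMap_forall_mem_convex_of_local (n := (⊤ : ℕ∞)) 𝓘(ℝ, Cm n)
    (t := fun y : V.X => {c : ℝ | (∀ w, ν w = y → c = g w) ∧ (y ∈ N → c = 0)})
    (fun y a ha b hb s t _ _ hst => ⟨fun w hw => by
      rw [ha.1 w hw, hb.1 w hw, ← add_smul, hst, one_smul], fun hy => by
      rw [ha.2 hy, hb.2 hy, smul_zero, smul_zero, add_zero]⟩) fun x => by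
      by_cases hx : x ∈ ν '' tsupport g
      · obtain ⟨w, hw, rfl⟩ := hx
        obtain ⟨r, -, r2, r3⟩ := (hR.ov.imm w (hd w hw)).ret (hν.at w)
        obtain ⟨w', -, h1⟩ := hR.ov.one _ ⟨w, rfl⟩ (hd w hw)
        have h2 := hν.cont.isClosedMap.eventually_nhds_fiber (p := fun y => r (ν y) = y) (ν w)
          fun y hy => by rwa [(h1 y hy).trans (h1 w rfl).symm]
        refine ⟨_, inter_mem r2.near (inter_mem h2 (hO.mem_nhds (o1 ⟨w, hw, rfl⟩))),
          fun z => g (r z), fun z hz => (Ext40.sm hz.1 hg).contMDiffWithinAt, fun z hz =>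
          ⟨fun y hy => ?_, fun k => (disjoint_left.1 hNO k hz.2.2).elim⟩⟩
        exact congrArg g (hy ▸ hz.2.1 y hy)
      · exact ⟨_, hK.isOpen_compl.mem_nhds hx, fun _ => 0, contMDiffOn_const, fun z hz =>
          ⟨fun y hy => (image_eq_zero_of_notMem_tsupport fun k => hz ⟨y, k, hy⟩).symm,
            fun _ => rfl⟩⟩
  exact ⟨G, INT.smoothFn_of_contMDiff G.contMDiff, fun w => (hG _).1 w rfl,
    fun x hx => mem_of_superset (hN.mem_nhds (n1 hx)) fun y hy => (hG y).2 hy⟩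

end Vale.Agent.P280X.Kl
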