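import Vale.Agent.P280X.Kl.Defs
import Vale.Agent.P272.K.INT.Part
import Vale.Agent.P281Z.Mf.Mod

/-!
# P280X, block KL: extension of smooth functions (row EXT)
-/

open scoped Manifold ContDiff Topology
open Set Filter
open Vale.Agent.P272.K Vale.Agent.P285.H281.FD Vale.Agent.P281Z
open Vale.Agent.P277Z (at_chart)

namespace Vale.Agent.P280X.Kl

theorem sm_ret44 {ρ n : ℕ} {W : Mf ρ} {V : Mf n} {g : W.X → ℝ} (hg : SmoothFn (n := ρ) g)
    {r : V.X → W.X} {y : V.X} (hr : HolA n ρ r y) :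
    ContMDiffAt 𝓘(ℝ, Cm n) 𝓘(ℝ, ℝ) ∞ (fun z => g (r z)) y := by
  have := INT.isManifold_real n V.X
  have he := at_chart (n := n) y
  have he' := at_chart (n := ρ) (r y)
  have h1 := ((hr.an he he').contDiffAt (n := ∞)).restrict_scalars ℝ
  have h2 := hg _ _ he'
  rw [← (chartAt (Cm n) y).left_inv he.2] at h2
  rw [(chartAt (Cm n) y).left_inv he.2, ← congrArg (fun z => chartAt (Cm ρ) (r y) (r z))
    ((chartAt (Cm n) y).left_inv he.2)] at h2
  have h3 := (ContDiffAt.comp (f := fun z => chartAt (Cm ρ) (r y) (r ((chartAt (Cm n) y).symm z)))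
    _ h2 h1).contMDiffAt.comp y
    (contMDiffAt_of_mem_maximalAtlas (IsManifold.subset_maximalAtlas he.1) he.2)
  refine h3.congr_of_eventuallyEq ?_
  filter_upwards [at_near he, hr.cont.eventually (at_near he')] with z z1 z2
  simp only [Function.comp_apply, (chartAt (Cm n) y).left_inv z1.2,
    (chartAt (Cm ρ) (r y)).left_inv z2.2]

/-- **EXT** -/
theorem ext44 : EXT := by
  intro ρ n W V ν Z g h hg h0
  have := INT.isManifold_real n V.X
  have hK : IsClosed (ν '' tsupport g) :=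
    ((isClosed_tsupport g).isCompact.image h.ov.hol.cont).isClosed
  have hZ : Z ⊆ (ν '' tsupport g)ᶜ := by
    rintro _ hz ⟨w, hw, rfl⟩
    exact notMem_tsupport_iff_eventuallyEq.2 (h0 w hz) hw
  obtain ⟨N, n1, n2, n3⟩ := normal_exists_closure_subset h.an.closed hK.isOpen_compl hZ
  obtain ⟨G, hG⟩ := exists_contMDiffMap_forall_mem_convex_of_local (n := ⊤) 𝓘(ℝ, Cm n)
    (t := fun x : V.X => {r : ℝ | (∀ w, ν w = x → r = g w) ∧ (x ∈ N → r = 0)})
    (fun x a ha b hb s t _ _ e => ⟨fun w hw => by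
        rw [ha.1 w hw, hb.1 w hw, ← add_smul, e, one_smul],
      fun k => by rw [ha.2 k, hb.2 k, smul_zero, smul_zero, add_zero]⟩) fun x => by
      by_cases hx : x ∈ ν '' tsupport g
      · obtain ⟨w, hw, rfl⟩ := hx
        have k : ν w ∉ Z := fun c => hZ c ⟨w, hw, rfl⟩
        obtain ⟨r, -, r2, r3⟩ := (h.ov.imm w k).ret (h.ov.hol.at w)
        refine ⟨_, r2.near.and ((h.ov.ev k r3).and (isClosed_closure.isOpen_compl.mem_nhds
          fun c => n3 c ⟨w, hw, rfl⟩)), fun z => g (r z),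
          fun z hz => (sm_ret44 hg hz.1).contMDiffWithinAt, fun z hz => ⟨fun w' e => ?_,
            fun c => (hz.2.2 (subset_closure c)).elim⟩⟩
        exact e ▸ congrArg g (hz.2.1 w' e)
      · exact ⟨_, hK.isOpen_compl.mem_nhds hx, fun _ => 0, contMDiffOn_const, fun z hz =>
          ⟨fun w e => (image_eq_zero_of_notMem_tsupport fun c => hz ⟨w, c, e⟩).symm, fun _ => rfl⟩⟩
  exact ⟨G, INT.smoothFn_of_contMDiff G.contMDiff, fun w => (hG _).1 w rfl,
    fun x hx => mem_of_superset (n1.mem_nhds (n2 hx)) fun y hy => (hG y).2 hy⟩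

end Vale.Agent.P280X.Kl
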