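import Vale.Agent.P280X.Kl.Defs
import Vale.Agent.P272.K.INT.Part
import Vale.Agent.P281Z.Mf.An

/-!
# P280X, block KL: row EXT
-/

open scoped Manifold ContDiff Topology
open Set Filter
open Vale.Agent.P272.K Vale.Agent.P285.H281.FD Vale.Agent.P281Z
open Vale.Agent.P277Z (at_chart)

noncomputable section

namespace Vale.Agent.P280X.Kl

namespace Ext65

variable {n k : ℕ} {X Y : Type} [TopologicalSpace X] [ChartedSpace (Cm n) X]
  [IsManifold 𝓘(ℂ, Cm n) ω X] [TopologicalSpace Y] [ChartedSpace (Cm k) Y]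
  [IsManifold 𝓘(ℂ, Cm k) ω Y]

theorem sm_at {p : X → Y} {x : X} {e : Chart n X} (hp : HolA n k p x) (he : At e x) {u : Y → ℝ}
    (hu : SmoothFn (n := k) u) : ContDiffAt ℝ ∞ (fun z => u (p (e.symm z))) (e x) := by
  have hc := at_chart (n := k) (p x)
  set c := chartAt (Cm k) (p x)
  have h2 : (fun z => u (p (e.symm z))) =ᶠ[𝓝 (e x)] fun z => u (c.symm (c (p (e.symm z)))) :=
    (at_map hp.cont he hc).mono fun z hz => by simp only [hz.left_inv]
  have h3 : ContDiffAt ℝ ∞ (fun z => u (c.symm z)) (c (p (e.symm (e x)))) := by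
    rw [he.left_inv]
    exact hu c _ hc
  exact (ContDiffAt.comp (g := fun z => u (c.symm z)) (e x) h3
    ((hp.an he hc).contDiffAt.restrict_scalars ℝ)).congr_of_eventuallyEq h2

theorem pou [T2Space X] [CompactSpace X] {ι : Type} (U : ι → Set X)
    (hU : ∀ i, IsOpen (U i)) (hc : ∀ x, ∃ i, x ∈ U i) :
    ∃ (s : Finset ι) (ρ : ι → X → ℝ), (∀ a, SmoothFn (n := n) (ρ a)) ∧
      (∀ a, tsupport (ρ a) ⊆ U a) ∧ ∀ x, ∑ a ∈ s, ρ a x = 1 := by
  have := INT.isManifold_real n X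
  obtain ⟨f, hf⟩ := SmoothPartitionOfUnity.exists_isSubordinate 𝓘(ℝ, Cm n)
    isClosed_univ U hU fun x _ => mem_iUnion.2 (hc x)
  have h1 := f.locallyFinite.finite_nonempty_of_compact
  refine ⟨h1.toFinset, fun a => f a, fun a => INT.smoothFn_of_contMDiff (f a).contMDiff,
    hf, fun x => ?_⟩
  rw [← f.sum_eq_one (mem_univ x), finsum_eq_sum_of_support_subset]
  exact fun a ha => h1.mem_toFinset.2 ⟨x, ha⟩

end Ext65

open Ext65

/-- row EXT -/
theorem ext65 : EXT := by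
  intro ρ n W V ν Z g h hg hz
  have hc : IsClosedMap ν := h.ov.hol.cont.isClosedMap
  have h1 : ∀ u : V.X, ∃ (O : Set V.X) (f : V.X → ℝ), IsOpen O ∧ u ∈ O ∧
      (∀ x (e : Chart n V.X), x ∈ O → At e x → ContDiffAt ℝ ∞ (fun z => f (e.symm z)) (e x)) ∧
      (∀ w, ν w ∈ O → f (ν w) = g w) ∧ ∀ x ∈ Z, x ∈ O → ∀ y, f y = 0 := fun u => by
    by_cases hu : ∀ w ∈ ν ⁻¹' {u}, ∀ᶠ y in 𝓝 w, g y = 0
    · obtain ⟨O, o1, o2, o3⟩ := eventually_nhds_iff.1 (hc.eventually_nhds_fiber u hu)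
      exact ⟨O, fun _ => 0, o2, o3, fun _ _ _ _ => contDiffAt_const,
        fun w hw => (o1 _ hw w rfl).symm, fun _ _ _ _ => rfl⟩
    · obtain ⟨w, hw, hw'⟩ : ∃ w, ν w = u ∧ ¬ ∀ᶠ y in 𝓝 w, g y = 0 := by
        by_contra k
        exact hu fun w hw => by_contra fun k' => k ⟨w, hw, k'⟩
      subst hw
      have hZ : ν w ∉ Z := fun k => hw' (hz w k)
      obtain ⟨r, -, r2, r3⟩ := (h.ov.imm w hZ).ret (h.ov.hol.at w)
      have r4 := hc.eventually_nhds_fiber (p := fun y => r (ν y) = y) (ν w) fun y hy => by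
        rw [(h.ov.one _ ⟨w, rfl⟩ hZ).unique hy rfl]
        exact r3
      obtain ⟨O, o1, o2, o3⟩ := eventually_nhds_iff.1
        ((r2.near.and r4).and (h.an.closed.isOpen_compl.mem_nhds hZ))
      exact ⟨O, fun y => g (r y), o2, o3, fun x e hx he => sm_at (o1 x hx).1.1 he hg,
        fun y hy => congrArg g ((o1 _ hy).1.2 y rfl), fun x hx hx' => ((o1 x hx').2 hx).elim⟩
  choose O f o1 o2 o3 o4 o5 using h1
  obtain ⟨s, φ, r1, r3, r4⟩ := pou (n := n) O o1 fun y => ⟨y, o2 y⟩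
  have k0 : ∀ a x, x ∉ O a → ∀ᶠ y in 𝓝 x, φ a y * f a y = 0 := fun a x hx =>
    (notMem_tsupport_iff_eventuallyEq.1 fun k => hx (r3 a k)).mono fun y hy => by
      rw [hy, Pi.zero_apply, zero_mul]
  refine ⟨fun x => ∑ a ∈ s, φ a x * f a x, fun e x he => ContDiffAt.sum fun a _ => ?_,
    fun w => ?_, fun x hx => ?_⟩
  · by_cases hx : x ∈ O a
    · exact (r1 a e x he).mul (o3 a x e hx he)
    · exact contDiffAt_const.congr_of_eventuallyEq (at_ev he (k0 a x hx))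
  · rw [← one_mul (g w), ← r4 (ν w), Finset.sum_mul]
    refine Finset.sum_congr rfl fun a _ => ?_
    by_cases ha : φ a (ν w) = 0
    · rw [ha, zero_mul, zero_mul]
    · rw [o4 a w (r3 a (subset_tsupport _ ha))]
  · have k1 : ∀ a ∈ s, ∀ᶠ y in 𝓝 x, φ a y * f a y = 0 := fun a _ => by
      by_cases ha : x ∈ O a
      · exact .of_forall fun y => by rw [o5 a x hx ha y, mul_zero]
      · exact k0 a x ha
    exact ((eventually_all_finset s).2 k1).mono fun y hy => Finset.sum_eq_zero hy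

end Vale.Agent.P280X.Kl
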