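import Vale.Agent.P280X.Kl.Defs
import Vale.Agent.P281Z.An.Rem
import Vale.Agent.P301.H450.Metric

/-!
# P280X, block KL, row IND: positivity along the small subvarieties
-/

open Set Filter
open Vale.Agent.P272.K Vale.Agent.P285.H281.FD Vale.Agent.P281Z Vale.Agent.P280Z
open Vale.Agent.P277.HD (pull)

noncomputable section

namespace Vale.Agent.P280X.Kl

namespace I92

variable {n d : ℕ} {V : Mf n} {A A' : Set V.X}

theorem an (h : Cv V d A) : An n A := by
  induction h with
  | nil => exact an_empty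
  | add F f _ _ hf _ ih => exact (Ana.remm _ n F V f hf).union ih

theorem un (h : Cv V d A) (h' : Cv V d A') : Cv V d (A ∪ A') := by
  induction h with
  | nil => rwa [empty_union]
  | add F f he hc hf _ ih =>
    rw [union_assoc]
    exact .add F f he hc hf ih

theorem push {ρ : ℕ} {W : Mf ρ} {ν : W.X → V.X} (hν : HolM ρ n ν) {c : ℕ} (k : c ≤ d) {S : Set W.X}
    (h : Cv W c S) : Cv V d (ν '' S) := by
  induction h with
  | nil =>
    rw [image_empty]
    exact .nil
  | add F f he hc hf _ ih =>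
    rw [image_union, ← range_comp]
    exact .add F _ (he.trans_le k) hc (hν.comp hf) ih

theorem mono {B : Bd V.X} (h : PosOn n B A) (k : A' ⊆ A) : PosOn n B A' :=
  h.imp fun _ h => ⟨h.1, fun x hx => h.2 x (k hx)⟩

theorem met {L : Bd V.X} (h : IsLB n L) : ∃ ψ, IsMet n L ψ :=
  (P301.H450.exists_metric (⟨L.U, h.isOpen, h.cover, L.g,
    fun i j e x hx hi hj => (h.holo i j e x hx hi hj).analyticAt, h.ne_zero, h.cocycle⟩ :
      P301.H599.LineBundle n V.X L.ι)).imp fun _ h => ⟨h.smooth, h.change⟩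

theorem thin [ConnectedSpace V.X] {H : Bd V.X} {t : H.ι → V.X → ℂ} (hH : IsLB n H)
    (ht : IsSec n H t) (h : ∃ x, NZ H t x) : Thin n {y | ¬ NZ H t y} :=
  An.thin (fun y => (hH.cover y).elim fun a ha => ⟨1, fun _ => t a, fun _ => sec_hol ht ha,
    (lb_near hH ha).mono fun _ k => (not_congr (nz_iff hH (fun a b => ht.change a b _) k)).trans
      (by simp)⟩)
    fun k => h.elim fun x hx => eq_univ_iff_forall.1 k x hx

end I92

open I92 in
/-- **row IND** -/
theorem ind92 (h1 : RSV) (h2 : THN) (h3 : SEC) (h4 : STEP) : IND := by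
  intro n V L H i pV lL lH pH low
  have lB := lb_mul (lb_pow lL i) lH
  suffices k : ∀ d ≤ n, ∀ A, Cv V d A → PosOn n ((L.pow i).mul H) A from k n le_rfl
  intro d
  induction d with
  | zero =>
    intro _ A hA
    cases hA with
    | nil => exact (met lB).imp fun _ h => ⟨h, fun _ k => k.elim⟩
    | add _ _ he => exact absurd he (Nat.not_lt_zero _)
  | succ d ih =>
    intro hd A hA
    suffices k : ∀ A', Cv V d A' → PosOn n ((L.pow i).mul H) (A ∪ A') from
      mono (k ∅ .nil) subset_union_left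
    induction hA with
    | nil => exact fun A' hA' => mono (ih (by omega) A' hA') (empty_union _).le
    | @add e F f A₀ he hc hf hA₀ ih' =>
      intro A' hA'
      by_cases hS : range f ⊆ A₀ ∪ A'
      · exact mono (ih' A' hA') (union_subset (union_subset hS subset_union_left) subset_union_right)
      obtain ⟨ρ, hρ, W, ν, Z, cW, pW, R, hZ, e1⟩ :=
        h1 n e V F f _ pV hc hf ((an hA₀).union (an hA')) hS
      have hν := R.ov.hol
      obtain ⟨w, hw⟩ := R.ov.dense.nonempty
      obtain ⟨A₁, O, σ, k, D, nz, z1⟩ := h3 ρ n W V ν H _ cW pW hν ⟨w, R.ov.imm w hw⟩ lH pH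
        ⟨R.an.pre hν, R.ov.dense⟩
      obtain ⟨A₂, c2, z2⟩ := h2 ρ W _ pW (thin D.lO D.sec nz)
      have l1 := lb_pow (hν.lb lL) (k * i)
      refine mono (h4 ρ n W V ν Z _ _ _ O σ k R lB ⟨hν.lb lB, lb_mul l1 D.lM, D.lO,
        low ρ (by omega) W ν cW pW hν A₁ D.lM D.pos (k * i), D.sec, D.kp, ?_⟩ z1
        (fun w hw => Or.inr (Or.inr ⟨w, z2 hw, rfl⟩))
        (ih' _ (un hA' (push hν (by omega) c2)))) ?_
      · rw [cls_mul l1 D.lM, add_assoc, ← D.cl, cls_pow (hν.lb lL), cls_pull hν lB,
          cls_mul (lb_pow lL i) lH, cls_pow lL, map_add, map_nsmul, ← cls_pull hν lL,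
          ← cls_pull hν lH, smul_add, mul_smul]
      · rw [e1, union_assoc]
        exact union_subset_union_right _ fun x hx =>
          ⟨hx.imp_right Or.inl, hZ hx⟩

end Vale.Agent.P280X.Kl
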