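import Vale.Agent.P280X.Kl.Defs
import Vale.Agent.P281Z.Gr.Api
import Vale.Agent.P277Z.Ps.Psd
import Vale.Agent.P281Z.La.Hess
import Vale.Agent.P281Z.Ky.Basic

/-!
# P280X, row LOC: the normal directions at one point
-/

open scoped Manifold ContDiff Topology Matrix ComplexOrder
open Set Filter
open Vale.Agent.P272.K Vale.Agent.P285.H281.FD Vale.Agent.P281Z
open Vale.Agent.P277Z (at_chart Hol)
open Vale.Agent.P277Z.Slc (dd ind_iff_surj)
open Vale.Agent.P277.HD (pull)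

noncomputable section

namespace Vale.Agent.P280X.Kl

namespace Loc3

theorem quad_as {n : ℕ} (Q S : Matrix (Fin n) (Fin n) ℂ) (C : ℝ) (ξ : Cm n) :
    (quad (Q + (C : ℂ) • S) ξ).re = (quad Q ξ).re + C * (quad S ξ).re := by
  rw [← Complex.re_ofReal_mul, ← Complex.add_re]
  congr 1
  simp only [quad, Matrix.add_apply, Matrix.smul_apply, smul_eq_mul, add_mul,
    Finset.sum_add_distrib, Finset.mul_sum, mul_assoc]

theorem ex_c {n : ℕ} {Q S : Matrix (Fin n) (Fin n) ℂ} (hs : ∀ ξ, 0 ≤ (quad S ξ).re)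
    (h : ∀ ξ : Cm n, ξ ≠ 0 → (quad S ξ).re = 0 → 0 < (quad Q ξ).re) :
    ∃ C : ℝ, 0 ≤ C ∧ ∀ ξ : Cm n, ξ ≠ 0 → 0 < (quad (Q + (C : ℂ) • S) ξ).re := by
  have hc : ∀ M : Matrix (Fin n) (Fin n) ℂ, Continuous fun ξ : Cm n => (quad M ξ).re := fun M => by
    refine Complex.continuous_re.comp ?_
    unfold quad cj
    fun_prop
  obtain ⟨k, hk⟩ := (isCompact_sphere (0 : Cm n) 1).elim_directed_cover
    (fun k : ℕ => {ξ | 0 < (quad Q ξ).re + k * (quad S ξ).re})
    (fun k => isOpen_lt continuous_const ((hc Q).add (continuous_const.mul (hc S))))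
    (fun ξ hξ => by
      have h0 : ξ ≠ 0 := by rintro rfl; simp at hξ
      rcases (hs ξ).eq_or_lt with e | e
      · exact mem_iUnion.2 ⟨0, by simpa using h ξ h0 e.symm⟩
      · obtain ⟨k, hk⟩ := exists_nat_gt (-(quad Q ξ).re / (quad S ξ).re)
        rw [div_lt_iff₀ e] at hk
        exact mem_iUnion.2 ⟨k, by simp only [mem_ofPred_eq]; linarith⟩)
    (Monotone.directed_le fun a b hab ξ hξ => by
      have : (a : ℝ) ≤ b := Nat.cast_le.2 hab
      have := mul_le_mul_of_nonneg_right this (hs ξ)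
      simp only [mem_ofPred_eq] at hξ ⊢
      linarith)
  refine ⟨k, Nat.cast_nonneg k, fun ξ hξ => ?_⟩
  have n0 : 0 < ‖ξ‖⁻¹ := inv_pos.2 (norm_pos_iff.2 hξ)
  have h1 : (fun i => ((‖ξ‖⁻¹ : ℝ) : ℂ) * ξ i) ∈ Metric.sphere (0 : Cm n) 1 := by
    have : (fun i => ((‖ξ‖⁻¹ : ℝ) : ℂ) * ξ i) = (‖ξ‖⁻¹ : ℝ) • ξ := by
      ext i
      simp
    rw [this, mem_sphere_zero_iff_norm, norm_smul, norm_inv, norm_norm,
      inv_mul_cancel₀ (norm_ne_zero_iff.2 hξ)]
  have h2 := hk h1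
  rw [mem_ofPred_eq, ← quad_as, quad_smul, Complex.re_ofReal_mul] at h2
  exact (mul_pos_iff_of_pos_left (by positivity)).1 h2

theorem ker_le {ρ c n : ℕ} (hc : ρ + c = n) {D : Cm ρ →L[ℂ] Cm n} {L : Cm n →L[ℂ] Cm c}
    (hD : Function.Injective D) (hL : Function.Surjective L) (h : ∀ η, L (D η) = 0) {ξ : Cm n}
    (hξ : L ξ = 0) : ∃ η, D η = ξ := by
  have h1 := LinearMap.finrank_range_add_finrank_ker (L : Cm n →ₗ[ℂ] Cm c)
  rw [LinearMap.range_eq_top.2 hL, finrank_top] at h1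
  have h2 := LinearMap.finrank_range_of_inj (f := (D : Cm ρ →ₗ[ℂ] Cm n)) hD
  simp only [Module.finrank_fin_fun] at h1 h2
  have h3 : LinearMap.range (D : Cm ρ →ₗ[ℂ] Cm n) = LinearMap.ker (L : Cm n →ₗ[ℂ] Cm c) :=
    Submodule.eq_of_le_of_finrank_eq (by rintro _ ⟨η, rfl⟩; exact h η) (by omega)
  exact (h3.ge hξ :)

theorem one {n : ℕ} {V : Mf n} {B : Bd V.X} {φ : B.ι → V.X → ℝ} {R : V.X → ℝ} {x : V.X}
    (lB : IsLB n B) (hφ : IsMet n B φ) {i₀ : B.ι} {e₀ : Chart n V.X} (he : At e₀ x)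
    (hi : x ∈ B.U i₀) (h : Ky.Pd (fun z => φ i₀ (e₀.symm z) + R (e₀.symm z)) (e₀ x)) :
    PosAt n B (fun i y => φ i y + R y) x := fun i e he' hi' => by
  have k := (Ky.cd_atlas he'.1).pd_tr (Ky.cd_atlas he.1) he'.2 he.2
    (u := fun y => φ i₀ y + R y) h
  have g := P277Z.Ps.flatAt_log (b := B.g i i₀) (x := x)
    (fun c hc => (lB.holo i i₀ c x hc hi' hi).analyticAt) (lB.ne_zero i i₀ x hi' hi) e he'
  have e1 : (fun z => φ i (e.symm z) + R (e.symm z)) =ᶠ[𝓝 (e x)] fun z =>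
      (φ i₀ (e.symm z) + R (e.symm z)) + Real.log (‖B.g i i₀ (e.symm z)‖ ^ 2) :=
    (Ky.ev_sy he'.2 ((lb_near lB hi').and (lb_near lB hi))).mono fun z hz => by
      simp only [hφ.change i i₀ _ hz.1 hz.2]
      ring
  rw [C2.cHess_congr e1, C2.cHess_add (Ky.two k.1) (Ky.two g.1), g.2, add_zero]
  exact k.2

end Loc3

open Loc3

/-- row LOC -/
theorem loc3 : LOC := by
  intro ρ n W V ν Z B φ w hR lB hφ hw hp
  have hν := hR.ov.hol
  obtain ⟨c, h, hc, hI, hz⟩ := hR.sub (ν w) ⟨⟨w, rfl⟩, hw⟩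
  have ev : ∀ᶠ y in 𝓝 (ν w), y ∉ Z ∧ (∀ a, Hol n (h a) y) ∧ (y ∈ range ν \ Z ↔ ∀ a, h a y = 0) :=
    (hR.an.closed.isOpen_compl.eventually_mem hw).and
      ((eventually_all.2 fun a => (hI.1 a).near).and hz)
  obtain ⟨χ, c1, c2, c3⟩ := Gr.exists_bump n (isCompact_singleton (x := ν w)) isOpen_interior
    (singleton_subset_iff.2 (mem_interior_iff_mem_nhds.2 ev))
  replace c3 := c3.trans interior_subset
  have sm : SmoothFn (n := n) fun y => ∑ a, ‖χ y * h a y‖ ^ 2 := fun e y he =>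
    ContDiffAt.sum fun a _ => ((c1.mul_hol fun x hx => (c3 hx).2.1 a) y e he).norm_sq ℂ
  obtain ⟨i, hi⟩ := lB.cover (ν w)
  have he := at_chart (n := n) (ν w)
  have hk := at_chart (n := ρ) w
  set e := chartAt (Cm n) (ν w)
  set k := chartAt (Cm ρ) w
  have an : ∀ a, AnalyticAt ℂ (fun z => h a (e.symm z)) (e (ν w)) := fun a => hI.1 a e he
  have sφ := hφ.smooth i e _ he hi
  have lv : ∀ ξ, (quad (cHess (fun z => ∑ a, ‖h a (e.symm z)‖ ^ 2) (e (ν w))) ξ).re =
      ‖fderiv ℂ (fun z => (WithLp.toLp 2 fun a => h a (e.symm z) : EuclideanSpace ℂ (Fin c)))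
        (e (ν w)) ξ‖ ^ 2 := fun ξ => by
    rw [P277Z.Ps.quad_lev, ← P284.H213.KL.lev_normSq (P277Z.Ps.an_vec an) ξ]
    simp only [EuclideanSpace.norm_sq_eq]
  obtain ⟨C, C0, hC⟩ := ex_c (Q := cHess (fun z => φ i (e.symm z)) (e (ν w)))
    (S := cHess (fun z => ∑ a, ‖h a (e.symm z)‖ ^ 2) (e (ν w)))
    (fun ξ => by rw [lv]; positivity) fun ξ ξ0 h0 => by
      rw [lv, sq_eq_zero_iff, norm_eq_zero] at h0
      have aν := (hν.at w).an hk he
      obtain ⟨η, rfl⟩ := ker_le hc (D := df ν k e w)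
        (L := ContinuousLinearMap.pi fun a => dd (h a) e (ν w)) (hR.ov.imm w hw k e hk he)
        ((ind_iff_surj _).1 (hI.2 e he)) (fun η => funext fun a => by
          have d1 : HasFDerivAt (fun z => h a (e.symm z)) (dd (h a) e (ν w))
              (e (ν (k.symm (k w)))) := by
            rw [hk.left_inv]
            exact (an a).differentiableAt.hasFDerivAt
          have d2 := d1.comp (k w) aν.differentiableAt.hasFDerivAt
          have d3 : ((fun z => h a (e.symm z)) ∘ fun z => e (ν (k.symm z))) =ᶠ[𝓝 (k w)]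
              fun _ => 0 := by
            filter_upwards [at_map hν.cont.continuousAt hk he,
              Ky.ev_sy hk.2 (hν.cont.continuousAt.eventually ev)] with z a1 a2
            simp only [Function.comp_apply, a1.left_inv]
            exact a2.2.2.1 ⟨⟨_, rfl⟩, a2.1⟩ a
          have d4 := (d2.congr_of_eventuallyEq d3.symm).unique (hasFDerivAt_const 0 _)
          exact DFunLike.congr_fun d4 η) (ξ := ξ) (funext fun a => by
          have d1 := ((EuclideanSpace.proj (𝕜 := ℂ) a).hasFDerivAt.comp (e (ν w))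
            (P277Z.Ps.an_vec an).differentiableAt.hasFDerivAt).fderiv
          have d2 := DFunLike.congr_fun d1 ξ
          rw [ContinuousLinearMap.comp_apply, h0, map_zero] at d2
          exact d2)
      have q := quad_pos (hp i k hk hi) (ξ := η) fun q => ξ0 (by rw [q, map_zero])
      rw [Lg.hess_pull (hν.at w) hk he sφ (φ := fun z => φ i (ν (k.symm z)))
        fun y hy => by rw [k.left_inv hy]] at q
      rw [df, P299.H956.jmR_mulVec aν.differentiableAt]
      exact q.trans_eq (congrArg Complex.re (QN.quadR _ _ _))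
  refine ⟨fun y => C * ∑ a, ‖χ y * h a y‖ ^ 2, fun e y he => contDiffAt_const.mul (sm e y he),
    fun x hx => ?_, fun x => by positivity, fun y => ?_, one lB hφ he hi ?_⟩
  · filter_upwards [notMem_tsupport_iff_eventuallyEq.1 fun q => (c3 q).1 hx] with y hy
    simp [hy]
  · by_cases q : χ (ν y) = 0
    · simp [q]
    · have a := c3 (subset_tsupport _ q)
      simp [a.2.2.1 ⟨⟨_, rfl⟩, a.1⟩]
  · have s2 := P277Z.Ps.sm_sq an
    refine Ky.Pd.congr (u := fun z => φ i (e.symm z) + C * ∑ a, ‖h a (e.symm z)‖ ^ 2)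
      ⟨sφ.add (contDiffAt_const.mul s2), ?_⟩
      ((Ky.ev_sy he.2 (c2 _ rfl)).mono fun z hz => by simp only [hz, one_mul])
    refine posDef_of_quad (C2.cHess_isHermitian (Ky.two (sφ.add (contDiffAt_const.mul s2)))) ?_
    rwa [C2.cHess_add (Ky.two sφ) (Ky.two (contDiffAt_const.mul s2)),
      C2.cHess_const_mul C (Ky.two s2)]

end Vale.Agent.P280X.Kl
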