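import Vale.Agent.P280X.Kl.Defs
import Vale.Agent.P285N.Tp.EnA
import Vale.Agent.P285N.Tp.Nefp
import Vale.Agent.P281Z.An.Basic
import Vale.Agent.P272.K.AMP.H470.Loc

/-!
# P280X, block KL: the normal directions at one point
-/

open scoped Manifold ContDiff Topology Matrix ComplexOrder
open Set Filter
open Vale.Agent.P272.K Vale.Agent.P285.H281.FD Vale.Agent.P281Z Vale.Agent.P280Z
open Vale.Agent.P277Z (at_chart Hol)
open Vale.Agent.P277.HD (pull)
open Vale.Agent.P272.K.QN (jm loc jm_comp jm_congr jm_mulVec loc_apply loc_contDiffAt nhds_loc)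

noncomputable section

namespace Vale.Agent.P280X.Kl

namespace L57

theorem fins {n c : ℕ} {N : Matrix (Fin n) (Fin n) ℂ} (hN : N.IsHermitian)
    (D : Matrix (Fin c) (Fin n) ℂ)
    (h : ∀ v, v ≠ 0 → D *ᵥ v = 0 → 0 < (star v ⬝ᵥ N *ᵥ v).re) :
    ∃ C : ℕ, (N + (C : ℂ) • (Dᴴ * D)).PosDef := by
  let q : (Fin n → ℂ) → ℝ := fun v => (star v ⬝ᵥ N *ᵥ v).re
  let p : (Fin n → ℂ) → ℝ := fun v => (star (D *ᵥ v) ⬝ᵥ (D *ᵥ v)).re
  have p0 : ∀ v, 0 ≤ p v := fun v => (Complex.nonneg_iff.1 (dotProduct_star_self_nonneg _)).1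
  have p1 : ∀ v, D *ᵥ v ≠ 0 → 0 < p v := fun v hv =>
    (Complex.pos_iff.1 (Matrix.dotProduct_star_self_pos_iff.2 hv)).1
  have cq : Continuous q := by fun_prop
  have cp : Continuous p := by fun_prop
  obtain ⟨k, hk⟩ := (isCompact_sphere (0 : Fin n → ℂ) 1).elim_directed_cover
    (fun k : ℕ => {v | 0 < q v + k * p v})
    (fun k => isOpen_lt continuous_const (cq.add (continuous_const.mul cp))) (fun v hv => by
      have h0 : v ≠ 0 := by
        rintro rfl
        simp at hv
      by_cases e : D *ᵥ v = 0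
      · exact mem_iUnion.2 ⟨0, by simpa using h v h0 e⟩
      · obtain ⟨k, hk⟩ := exists_nat_gt (-q v / p v)
        refine mem_iUnion.2 ⟨k, ?_⟩
        have := (div_lt_iff₀ (p1 v e)).1 hk
        show 0 < q v + k * p v
        linarith)
    (Monotone.directed_le fun a b hab v hv => by
      have h1 : (a : ℝ) ≤ b := Nat.cast_le.2 hab
      have h2 : 0 < q v + a * p v := hv
      show 0 < q v + b * p v
      nlinarith [p0 v])
  have hH : (N + (k : ℂ) • (Dᴴ * D)).IsHermitian := by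
    refine hN.add ?_
    rw [Matrix.IsHermitian, Matrix.conjTranspose_smul, (Matrix.isHermitian_conjTranspose_mul_self D).eq]
    simp
  have key : ∀ v, (star v ⬝ᵥ (N + (k : ℂ) • (Dᴴ * D)) *ᵥ v).re = q v + k * p v := fun v => by
    rw [Matrix.add_mulVec, dotProduct_add, Matrix.smul_mulVec, dotProduct_smul,
      ← Matrix.mulVec_mulVec, Matrix.dotProduct_mulVec _ Dᴴ, ← Matrix.star_mulVec, Complex.add_re,
      smul_eq_mul, ← Complex.ofReal_natCast, Complex.re_ofReal_mul]
  refine ⟨k, Matrix.PosDef.of_dotProduct_mulVec_pos hH fun v hv => Complex.pos_iff.2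
    ⟨?_, (hH.im_star_dotProduct_mulVec_self v).symm⟩⟩
  have hn : 0 < ‖v‖ := norm_pos_iff.2 hv
  have h1 := hk (show ((‖v‖⁻¹ : ℝ) : ℂ) • v ∈ Metric.sphere (0 : Fin n → ℂ) 1 by
    simp [norm_smul, hn.ne'])
  have h2 : 0 < q _ + k * p _ := h1
  rw [← key, Matrix.mulVec_smul, star_smul, smul_dotProduct, dotProduct_smul, smul_eq_mul,
    smul_eq_mul, Complex.star_def, Complex.conj_ofReal, Complex.re_ofReal_mul,
    Complex.re_ofReal_mul] at h2
  have h3 := inv_pos.2 hn
  exact (mul_pos_iff_of_pos_left h3).1 ((mul_pos_iff_of_pos_left h3).1 h2)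

theorem alg {n c ρ : ℕ} {M : Matrix (Fin n) (Fin n) ℂ} (hM : M.IsHermitian)
    (D : Matrix (Fin c) (Fin n) ℂ) (J : Matrix (Fin n) (Fin ρ) ℂ) (e : ρ + c = n) (h0 : D * J = 0)
    (hD : Function.Surjective D.mulVecLin) (h : (Jᵀ * M * J.map (starRingEnd ℂ)).PosDef) :
    ∃ C : ℕ, (M + (C : ℂ) • (Dᵀ * D.map (starRingEnd ℂ))).PosDef := by
  have h1 : ∀ u, u ≠ 0 → 0 < (star (J *ᵥ u) ⬝ᵥ Mᵀ *ᵥ (J *ᵥ u)).re := fun u hu => by
    have := h.transpose.re_dotProduct_pos hu
    rwa [Matrix.transpose_mul, Matrix.transpose_mul, Matrix.transpose_transpose,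
      ← Matrix.mulVec_mulVec, ← Matrix.mulVec_mulVec,
      show (J.map (starRingEnd ℂ))ᵀ = Jᴴ from rfl, Matrix.dotProduct_mulVec _ Jᴴ,
      ← Matrix.star_mulVec] at this
  have h2 : Function.Injective J.mulVecLin := (injective_iff_map_eq_zero _).2 fun u hu => by
    by_contra k
    have := h1 u k
    rw [show J *ᵥ u = 0 from hu] at this
    simp at this
  have h3 : LinearMap.range J.mulVecLin = LinearMap.ker D.mulVecLin := by
    refine Submodule.eq_of_le_of_finrank_eq ?_ ?_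
    · rintro _ ⟨u, rfl⟩
      show D *ᵥ (J *ᵥ u) = 0
      rw [Matrix.mulVec_mulVec, h0, Matrix.zero_mulVec]
    · have a := LinearMap.finrank_range_add_finrank_ker D.mulVecLin
      rw [LinearMap.range_eq_top.2 hD, finrank_top, Module.finrank_fin_fun,
        Module.finrank_fin_fun] at a
      rw [LinearMap.finrank_range_of_inj h2, Module.finrank_fin_fun]
      omega
  obtain ⟨C, hC⟩ := fins hM.transpose D fun v hv k => by
    obtain ⟨u, rfl⟩ : v ∈ LinearMap.range J.mulVecLin := h3 ▸ k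
    exact h1 u fun a => hv (by rw [a, map_zero])
  refine ⟨C, Matrix.PosDef.transpose_iff.1 ?_⟩
  rwa [Matrix.transpose_add, Matrix.transpose_smul, Matrix.transpose_mul,
    Matrix.transpose_transpose]

theorem one {n : ℕ} {V : Mf n} {B : Bd V.X} {φ : B.ι → V.X → ℝ} {x : V.X} (hB : IsLB n B)
    (h : IsMet n B φ) {i : B.ι} {e : Chart n V.X} (he : At e x) (hi : x ∈ B.U i)
    (k : (cHess (fun z => φ i (e.symm z)) (e x)).PosDef) : PosAt n B φ x := fun j c hc hj => by
  rw [show cHess (fun z => φ j (c.symm z)) (c x) = cHess (fun z => φ i (c.symm z)) (c x) from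
    P285N.Tp.En.cv_frame hB h hc hj hi,
    P277Z.Pos.cHess_chart hc he (P285N.Tp.En.two h he hi)]
  exact posDef_form k (jacM_isUnit hc he)

end L57

open L57 in
theorem loc57 : LOC := by
  intro ρ n W V ν Z B φ w rs hB hφ hw hp
  obtain ⟨c, h, dim, ind, ev⟩ := rs.sub (ν w) ⟨mem_range_self w, hw⟩
  have hν := rs.ov.hol
  obtain ⟨O, hO, oO, xO⟩ := mem_nhds_iff.1 ((ev.and (eventually_all.2 fun a => (ind.1 a).near)).and
    (rs.an.isClosed.isOpen_compl.mem_nhds hw))
  have := INT.isManifold_real n V.X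
  obtain ⟨K, k1, k2, k3⟩ := exists_compact_between isCompact_singleton oO
    (singleton_subset_iff.2 xO)
  obtain ⟨f, f1, f2, f3⟩ := exists_contMDiffMap_one_nhds_of_subset_interior (n := ⊤) 𝓘(ℝ, Cm n)
    isClosed_singleton k2
  have f0 : ∀ y ∉ O, ∀ᶠ z in 𝓝 y, f z = 0 := fun y hy =>
    mem_of_superset (k1.isClosed.isOpen_compl.mem_nhds fun a => hy (k3 a)) f2
  obtain ⟨i, hi⟩ := hB.cover (ν w)
  have he := at_chart (n := n) (ν w)
  have hc := at_chart (n := ρ) w
  generalize chartAt (Cm n) (ν w) = e at he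
  generalize chartAt (Cm ρ) w = b at hc
  have an : ∀ y, (∀ a, Hol n (h a) y) → ∀ e : Chart n V.X, At e y →
      ContDiffAt ℂ ω (fun z a => h a (e.symm z)) (e y) := fun y hy e he =>
    contDiffAt_pi.2 fun a => (hy a e he).contDiffAt
  have sm : ∀ y, (∀ a, Hol n (h a) y) → ∀ e : Chart n V.X, At e y →
      ContDiffAt ℝ ∞ (fun z => AMP.sq 0 fun a => h a (e.symm z)) (e y) := fun y hy e he =>
    (AMP.contDiff_sq 0).contDiffAt.comp _
      (((an y hy e he).analyticAt.restrictScalars (𝕜 := ℝ)).contDiffAt)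
  have dH := (an _ ind.1 e he).differentiableAt (by simp)
  have dν := (loc_contDiffAt hν hc he).differentiableAt (by simp)
  have z0 : ∀ y, ν y ∈ O → ∀ a, h a (ν y) = 0 := fun y hy =>
    (hO hy).1.1.1 ⟨mem_range_self y, (hO hy).2⟩
  obtain ⟨C, hC⟩ := alg (cHess_isHermitian (P285N.Tp.En.two hφ he hi))
    (jm (fun z a => h a (e.symm z)) (e (ν w))) (jm (loc ν b e) (b w)) dim (by
      rw [← loc_apply (F := ν) (e' := e) hc] at dH ⊢
      rw [← jm_comp dH dν, jm_congr (G := fun _ => 0)]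
      · ext p q
        simp [jm, dz]
      · filter_upwards [nhds_loc hν.continuous hc he, Ana.ev_symm hc
          (hν.continuous.continuousAt.eventually (oO.mem_nhds xO))] with z k1 k2
        funext a
        rw [loc, k1.2.2.left_inv]
        exact z0 _ k2 a) (fun u => by
      obtain ⟨v, hv⟩ := (P277Z.Slc.ind_iff_surj _).1 (ind.2 e he) u
      refine ⟨v, funext fun a => ?_⟩
      rw [← hv]
      show ∑ j, jm _ _ a j * v j = P277Z.Slc.dd (h a) e (ν w) v
      rw [← jm_mulVec dH, fderiv_pi fun a => (ind.1 a e he).differentiableAt]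
      rfl) (by
      rw [← P285N.Tp.NpH.hess hν hφ hc hi he]
      exact hp i b hc hi)
  have sR : SmoothFn (n := n) fun y => C * (f y * AMP.sq 0 fun a => h a y) := fun e y hy => by
    by_cases k : y ∈ O
    · exact contDiffAt_const.mul ((INT.smoothFn_of_contMDiff f.contMDiff e y hy).mul
        (sm y (hO k).1.2 e hy))
    · exact (contDiffAt_const (c := 0)).congr_of_eventuallyEq
        ((Ana.ev_symm hy (f0 y k)).mono fun z hz => by simp [hz])
  refine ⟨fun y => C * (f y * AMP.sq 0 fun a => h a y), sR, fun y hy =>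
    (f0 y fun k => (hO k).2 hy).mono fun z hz => by simp [hz], fun y => mul_nonneg C.cast_nonneg
      (mul_nonneg (f3 y).1 (AMP.normSq_sum_nonneg470 _ _)), fun y => ?_,
    one hB ⟨fun j e y hy hj => (hφ.smooth j e y hy hj).add (sR e y hy), fun j l y hj hl => by
      rw [hφ.change j l y hj hl, add_right_comm]⟩ he hi ?_⟩
  · by_cases k : ν y ∈ O
    · simp [AMP.sq, z0 y k]
    · simp [(f0 _ k).self_of_nhds]
  · have s2 := (sm _ ind.1 e he).of_le P285N.Tp.NpH.two
    rw [cHess_congr (g := fun z => φ i (e.symm z) + C * AMP.sq 0 fun a => h a (e.symm z))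
      ((Ana.ev_symm he (f1.filter_mono (nhds_le_nhdsSet (mem_singleton _)))).mono fun z hz => by
        simp [hz]), cHess_add (P285N.Tp.En.two hφ he hi) (contDiffAt_const.mul s2),
      cHess_const_mul _ s2, P299.H956.cHess_compR (f := AMP.sq 0)
        ((AMP.contDiff_sq 0).contDiffAt.of_le P285N.Tp.NpH.two) (an _ ind.1 e he), AMP.cHess_sq,
      Matrix.mul_one]
    exact hC

end Vale.Agent.P280X.Kl
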