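import Vale.Agent.P280X.Kl.Defs
import Vale.Agent.P280Z.Ma.UpA
import Vale.Agent.P277Z.Pos.Rb
import Vale.Agent.P272.K.INT.Part

/-!
# P280X, block KL: the normal directions at one point
-/

open scoped Manifold ContDiff Topology Matrix ComplexOrder
open Set Filter
open Vale.Agent.P272.K Vale.Agent.P285.H281.FD Vale.Agent.P281Z Vale.Agent.P280Z
open Vale.Agent.P277Z (at_chart Hol)
open Vale.Agent.P277Z.Slc (dd dd_congr ind_iff_surj)
open Vale.Agent.P277Z.Pos (nsq)
open Vale.Agent.P277Z.Pos.RbAux (nsq_sm levi_nsq' nsq_pos)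
open Vale.Agent.P284Z (levi)
open Vale.Agent.P284Y.Lib
open Vale.Agent.P280Z.Ma.Up (pd_iff pos_gen lv_chg pull_sm)

noncomputable section

namespace Vale.Agent.P280X.Kl

theorem loc61 : LOC := by
  intro ρ n W V ν Z B φ w hR hB hφ hw hp
  obtain ⟨c, h, hc, hi, hS⟩ := hR.sub (ν w) ⟨⟨w, rfl⟩, hw⟩
  have hν := hR.ov.hol
  have hZ : ∀ᶠ y in 𝓝 (ν w), y ∉ Z := hR.an.closed.isOpen_compl.mem_nhds hw
  obtain ⟨U, U1, U2, U3⟩ := eventually_nhds_iff.1
    ((eventually_all.2 fun a => (hi.1 a).near).and (hS.and hZ))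
  have := INT.isManifold_real n V.X
  obtain ⟨K, K1, K2, K3⟩ := exists_compact_between (isCompact_singleton (x := ν w)) U2
    (singleton_subset_iff.2 U3)
  obtain ⟨f, f1, f2, f3⟩ := exists_contMDiffMap_one_nhds_of_subset_interior (n := ⊤) 𝓘(ℝ, Cm n)
    isClosed_singleton K2
  rw [nhdsSet_singleton] at f1
  have an : ∀ y ∈ U, ∀ e : Chart n V.X, At e y →
      AnalyticAt ℂ (fun z a => h a (e.symm z)) (e y) := fun y hy e he =>
    analyticAt_pi_iff.2 fun a => (U1 y hy).1 a e he
  have sm : ∀ y ∈ U, ∀ e : Chart n V.X, At e y →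
      ContDiffAt ℝ ∞ (fun z => nsq fun a => h a (e.symm z)) (e y) := fun y hy e he =>
    nsq_sm.contDiffAt.comp (e y) ((an y hy e he).contDiffAt.restrict_scalars ℝ)
  have n0 : ∀ v : Cm c, 0 ≤ nsq v := fun v => Finset.sum_nonneg fun _ _ => sq_nonneg _
  have out : ∀ y ∉ U, ∀ᶠ z in 𝓝 y, f z = 0 := fun y hy =>
    (K1.isClosed.isOpen_compl.eventually_mem (fun k => hy (K3 k))).mono f2
  obtain ⟨i, hi0⟩ := hB.cover (ν w)
  have he := at_chart (n := n) (ν w)
  have he' := at_chart (n := ρ) w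
  generalize chartAt (Cm n) (ν w) = e at he
  generalize chartAt (Cm ρ) w = e' at he'
  have h1 := hφ.smooth i e _ he hi0
  have h2 := sm _ U3 e he
  have lv : ∀ v, levi (fun z => nsq fun a => h a (e.symm z)) (e (ν w)) v =
      4 * nsq fun a => dd (h a) e (ν w) v := fun v => by
    rw [levi_hol (an _ U3 e he) (nsq_sm.contDiffAt.of_le two_le_inf), levi_nsq',
      fderiv_pi fun a => (hi.1 a e he).differentiableAt]
    rfl
  have ker : LinearMap.range (df ν e' e w : Cm ρ →ₗ[ℂ] Cm n) =
      LinearMap.ker (ContinuousLinearMap.pi fun a => dd (h a) e (ν w) : Cm n →L[ℂ] Cm c).toLinearMap := by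
    refine Submodule.eq_of_le_of_finrank_eq ?_ ?_
    · rintro _ ⟨v, rfl⟩
      refine funext fun a => ?_
      have k := dd_comp (hi.1 a) (hν.at w) he' he
      rw [dd_congr (b := fun _ => 0) ((hν.cont.continuousAt.eventually (hS.and hZ)).mono
        fun y hy => hy.1.1 ⟨⟨y, rfl⟩, hy.2⟩ a) he'] at k
      have k' := DFunLike.congr_fun k v
      simp only [dd, fderiv_fun_const, Pi.zero_apply, ContinuousLinearMap.zero_apply] at k'
      exact k'.symm
    · have a1 := LinearMap.finrank_range_add_finrank_ker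
        (ContinuousLinearMap.pi fun a => dd (h a) e (ν w) : Cm n →L[ℂ] Cm c).toLinearMap
      rw [LinearMap.range_eq_top.2 ((ind_iff_surj _).1 (hi.2 e he)), finrank_top,
        Module.finrank_fin_fun, Module.finrank_fin_fun] at a1
      rw [LinearMap.finrank_range_of_inj (hR.ov.imm w hw e' e he' he), Module.finrank_fin_fun]
      omega
  obtain ⟨t, ht⟩ := pos_gen (h1.of_le two_le_inf) (h2.of_le two_le_inf)
    (fun v => by rw [lv]; exact mul_nonneg (by norm_num) (n0 _)) fun v hv h0 => by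
      have k : (fun a => dd (h a) e (ν w) v) = 0 := by
        by_contra k
        rw [lv] at h0
        linarith [nsq_pos k]
      obtain ⟨u, rfl⟩ : v ∈ LinearMap.range (df ν e' e w : Cm ρ →ₗ[ℂ] Cm n) := ker ▸ k
      obtain ⟨p1, p2, -⟩ := pull_sm hν he' he h1
      exact ((pd_iff (p1.of_le two_le_inf)).1 (hp i e' he' hi0) u
        fun k' => hv (by rw [k', map_zero])).trans_eq (p2 u)
  have sR : SmoothFn (n := n) fun y => max t 0 * (f y * nsq fun a => h a y) := fun e y he => by
    by_cases hy : y ∈ U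
    · exact contDiffAt_const.mul ((INT.smoothFn_of_contMDiff f.contMDiff e y he).mul (sm y hy e he))
    · exact (contDiffAt_const (c := (0 : ℝ))).congr_of_eventuallyEq
        ((at_ev he (out y hy)).mono fun z hz => by simp only [hz, zero_mul, mul_zero])
  refine ⟨_, sR, fun x hx => (out x fun k => (U1 x k).2.2 hx).mono fun z hz => by
    simp only [hz, zero_mul, mul_zero], fun x => mul_nonneg (le_max_right _ _)
      (mul_nonneg (f3 x).1 (n0 _)), fun y => ?_, fun j e₁ he₁ hj => ?_⟩
  · by_cases hy : ν y ∈ U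
    · simp [nsq, ((U1 _ hy).2.1).1 ⟨⟨y, rfl⟩, (U1 _ hy).2.2⟩]
    · simp only [(out _ hy).self_of_nhds, zero_mul, mul_zero]
  · have hψ : IsMet n B fun i y => φ i y + max t 0 * (f y * nsq fun a => h a y) :=
      ⟨fun i e x he hi => (hφ.smooth i e x he hi).add (sR e x he), fun i j x hi hj => by
        rw [hφ.change i j x hi hj, add_right_comm]⟩
    refine (pd_iff ((hψ.smooth j e₁ _ he₁ hj).of_le two_le_inf)).2 fun v hv => ?_
    refine lt_of_lt_of_eq ?_ (lv_chg hB hψ he₁ he hj hi0).symm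
    have k := ht.self_of_nhds _ fun k => hv (tr_inj he he₁ (k.trans (map_zero _).symm))
    have e1 : (fun z => φ i (e.symm z) + max t 0 * (f (e.symm z) * nsq fun a => h a (e.symm z)))
        =ᶠ[𝓝 (e (ν w))] fun z => φ i (e.symm z) + max t 0 * nsq fun a => h a (e.symm z) :=
      (at_ev he f1).mono fun z hz => by simp only [hz, one_mul]
    refine lt_of_lt_of_eq ?_ (levi_congr e1).symm
    rw [levi_add (h1.of_le two_le_inf) ((contDiffAt_const.mul h2).of_le two_le_inf),
      levi_const_mul (h2.of_le two_le_inf)]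
    refine k.trans_le (add_le_add_right (mul_le_mul_of_nonneg_right (le_max_left _ _) ?_) _)
    rw [lv]
    exact mul_nonneg (by norm_num) (n0 _)

end Vale.Agent.P280X.Kl
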