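import Vale.Agent.P280X.Kl.Defs
import Vale.Agent.P277Z.Val.KahPA
import Vale.Agent.P272.K.Inv.Hess
import Vale.Agent.P281Z.Mf.An

/-!
# P280X, block KL: row LOC
-/

open scoped ContDiff Topology ComplexOrder
open Set Filter Metric
open Vale.Agent.P272.K Vale.Agent.P285.H281.FD Vale.Agent.P281Z Vale.Agent.P280Z
open Vale.Agent.P277.HD (pull)
open Vale.Agent.P277Z (Hol at_chart)
open Vale.Agent.P277Z.Val.KP (pos_iff exists_N levi_nv an_sm)
open Vale.Agent.P284Z (levi cHess_quad)
open Vale.Agent.P284Y.Lib (levi_hol levi_add levi_congr levi_const_mul two_le_inf)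
open Vale.Agent.P298.H265 (nv nv_pos nv_nonneg contDiffAt_nv)

noncomputable section

namespace Vale.Agent.P280X.Kl

namespace L80

variable {n : ℕ} {V : Mf n} {B : Bd V.X} {ψ : B.ι → V.X → ℝ} {x : V.X}

theorem flat {u : Cm n → ℝ} {z : Cm n} (hu : ContDiffAt ℝ 2 u z) (h : cHess u z = 0)
    (w : Cm n) : levi u z w = 0 := by
  have := cHess_quad hu (star w)
  rw [h, star_star] at this
  simp only [Matrix.zero_mulVec, dotProduct_zero] at this
  have h2 : (levi u z w / 4 : ℝ) = 0 := by exact_mod_cast this.symm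
  linarith

theorem one (hB : IsLB n B) (hψ : IsMet n B ψ) {i₀ : B.ι} {e₀ : Chart n V.X} (he₀ : At e₀ x)
    (hi₀ : x ∈ B.U i₀) (h : P277Z.Val.KP.Pos (fun z => ψ i₀ (e₀.symm z)) (e₀ x)) :
    PosAt n B ψ x := by
  intro i e he hi
  rw [pos_iff ((hψ.smooth i e x he hi).of_le two_le_inf)]
  intro ξ hξ
  have e1 : (fun z => ψ i (e.symm z)) =ᶠ[𝓝 (e x)] fun z =>
      ψ i₀ (e₀.symm (e₀ (e.symm z))) + Real.log (‖B.g i i₀ (e.symm z)‖ ^ 2) := by
    filter_upwards [he.nhds_at he₀, at_ev he (lb_near hB hi), at_ev he (lb_near hB hi₀)]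
      with z a b c
    rw [a.2.2.left_inv, hψ.change i i₀ _ b c]
  have t := (transition he he₀).analyticAt
  have s0 : ContDiffAt ℝ 2 (fun z => ψ i₀ (e₀.symm z)) (e₀ (e.symm (e x))) := by
    rw [he.left_inv]
    exact (hψ.smooth i₀ e₀ x he₀ hi₀).of_le two_le_inf
  have g := hB.holo i i₀ e x he hi hi₀
  have g0 : B.g i i₀ (e.symm (e x)) ≠ 0 := by
    rw [he.left_inv]
    exact hB.ne_zero i i₀ x hi hi₀
  have s1 : ContDiffAt ℝ 2 (fun z => Real.log (‖B.g i i₀ (e.symm z)‖ ^ 2)) (e x) :=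
    (((g.of_le le_top).restrict_scalars ℝ).norm_sq ℝ).log (pow_ne_zero _ (norm_ne_zero_iff.2 g0))
  have s2 : ContDiffAt ℝ 2 (fun z => ψ i₀ (e₀.symm (e₀ (e.symm z)))) (e x) :=
    ContDiffAt.comp (g := fun z => ψ i₀ (e₀.symm z)) (f := fun z => e₀ (e.symm z)) (e x) s0
      ((an_sm t).self_of_nhds.of_le two_le_inf)
  rw [levi_congr e1, levi_add s2 s1,
    flat s1 (cHess_log_norm_sq g g0), add_zero, levi_hol t s0, he.left_inv]
  exact h _ fun k => hξ (imm_id x e e₀ he he₀ (k.trans (map_zero _).symm))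

theorem bump {U : Set V.X} (hU : U ∈ 𝓝 x) : ∃ (χ : V.X → ℝ) (K : Set V.X), IsClosed K ∧ K ⊆ U ∧
    (∀ y, 0 ≤ χ y) ∧ (∀ y ∉ K, χ y = 0) ∧ (∀ᶠ y in 𝓝 x, χ y = 1) ∧ SmoothFn (n := n) χ := by
  classical
  have he := at_chart (n := n) x
  set e := chartAt (Cm n) x
  obtain ⟨r, r0, hr⟩ := nhds_basis_closedBall.eventually_iff.1 (he.nhds_target.and (at_ev he hU))
  let b : ContDiffBump (e x) := ⟨r / 2, r, by positivity, by linarith⟩
  have hK : IsClosed (e.symm '' closedBall (e x) r) :=
    ((isCompact_closedBall _ _).image_of_continuousOn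
      (e.continuousOn_symm.mono fun z hz => (hr hz).1)).isClosed
  have h0 : ∀ y ∉ e.symm '' closedBall (e x) r, (if y ∈ e.source then b (e y) else 0) = 0 :=
    fun y hy => by
      split_ifs with k
      · exact b.zero_of_le_dist (not_lt.1 fun c => hy ⟨e y, c.le, e.left_inv k⟩)
      · rfl
  refine ⟨fun y => if y ∈ e.source then b (e y) else 0, _, hK, ?_, fun y => ?_, h0, ?_,
    fun c y hc => ?_⟩
  · rintro _ ⟨z, hz, rfl⟩
    exact (hr hz).2
  · beta_reduce
    split_ifs
    exacts [b.nonneg, le_rfl]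
  · filter_upwards [at_near he, (e.continuousAt he.2).eventually b.eventuallyEq_one] with y a a'
    rw [if_pos a.2]
    exact a'
  · by_cases k : y ∈ e.source
    · refine ((b.contDiff (n := ⊤)).contDiffAt.comp (c y)
        (an_sm (transition hc ⟨he.1, k⟩).analyticAt).self_of_nhds).congr_of_eventuallyEq ?_
      filter_upwards [hc.nhds_at ⟨he.1, k⟩] with z hz
      exact if_pos hz.2.2.2
    · refine contDiffAt_const.congr_of_eventuallyEq (at_ev hc
        ((hK.isOpen_compl.eventually_mem ?_).mono h0))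
      rintro ⟨z, hz, rfl⟩
      exact k (e.map_target (hr hz).1)

end L80

open L80 in
/-- **row LOC** -/
theorem loc80 : LOC := by
  intro ρ n W V ν Z B φ w rs hB hφ hw hp
  have hν := rs.ov.hol
  obtain ⟨c, h, hc, hI, hS⟩ := rs.sub (ν w) ⟨mem_range_self w, hw⟩
  have hZ := rs.an.closed.isOpen_compl.eventually_mem hw
  obtain ⟨χ, K, k1, k2, k3, k4, k5, k6⟩ := bump ((hS.and hZ).and hI.near)
  have he := at_chart (n := n) (ν w)
  have hd := at_chart (n := ρ) w
  set e := chartAt (Cm n) (ν w)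
  set d := chartAt (Cm ρ) w
  obtain ⟨i, hi⟩ := hB.cover (ν w)
  have an : ∀ (e : Chart n V.X) y, At e y → P277Z.Slc.Ind n h y →
      AnalyticAt ℂ (fun z a => h a (e.symm z)) (e y) := fun e y he hy =>
    analyticAt_pi_iff.2 fun a => hy.1 a e he
  have a0 := an e _ he hI
  have su := (hφ.smooth i e _ he hi).of_le two_le_inf
  have sv : ContDiffAt ℝ 2 (fun z => nv fun a => h a (e.symm z)) (e (ν w)) :=
    contDiffAt_nv ((an_sm a0).self_of_nhds.of_le two_le_inf)
  have v0 : ∀ ξ, 0 ≤ levi (fun z => nv fun a => h a (e.symm z)) (e (ν w)) ξ := fun ξ => by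
    rw [levi_nv a0]
    exact mul_nonneg (by norm_num) (nv_nonneg _)
  have aΦ := (hν.at w).an hd he
  have eΦ : e (ν (d.symm (d w))) = e (ν w) := by rw [hd.left_inv]
  have ev := at_ev hd (hν.cont.continuousAt.eventually (((hS.and hZ).and (at_near he))))
  obtain ⟨N, hN⟩ := exists_N su sv v0 fun ξ hξ h0 => by
    rw [levi_nv a0] at h0
    have h1 : fderiv ℂ (fun z a => h a (e.symm z)) (e (ν w)) ξ = 0 :=
      by_contra fun k => by linarith [nv_pos k]
    have h2 : (fderiv ℂ (fun z a => h a (e.symm z)) (e (ν w))).comp (df ν d e w) = 0 := by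
      rw [← eΦ] at a0 ⊢
      rw [df, ← fderiv_comp (f := fun z => e (ν (d.symm z))) (d w) a0.differentiableAt
        aΦ.differentiableAt, ← fderiv_const_apply (𝕜 := ℂ) (x := d w) (0 : Fin c → ℂ)]
      refine EventuallyEq.fderiv_eq (ev.mono fun z k => funext fun a => ?_)
      show h a (e.symm (e (ν (d.symm z)))) = 0
      rw [k.2.left_inv]
      exact k.1.1.1 ⟨mem_range_self _, k.1.2⟩ a
    have h3 : Function.Surjective (fderiv ℂ (fun z a => h a (e.symm z)) (e (ν w))) := by
      rw [fderiv_pi fun a => (hI.1 a e he).differentiableAt]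
      exact (P277Z.Slc.ind_iff_surj _).1 (hI.2 e he)
    have h4 : LinearMap.range (df ν d e w).toLinearMap =
        LinearMap.ker (fderiv ℂ (fun z a => h a (e.symm z)) (e (ν w))).toLinearMap := by
      refine Submodule.eq_of_le_of_finrank_eq ?_ ?_
      · rintro _ ⟨η, rfl⟩
        exact congrArg (fun L => L η) h2
      · have q := LinearMap.finrank_range_add_finrank_ker
          (fderiv ℂ (fun z a => h a (e.symm z)) (e (ν w))).toLinearMap
        rw [LinearMap.range_eq_top.2 h3, finrank_top] at q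
        rw [LinearMap.finrank_range_of_inj (rs.ov.imm w hw d e hd he)]
        simp only [Module.finrank_pi, Fintype.card_fin] at q ⊢
        omega
    obtain ⟨η, rfl⟩ : ξ ∈ LinearMap.range (df ν d e w).toLinearMap := h4 ▸ h1
    rw [← eΦ] at su ⊢
    have e1 : (fun z => φ i (e.symm (e (ν (d.symm z))))) =ᶠ[𝓝 (d w)]
        fun z => φ i (ν (d.symm z)) := ev.mono fun z k => by simp only [k.2.left_inv]
    have s1 := (su.comp (d w) ((an_sm aΦ).self_of_nhds.of_le two_le_inf)).congr_of_eventuallyEq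
      e1.symm
    refine ((pos_iff s1).1 (hp i d hd hi) η fun k => hξ (by rw [k, map_zero])).trans_eq ?_
    rw [← levi_congr e1, levi_hol aΦ su]
    rfl
  have sR : SmoothFn (n := n) fun y => |N| * (χ y * nv fun a => h a y) := fun c y hc => by
    by_cases k : y ∈ K
    · exact contDiffAt_const.mul ((k6 c y hc).mul
        (contDiffAt_nv (an_sm (an c y hc (k2 k).2)).self_of_nhds))
    · refine (contDiffAt_const (c := (0 : ℝ))).congr_of_eventuallyEq ((at_ev hc
        (k1.isOpen_compl.eventually_mem k)).mono fun z hz => ?_)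
      simp only [k4 _ hz, zero_mul, mul_zero]
  refine ⟨_, sR, fun x hx => (k1.isOpen_compl.eventually_mem fun k => (k2 k).1.2 hx).mono
    fun z hz => by simp only [k4 z hz, zero_mul, mul_zero],
    fun x => mul_nonneg (abs_nonneg N) (mul_nonneg (k3 x) (nv_nonneg _)), fun y => ?_,
    one hB ⟨fun a c y hc ha => (hφ.smooth a c y hc ha).add (sR c y hc), fun a b y ha hb => by
      rw [hφ.change a b y ha hb, add_right_comm]⟩ he hi fun ξ hξ => ?_⟩
  · by_cases k : ν y ∈ K
    · have := (k2 k).1.1.1 ⟨mem_range_self y, (k2 k).1.2⟩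
      simp [nv, this]
    · simp only [k4 _ k, zero_mul, mul_zero]
  · have e1 : (fun z => φ i (e.symm z) + |N| * (χ (e.symm z) * nv fun a => h a (e.symm z)))
        =ᶠ[𝓝 (e (ν w))] fun z => φ i (e.symm z) + |N| * nv fun a => h a (e.symm z) :=
      (at_ev he k5).mono fun z k => by simp only [k, one_mul]
    have q := hN ξ hξ
    rw [levi_add su (contDiffAt_const.mul sv), levi_const_mul sv] at q
    rw [levi_congr e1, levi_add su (contDiffAt_const.mul sv), levi_const_mul sv]
    linarith [mul_le_mul_of_nonneg_right (le_abs_self N) (v0 ξ)]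

end Vale.Agent.P280X.Kl
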