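import Vale.Agent.P280X.Kl.Defs
import Vale.Agent.P277Z.Ps.Met
import Vale.Agent.P272.K.AMP.Calc

/-!
# P280X, block KL: row MAXG, the regularized maximum
-/

open scoped Manifold ContDiff Topology Matrix ComplexOrder
open Set Filter
open Vale.Agent.P272.K Vale.Agent.P285.H281.FD Vale.Agent.P281Z Vale.Agent.P280Z
open Vale.Agent.P277Z (at_chart Hol Spsh)
open Vale.Agent.P277Z.Ps

noncomputable section

namespace Vale.Agent.P280X.Kl.Mx

/-- a smooth convex function, zero on the left, of slope one on the right -/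
def cv (s : ℝ) : ℝ := ∫ r in (0 : ℝ)..s, Real.smoothTransition r

theorem cv_d : deriv cv = Real.smoothTransition :=
  funext fun s => Real.smoothTransition.continuous.deriv_integral _ 0 s

theorem cv_sm : ContDiff ℝ ∞ cv :=
  contDiff_infty_iff_deriv.2 ⟨fun s =>
    (Real.smoothTransition.continuous.integral_hasStrictDerivAt 0 s).hasDerivAt.differentiableAt,
    cv_d ▸ Real.smoothTransition.contDiff⟩

theorem cv_zero {s : ℝ} (h : s ≤ 0) : cv s = 0 := by
  rw [cv, intervalIntegral.integral_congr (g := fun _ => (0 : ℝ)) fun r hr =>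
    Real.smoothTransition.zero_of_nonpos (by rw [uIcc_of_ge h] at hr; exact hr.2)]
  simp

theorem key {n : ℕ} {p u : Cm n → ℝ} {z : Cm n} (hp : ContDiffAt ℝ 2 p z)
    (hu : ContDiffAt ℝ 2 u z) (hs : (cHess (fun y => p y + u y) z).PosDef)
    (hq : u z < 1 → (cHess p z).PosDef) : (cHess (fun y => p y + cv (u y)) z).PosDef := by
  have hc : ContDiffAt ℝ 2 cv (u z) := cv_sm.contDiffAt.of_le (by norm_cast)
  have h2 : (((deriv Real.smoothTransition (u z) : ℝ) : ℂ) • AMP.gm u u z).PosSemidef :=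
    (AMP.gm_self_posSemidef u z).smul
      (Complex.zero_le_real.2 Real.smoothTransition.monotone.deriv_nonneg)
  rw [C2.cHess_add hp hu] at hs
  rw [C2.cHess_add (v := fun y => cv (u y)) hp (hc.comp z hu), AMP.cHess_comp_real hc hu, cv_d, ← add_assoc]
  refine Matrix.PosDef.add_posSemidef ?_ h2
  rcases (Real.smoothTransition.le_one (u z)).eq_or_lt with h1 | h1
  · rwa [h1, Complex.ofReal_one, one_smul]
  · have h3 : u z < 1 := not_le.1 fun k => h1.ne (Real.smoothTransition.one_of_one_le k)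
    rw [show cHess p z + ((Real.smoothTransition (u z) : ℝ) : ℂ) • cHess u z =
      ((1 - Real.smoothTransition (u z) : ℝ) : ℂ) • cHess p z +
        ((Real.smoothTransition (u z) : ℝ) : ℂ) • (cHess p z + cHess u z) by
      rw [Complex.ofReal_sub, Complex.ofReal_one, sub_smul, one_smul, smul_add]; abel]
    exact ((hq h3).smul (Complex.zero_lt_real.2 (sub_pos.2 h1))).add_posSemidef
      (hs.posSemidef.smul (Complex.zero_le_real.2 (Real.smoothTransition.nonneg _)))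

variable {n : ℕ} {X : Type} [TopologicalSpace X] [ChartedSpace (Cm n) X] {u v : X → ℝ} {x : X}

theorem sm_congr (h : P277Z.Ps.SmAt n u x) (k : ∀ᶠ y in 𝓝 x, v y = u y) : P277Z.Ps.SmAt n v x := fun e he =>
  (h e he).congr_of_eventuallyEq ((e.tendsto_symm he.2).eventually k)

theorem spsh_congr (h : Spsh n u x) (k : ∀ᶠ y in 𝓝 x, v y = u y) : Spsh n v x := fun e he =>
  have k' : (fun z => v (e.symm z)) =ᶠ[𝓝 (e x)] fun z => u (e.symm z) :=
    (e.tendsto_symm he.2).eventually k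
  ⟨(h e he).1.congr_of_eventuallyEq k', by rw [C2.cHess_congr k']; exact (h e he).2⟩

theorem sm_cont (h : P277Z.Ps.SmAt n u x) : ContinuousAt u x := by
  have hc : At (chartAt (Cm n) x) x := at_chart x
  refine ((h _ hc).continuousAt.comp ((chartAt (Cm n) x).continuousAt hc.2)).congr ?_
  exact ((chartAt (Cm n) x).eventually_left_inverse hc.2).mono fun y hy => by simp [hy]

theorem sm_nsq {a : X → ℂ} (h : Hol n a x) : P277Z.Ps.SmAt n (fun y => ‖a y‖ ^ 2) x := fun e he => by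
  simpa using sm_sq (ι := Unit) (f := fun _ z => a (e.symm z)) fun _ => h e he

end Vale.Agent.P280X.Kl.Mx

namespace Vale.Agent.P280X.Kl

open Mx

theorem maxg : MAXG := by
  classical
  intro d W B M O σ k ψ U D hψ hU hZ
  obtain ⟨φ, hφ, hp⟩ := D.pos
  have hk : (0 : ℝ) < k := Nat.cast_pos.2 D.kp
  obtain ⟨t, ht⟩ : LIso d (B.pow k) (M.mul O) := by
    rw [← cls_eq (lb_pow D.lB k) (lb_mul D.lM D.lO), cls_pow D.lB, cls_mul D.lM D.lO, D.cl]
  have hL := lb_mul D.lB (lb_mul D.lM D.lO)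
  have hσ : ∀ b x, x ∈ O.U b → Hol d (σ b) x := fun b x hb e he =>
    (D.sec.holo b e x he hb).analyticAt
  obtain ⟨v, hv⟩ := glue hL (fun a y => ‖σ a.2.2 y‖ ^ 2 * ‖t a.1 a.2 y‖ ^ 2 *
      Real.exp (φ a.2.1 y + (-(k : ℝ)) * ψ a.1 y)) (fun _ => True) fun a a' y ha ha' _ => by
    have e1 : t a.1 a.2 y * (M.g a.2.1 a'.2.1 y * O.g a.2.2 a'.2.2 y) =
      B.g a.1 a'.1 y ^ k * t a'.1 a'.2 y := ht.chg _ _ _ _ y ha.1 ha'.1 ha.2 ha'.2
    have e2 := congrArg (fun c => ‖c‖ ^ 2) e1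
    have p1 : 0 < ‖M.g a.2.1 a'.2.1 y‖ ^ 2 := by
      have := D.lM.ne_zero _ _ y ha.2.1 ha'.2.1
      positivity
    have p2 : 0 < ‖B.g a.1 a'.1 y‖ ^ 2 := by
      have := D.lB.ne_zero _ _ y ha.1 ha'.1
      positivity
    simp only [norm_mul, norm_pow, mul_pow] at e2
    rw [← pow_mul, mul_comm k 2, pow_mul] at e2
    rw [D.sec.change _ _ y ha.2.2 ha'.2.2, hφ.change _ _ y ha.2.1 ha'.2.1,
      hψ.change _ _ y ha.1 ha'.1, norm_mul, mul_pow,
      show φ a'.2.1 y + Real.log (‖M.g a.2.1 a'.2.1 y‖ ^ 2) +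
        -(k : ℝ) * (ψ a'.1 y + Real.log (‖B.g a.1 a'.1 y‖ ^ 2)) = (φ a'.2.1 y + -(k : ℝ) * ψ a'.1 y) +
        Real.log (‖M.g a.2.1 a'.2.1 y‖ ^ 2) - Real.log ((‖B.g a.1 a'.1 y‖ ^ 2) ^ k) by
      rw [Real.log_pow (‖B.g a.1 a'.1 y‖ ^ 2) k]; ring, Real.exp_sub, Real.exp_add, Real.exp_log p1,
      Real.exp_log (pow_pos p2 k), mul_div_assoc', div_eq_iff (pow_pos p2 k).ne']
    linear_combination ‖σ a'.2.2 y‖ ^ 2 * Real.exp (φ a'.2.1 y + -(k : ℝ) * ψ a'.1 y) * e2
  have ev : ∀ a x, x ∈ (B.mul (M.mul O)).U a → ∀ᶠ y in 𝓝 x, v y = ‖σ a.2.2 y‖ ^ 2 *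
      ‖t a.1 a.2 y‖ ^ 2 * Real.exp (φ a.2.1 y + (-(k : ℝ)) * ψ a.1 y) := fun a x ha =>
    Eventually.mono ((hL.isOpen a).mem_nhds ha) fun y hy => hv a y hy trivial
  have vs : ∀ x, P277Z.Ps.SmAt d v x := fun x => by
    obtain ⟨a, ha⟩ := hL.cover x
    refine sm_congr (fun e he => ?_) (ev a x ha)
    exact ((sm_nsq (hσ _ x ha.2.2) e he).mul (sm_nsq (ht.hol _ _ x ha.1 ha.2) e he)).mul
      ((hφ.smooth _ e x he ha.2.1).add (contDiffAt_const.mul (hψ.smooth _ e x he ha.1))).exp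
  have vc : Continuous v := continuous_iff_continuousAt.2 fun x => sm_cont (vs x)
  have vp : ∀ x, NZ O σ x → 0 < v x := fun x hx => by
    obtain ⟨a, ha⟩ := hL.cover x
    have h1 := hx _ ha.2.2
    have h2 := ht.ne _ _ x ha.1 ha.2
    rw [hv a x ha trivial]
    positivity
  have vz : ∀ x, ¬ NZ O σ x → v x = 0 := fun x hx => by
    obtain ⟨a, ha⟩ := hL.cover x
    obtain ⟨b, hb, h0⟩ : ∃ b, x ∈ O.U b ∧ σ b x = 0 := by
      by_contra h
      exact hx fun b hb h0 => h ⟨b, hb, h0⟩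
    rw [hv a x ha trivial, D.sec.change _ b x ha.2.2 hb, h0]
    simp
  have v0 : ∀ x, 0 ≤ v x := fun x => (em (NZ O σ x)).elim (fun h => (vp x h).le)
    fun h => (vz x h).ge
  obtain ⟨ε, hε, hm⟩ : ∃ ε : ℝ, 0 < ε ∧ ∀ x ∈ Uᶜ, ε ≤ v x :=
    hU.isClosed_compl.isCompact.exists_forall_le' vc.continuousOn
      fun x hx => vp x (by_contra fun h => hx (hZ x h))
  set C : ℝ := 1 - (k : ℝ)⁻¹ * Real.log ε with hC
  let u : W.X → ℝ := fun y => (k : ℝ)⁻¹ * Real.log (v y) + C
  have us : ∀ x, NZ O σ x → P277Z.Ps.SmAt d u x := fun x hx e he =>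
    (contDiffAt_const.mul ((vs x e he).log (by
      rw [e.left_inv he.2]; exact (vp x hx).ne'))).add contDiffAt_const
  have gz : ∀ x, ¬ NZ O σ x → ∀ᶠ y in 𝓝 x, (if v y = 0 then 0 else cv (u y)) = 0 := fun x hx => by
    have h1 : ∀ᶠ y in 𝓝 x, v y < Real.exp (-(k * C)) :=
      vc.continuousAt.eventually_lt continuousAt_const (by rw [vz x hx]; exact Real.exp_pos _)
    filter_upwards [h1] with y hy
    split_ifs with h0
    · rfl
    · have h2 := (Real.log_lt_iff_lt_exp ((v0 y).lt_of_ne' h0)).2 hy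
      refine cv_zero ?_
      have h3 := mul_lt_mul_of_pos_left h2 (inv_pos.2 hk)
      rw [mul_neg, inv_mul_cancel_left₀ hk.ne'] at h3
      exact (lt_neg_iff_add_neg.1 h3).le
  have gu : ∀ x, NZ O σ x → ∀ᶠ y in 𝓝 x, (if v y = 0 then 0 else cv (u y)) = cv (u y) :=
    fun x hx => (vc.continuousAt.eventually_ne (vp x hx).ne').mono fun y hy => if_neg hy
  refine ⟨fun y => if v y = 0 then 0 else cv (u y), fun e x he => ?_, gz, fun x hx hq i e he hi => ?_⟩
  · by_cases hx : NZ O σ x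
    · exact sm_congr (u := fun y => cv (u y))
        (fun e he => cv_sm.contDiffAt.comp _ (us x hx e he)) (gu x hx) e he
    · exact sm_congr (u := fun _ => 0) (fun _ _ => contDiffAt_const) (gz x hx) e he
  · obtain ⟨b, hb⟩ := (lb_mul D.lM D.lO).cover x
    have s1 : Spsh d (fun y => ψ i y + u y) x := by
      refine spsh_congr (spsh_add (spsh_smul (inv_pos.2 hk) (spsh_add (spsh_add
        (fun e he => ⟨hφ.smooth b.1 e x he hb.1, hp b.1 e x he hb.1⟩)
        (flat_psd (flatAt_log (hσ _ x hb.2) (hx _ hb.2))))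
        (flat_psd (flatAt_log (ht.hol i b x hi hb) (ht.ne i b x hi hb)))))
        (flat_psd (flat_const C))) ?_
      filter_upwards [ev (i, b) x ⟨hi, hb⟩, vc.continuousAt.eventually_ne (vp x hx).ne'] with y h1 h2
      rw [h1] at h2
      have h3 := left_ne_zero_of_mul h2
      simp only [u]
      rw [h1, Real.log_mul h3 (Real.exp_pos _).ne', Real.log_exp,
        Real.log_mul (left_ne_zero_of_mul h3) (right_ne_zero_of_mul h3)]
      field_simp
      ring
    have s2 : (fun z => ψ i (e.symm z) + if v (e.symm z) = 0 then 0 else cv (u (e.symm z))) =ᶠ[𝓝 (e x)]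
        fun z => ψ i (e.symm z) + cv (u (e.symm z)) :=
      ((e.tendsto_symm he.2).eventually (gu x hx)).mono fun y hy => congrArg (ψ i (e.symm y) + ·) hy
    rw [C2.cHess_congr s2]
    refine key (two (hψ.smooth i e x he hi)) (two (us x hx e he)) (s1 e he).2 fun h => ?_
    refine hq (by_contra fun hn => ?_) i e he hi
    rw [e.left_inv he.2] at h
    have h1 := mul_le_mul_of_nonneg_left (Real.log_le_log hε (hm x hn)) (inv_pos.2 hk).le
    simp only [u] at h
    linarith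

end Vale.Agent.P280X.Kl
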