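import Vale.Agent.P280X.Kl.Defs

/-!
# P280X, block KL, row MAXG: the regularized maximum
-/

open scoped Manifold ContDiff Topology Matrix ComplexOrder
open Set Filter
open Vale.Agent.P272.K Vale.Agent.P285.H281.FD Vale.Agent.P281Z Vale.Agent.P280Z
open Vale.Agent.P277Z (at_chart)

noncomputable section

namespace Vale.Agent.P280X.Kl

namespace M69

/-- the primitive of the smooth step -/
def mx (s : ℝ) : ℝ := ∫ t in (0 : ℝ)..s, Real.smoothTransition t

theorem mx_d (s : ℝ) : HasDerivAt mx (Real.smoothTransition s) s :=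
  (Real.smoothTransition.continuous.integral_hasStrictDerivAt 0 s).hasDerivAt

theorem mx_sm : ContDiff ℝ ∞ mx := by
  refine contDiff_infty_iff_deriv.2 ⟨fun s => (mx_d s).differentiableAt, ?_⟩
  have h : deriv mx = Real.smoothTransition := funext fun s => (mx_d s).deriv
  rw [h]
  exact Real.smoothTransition.contDiff

theorem mx_zero {s : ℝ} (hs : s ≤ 0) : mx s = 0 := by
  have h : mx s = ∫ _ in (0 : ℝ)..s, (0 : ℝ) := by
    refine intervalIntegral.integral_congr fun t ht => Real.smoothTransition.zero_of_nonpos ?_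
    rw [uIcc_of_ge hs] at ht
    exact ht.2
  rw [h, intervalIntegral.integral_zero]

theorem two_le : (2 : WithTop ℕ∞) ≤ ∞ := WithTop.coe_le_coe.2 (le_top : (2 : ℕ∞) ≤ ⊤)

/-- the Hessian of `p + mx (u + C)` -/
theorem hess {n : ℕ} {p u : Cm n → ℝ} {z : Cm n} {C : ℝ} (hp : ContDiffAt ℝ ∞ p z)
    (hu : ContDiffAt ℝ ∞ u z) (h1 : (cHess (fun y => p y + u y) z).PosDef)
    (h2 : (cHess p z).PosDef ∨ 1 ≤ u z + C) :
    (cHess (fun y => p y + mx (u y + C)) z).PosDef := by
  have hv : ContDiffAt ℝ ∞ (fun y => u y + C) z := hu.add contDiffAt_const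
  have hm : ContDiffAt ℝ ∞ (fun y => mx (u y + C)) z := mx_sm.contDiffAt.comp z hv
  set t := Real.smoothTransition (u z + C) with ht
  set r := deriv Real.smoothTransition (u z + C) with hr
  have hd : HasDerivAt Real.smoothTransition r (u z + C) :=
    ((Real.smoothTransition.contDiff (n := 1)).differentiable (by simp) _).hasDerivAt
  have hc : cHess (fun y => u y + C) z = cHess u z := by
    rw [C2.cHess_add (hu.of_le two_le) contDiffAt_const, C2.cHess_const, add_zero]
  set w : Fin n → ℂ := fun j => dz j (fun y => ((u y + C : ℝ) : ℂ)) z with hw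
  have e1 : cHess (fun y => mx (u y + C)) z =
      (t : ℂ) • cHess u z + (r : ℂ) • Matrix.vecMulVec w (star w) := by
    ext j k
    have h := C2.cHess_comp (u := fun y => u y + C) (ψ := mx) (ψ₁ := Real.smoothTransition)
      (Eventually.of_forall mx_d) hd (hv.of_le two_le) j k
    rw [h, hc, C2.dzb_real k (hv.differentiableAt (by simp))]
    simp [Matrix.vecMulVec_apply, hw, ht]
  have e2 := C2.cHess_add (hp.of_le two_le) (hu.of_le two_le)
  have e3 : cHess (fun y => p y + mx (u y + C)) z =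
      (((1 - t : ℝ) : ℂ) • cHess p z + (t : ℂ) • cHess (fun y => p y + u y) z) +
        (r : ℂ) • Matrix.vecMulVec w (star w) := by
    rw [C2.cHess_add (hp.of_le two_le) (hm.of_le two_le), e1, e2]
    push_cast
    module
  have hr0 : (0 : ℂ) ≤ r := by
    exact_mod_cast (Real.smoothTransition.monotone.deriv_nonneg : 0 ≤ r)
  rw [e3]
  refine Matrix.PosDef.add_posSemidef ?_ ((Matrix.posSemidef_vecMulVec_self_star w).smul hr0)
  have t0 : 0 ≤ t := Real.smoothTransition.nonneg _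
  have t1 : t ≤ 1 := Real.smoothTransition.le_one _
  rcases h2 with h2 | h2
  · rcases t1.lt_or_eq with h | h
    · refine Matrix.PosDef.add_posSemidef (h2.smul ?_) (h1.posSemidef.smul ?_)
      · exact_mod_cast sub_pos.2 h
      · exact_mod_cast t0
    · rw [h]
      simpa using h1
  · have h : t = 1 := Real.smoothTransition.one_of_one_le h2
    rw [h]
    simpa using h1

section
variable {n : ℕ} {X : Type} [TopologicalSpace X] [ChartedSpace (Cm n) X]

theorem cont {T : Type} [TopologicalSpace T] {f : X → T} {x : X} {e : Chart n X} (he : At e x)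
    (h : ContinuousAt (fun z => f (e.symm z)) (e x)) : ContinuousAt f x := by
  refine (h.comp (e.continuousAt he.2)).congr ?_
  filter_upwards [e.eventually_left_inverse he.2] with y hy
  simp only [Function.comp_apply, hy]

theorem nz_of {O : Bd X} {σ : O.ι → X → ℂ} (hO : IsLB n O) (hσ : IsSec n O σ) {o : O.ι} {x : X}
    (ho : x ∈ O.U o) (h : σ o x ≠ 0) : NZ O σ x := fun o' ho' => by
  rw [hσ.change o' o x ho' ho]
  exact mul_ne_zero (hO.ne_zero o' o x ho' ho) h

theorem nz_near {O : Bd X} {σ : O.ι → X → ℂ} (hO : IsLB n O) (hσ : IsSec n O σ) {x : X}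
    (h : NZ O σ x) : ∀ᶠ y in 𝓝 x, NZ O σ y := by
  obtain ⟨o, ho⟩ := hO.cover x
  have hc : ContinuousAt (σ o) x :=
    cont (at_chart (n := n) x) (hσ.holo o _ x (at_chart x) ho).continuousAt
  filter_upwards [hc.eventually_ne (h o ho), lb_near hO ho] with y hy hy'
  exact nz_of hO hσ hy' hy

theorem log_sq {a b : ℂ} (ha : a ≠ 0) (hb : b ≠ 0) :
    Real.log (‖a * b‖ ^ 2) = Real.log (‖a‖ ^ 2) + Real.log (‖b‖ ^ 2) := by
  rw [norm_mul, mul_pow, Real.log_mul (pow_ne_zero _ (norm_ne_zero_iff.2 ha))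
    (pow_ne_zero _ (norm_ne_zero_iff.2 hb))]

end

/-- the weight function with poles along the zeros of the section -/
theorem pole {d : ℕ} {W : Mf d} {B M O : Bd W.X} {σ : O.ι → W.X → ℂ} {k : ℕ}
    {ψ : B.ι → W.X → ℝ} (D : Dc W B M O σ k) (hψ : IsMet d B ψ) :
    ∃ u : W.X → ℝ,
      (∀ x, NZ O σ x → ∀ e : Chart d W.X, At e x →
        ContDiffAt ℝ ∞ (fun z => u (e.symm z)) (e x) ∧
        ∀ i, x ∈ B.U i → (cHess (fun z => ψ i (e.symm z) + u (e.symm z)) (e x)).PosDef) ∧
      ∀ (C : ℝ) (x : W.X), ¬ NZ O σ x → ∀ᶠ y in 𝓝 x, NZ O σ y → u y + C ≤ 0 := by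
  obtain ⟨φ, hφ, hp⟩ := D.pos
  have hcl : cls d (B.pow k) = cls d (M.mul O) := by
    rw [cls_pow D.lB, cls_mul D.lM D.lO, D.cl]
  obtain ⟨t, ht⟩ := (cls_eq (lb_pow D.lB k) (lb_mul D.lM D.lO)).1 hcl
  have k0 : (0 : ℝ) < k := by exact_mod_cast D.kp
  obtain ⟨u, hu⟩ := glue (n := d) (lb_mul D.lB (lb_mul D.lM D.lO))
    (fun b y => (k : ℝ)⁻¹ * (Real.log (‖t b.1 b.2 y * σ b.2.2 y‖ ^ 2) + φ b.2.1 y) - ψ b.1 y)
    (NZ O σ) (by
      rintro ⟨i, a, o⟩ ⟨i', a', o'⟩ x ⟨hi, ha, ho⟩ ⟨hi', ha', ho'⟩ hx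
      have h1 : t i (a, o) x * (M.g a a' x * O.g o o' x) = B.g i i' x ^ k * t i' (a', o') x :=
        ht.chg i i' (a, o) (a', o') x hi hi' ⟨ha, ho⟩ ⟨ha', ho'⟩
      have n1 := ht.ne i (a, o) x hi ⟨ha, ho⟩
      have n2 := ht.ne i' (a', o') x hi' ⟨ha', ho'⟩
      have n3 := D.lM.ne_zero a a' x ha ha'
      have n4 := D.lO.ne_zero o o' x ho ho'
      have n5 := D.lB.ne_zero i i' x hi hi'
      have h2 := congrArg (fun c : ℂ => Real.log (‖c‖ ^ 2)) h1
      simp only [log_sq n1 (mul_ne_zero n3 n4), log_sq n3 n4,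
        log_sq (pow_ne_zero k n5) n2] at h2
      rw [norm_pow, ← pow_mul, mul_comm k 2, pow_mul, Real.log_pow _ k] at h2
      simp only []
      rw [hψ.change i i' x hi hi', hφ.change a a' x ha ha', D.sec.change o o' x ho ho',
        log_sq n1 (mul_ne_zero n4 (hx o' ho')), log_sq n4 (hx o' ho'), log_sq n2 (hx o' ho')]
      field_simp
      linarith)
  have loc : ∀ {x i a o}, x ∈ B.U i → x ∈ M.U a → x ∈ O.U o → ∀ᶠ y in 𝓝 x, NZ O σ y →
      u y = (k : ℝ)⁻¹ * (Real.log (‖t i (a, o) y * σ o y‖ ^ 2) + φ a y) - ψ i y := by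
    intro x i a o hi ha ho
    filter_upwards [lb_near D.lB hi, lb_near D.lM ha, lb_near D.lO ho] with y h1 h2 h3 hy
    exact hu (i, a, o) y ⟨h1, h2, h3⟩ hy
  have an : ∀ {x i a o} {e : Chart d W.X}, At e x → x ∈ B.U i → x ∈ M.U a → x ∈ O.U o →
      ContDiffAt ℂ ω (fun z => t i (a, o) (e.symm z) * σ o (e.symm z)) (e x) :=
    fun {x i a o e} he hi ha ho =>
      (ht.hol i (a, o) x hi ⟨ha, ho⟩ e he).contDiffAt.mul (D.sec.holo o e x he ho)
  refine ⟨u, fun x hx e he => ?_, fun C x hx => ?_⟩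
  · obtain ⟨a, ha⟩ := D.lM.cover x
    obtain ⟨o, ho⟩ := D.lO.cover x
    have key : ∀ i, x ∈ B.U i → ContDiffAt ℝ ∞ (fun z => u (e.symm z)) (e x) ∧
        (cHess (fun z => ψ i (e.symm z) + u (e.symm z)) (e x)).PosDef := by
      intro i hi
      have hF := an he hi ha ho
      have h0 : t i (a, o) (e.symm (e x)) * σ o (e.symm (e x)) ≠ 0 := by
        rw [e.left_inv he.2]
        exact mul_ne_zero (ht.ne i (a, o) x hi ⟨ha, ho⟩) (hx o ho)
      have hl : ContDiffAt ℝ ∞
          (fun z => Real.log (‖t i (a, o) (e.symm z) * σ o (e.symm z)‖ ^ 2)) (e x) :=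
        (((hF.restrict_scalars ℝ).of_le le_top).norm_sq ℂ).log
          (pow_ne_zero _ (norm_ne_zero_iff.2 h0))
      have hφa := hφ.smooth a e x he ha
      have ev : ∀ᶠ z in 𝓝 (e x), u (e.symm z) = (k : ℝ)⁻¹ *
          (Real.log (‖t i (a, o) (e.symm z) * σ o (e.symm z)‖ ^ 2) + φ a (e.symm z)) -
          ψ i (e.symm z) :=
        at_ev he (P := fun y => u y = (k : ℝ)⁻¹ *
          (Real.log (‖t i (a, o) y * σ o y‖ ^ 2) + φ a y) - ψ i y)
          ((loc hi ha ho).mp ((nz_near D.lO D.sec hx).mono fun y hy h => h hy))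
      refine ⟨((contDiffAt_const.mul (hl.add hφa)).sub
        (hψ.smooth i e x he hi)).congr_of_eventuallyEq ev, ?_⟩
      have ev2 : (fun z => ψ i (e.symm z) + u (e.symm z)) =ᶠ[𝓝 (e x)] fun z => (k : ℝ)⁻¹ *
          (Real.log (‖t i (a, o) (e.symm z) * σ o (e.symm z)‖ ^ 2) + φ a (e.symm z)) := by
        filter_upwards [ev] with z hz
        rw [hz]
        ring
      rw [C2.cHess_congr ev2, C2.cHess_const_mul _ ((hl.add hφa).of_le two_le),
        C2.cHess_add (hl.of_le two_le) (hφa.of_le two_le), cHess_log_norm_sq hF h0, zero_add]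
      refine (hp a e x he ha).smul ?_
      exact_mod_cast inv_pos.2 k0
    obtain ⟨i, hi⟩ := D.lB.cover x
    exact ⟨(key i hi).1, fun j hj => (key j hj).2⟩
  · obtain ⟨i, hi⟩ := D.lB.cover x
    obtain ⟨a, ha⟩ := D.lM.cover x
    obtain ⟨o, ho⟩ := D.lO.cover x
    have h0 : σ o x = 0 := by
      by_contra h
      exact hx (nz_of D.lO D.sec ho h)
    have c1 : ContinuousAt (fun y => t i (a, o) y * σ o y) x :=
      cont (at_chart (n := d) x) (an (at_chart x) hi ha ho).continuousAt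
    have c2 : ContinuousAt (φ a) x :=
      cont (at_chart (n := d) x) (hφ.smooth a _ x (at_chart x) ha).continuousAt
    have c3 : ContinuousAt (ψ i) x :=
      cont (at_chart (n := d) x) (hψ.smooth i _ x (at_chart x) hi).continuousAt
    set r := (k : ℝ)⁻¹ * φ a x - ψ i x + C + 1 with hr
    have e1 : ∀ᶠ y in 𝓝 x, (k : ℝ)⁻¹ * φ a y - ψ i y + C < r :=
      (((c2.const_mul _).sub c3).add continuousAt_const).eventually_lt continuousAt_const
        (lt_add_one _)
    have e2 : ∀ᶠ y in 𝓝 x, ‖t i (a, o) y * σ o y‖ ^ 2 < Real.exp (-(k * r)) :=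
      (c1.norm.pow 2).eventually_lt continuousAt_const
        (by simpa [h0] using Real.exp_pos (-(k * r)))
    filter_upwards [loc hi ha ho, e1, e2, lb_near D.lB hi, lb_near D.lM ha, lb_near D.lO ho]
      with y h1 h2 h3 h4 h5 h6 hy
    have hn : 0 < ‖t i (a, o) y * σ o y‖ ^ 2 :=
      pow_pos (norm_pos_iff.2 (mul_ne_zero (ht.ne i (a, o) y h4 ⟨h5, h6⟩) (hy o h6))) 2
    have h7 := (Real.log_lt_iff_lt_exp hn).2 h3
    have h8 : (k : ℝ)⁻¹ * Real.log (‖t i (a, o) y * σ o y‖ ^ 2) ≤ -r := by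
      rw [inv_mul_le_iff₀ k0]
      linarith
    rw [h1 hy, mul_add]
    linarith

end M69

open M69 in
theorem maxg69 : MAXG := by
  intro d W B M O σ k ψ U D hψ hU hz
  classical
  obtain ⟨u, h1, h2⟩ := pole D hψ
  have hn : ∀ x, x ∉ U → NZ O σ x := fun x hx => by
    by_contra h
    exact hx (hz x h)
  obtain ⟨C, hC⟩ := hU.isClosed_compl.isCompact.exists_bound_of_continuousOn (f := u)
    fun x hx => (cont (at_chart (n := d) x)
      (h1 x (hn x hx) _ (at_chart x)).1.continuousAt).continuousWithinAt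
  have z0 : ∀ x, ¬ NZ O σ x → ∀ᶠ y in 𝓝 x, (if NZ O σ y then mx (u y + (C + 1)) else 0) = 0 := by
    intro x hx
    filter_upwards [h2 (C + 1) x hx] with y hy
    split_ifs with h
    · exact mx_zero (hy h)
    · rfl
  have z1 : ∀ x, NZ O σ x → ∀ e : Chart d W.X, At e x → ∀ᶠ z in 𝓝 (e x),
      (if NZ O σ (e.symm z) then mx (u (e.symm z) + (C + 1)) else 0) =
        mx (u (e.symm z) + (C + 1)) := fun x hx e he =>
    at_ev he (P := fun y => (if NZ O σ y then mx (u y + (C + 1)) else 0) = mx (u y + (C + 1)))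
      ((nz_near D.lO D.sec hx).mono fun y hy => if_pos hy)
  refine ⟨fun y => if NZ O σ y then mx (u y + (C + 1)) else 0, fun e x he => ?_, z0,
    fun x hx hp i e he hi => ?_⟩
  · by_cases hx : NZ O σ x
    · exact (mx_sm.contDiffAt.comp _
        ((h1 x hx e he).1.add contDiffAt_const)).congr_of_eventuallyEq (z1 x hx e he)
    · exact contDiffAt_const.congr_of_eventuallyEq
        (at_ev he (P := fun y => (if NZ O σ y then mx (u y + (C + 1)) else 0) = 0) (z0 x hx))
  · have ev : (fun z => ψ i (e.symm z) +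
        (if NZ O σ (e.symm z) then mx (u (e.symm z) + (C + 1)) else 0)) =ᶠ[𝓝 (e x)]
        fun z => ψ i (e.symm z) + mx (u (e.symm z) + (C + 1)) := by
      filter_upwards [z1 x hx e he] with z hz
      rw [hz]
    rw [C2.cHess_congr ev]
    refine hess (u := fun z => u (e.symm z)) (hψ.smooth i e x he hi) (h1 x hx e he).1
      ((h1 x hx e he).2 i hi) ?_
    by_cases hxU : x ∈ U
    · exact Or.inl (hp hxU i e he hi)
    · refine Or.inr ?_
      have h := (abs_le.1 (hC x hxU)).1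
      simp only [e.left_inv he.2]
      linarith

end Vale.Agent.P280X.Kl
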