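import Vale.Agent.P280X.Kl.Defs
import Vale.Agent.P277Z.Pos.Rb
import Vale.Agent.P277Z.Pos.Tch
import Vale.Agent.P272.K.MP.Local

/-!
# P280X, block KL: positivity is open, and stable under functions with a minimum
-/

open scoped Manifold ContDiff Topology Matrix ComplexOrder
open Set Filter
open Vale.Agent.P272.K Vale.Agent.P285.H281.FD Vale.Agent.P281Z Vale.Agent.P280Z
open Vale.Agent.P277Z (at_chart)
open Vale.Agent.P277Z.Pos.RbAux (posDef_of_levi ev_ch ev_tr levi_pull D_ne)
open Vale.Agent.P284Z (levi cHess_quad)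
open Vale.Agent.P284Y.Lib (levi_congr levi_add levi_const_mul)

noncomputable section

namespace Vale.Agent.P280X.Kl

namespace O85

variable {n : ℕ}

theorem two : (2 : WithTop ℕ∞) ≤ ∞ := by norm_cast

theorem levi_pos {u : Cm n → ℝ} {z : Cm n} (hu : ContDiffAt ℝ 2 u z) (h : (cHess u z).PosDef)
    {w : Cm n} (hw : w ≠ 0) : 0 < levi u z w := by
  have k := h.dotProduct_mulVec_pos (star_ne_zero.2 hw)
  rw [cHess_quad hu, star_star, Complex.zero_lt_real] at k
  linarith

theorem levi_open {u : Cm n → ℝ} {z : Cm n} (hu : ContDiffAt ℝ 2 u z)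
    (h : ∀ w, w ≠ 0 → 0 < levi u z w) : ∀ᶠ y in 𝓝 z, ∀ w, w ≠ 0 → 0 < levi u y w := by
  have h2 : ContinuousAt (fderiv ℝ (fderiv ℝ u)) z :=
    ((hu.fderiv_right (m := 1) le_rfl).fderiv_right (m := 0) (by norm_num)).continuousAt
  have h3 := (isCompact_sphere (0 : Cm n) 1).eventually_forall_of_forall_eventually (x₀ := z)
    (P := fun y w => 0 < levi u y w) fun w hw => by
      have c1 : ContinuousAt (fun p : Cm n × Cm n => fderiv ℝ (fderiv ℝ u) p.1) (z, w) :=
        h2.comp_of_eq continuousAt_fst rfl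
      have c2 : ContinuousAt (fun p : Cm n × Cm n => Complex.I • p.2) (z, w) :=
        by fun_prop
      have c3 : ContinuousAt (fun p : Cm n × Cm n => levi u p.1 p.2) (z, w) :=
        ((c1.clm_apply continuousAt_snd).clm_apply continuousAt_snd).add
          ((c1.clm_apply c2).clm_apply c2)
      refine c3.eventually (lt_mem_nhds (h w fun k => ?_))
      rw [k] at hw
      simp at hw
  refine h3.mono fun y hy w hw => ?_
  have p : 0 < ‖w‖⁻¹ := inv_pos.2 (norm_pos_iff.2 hw)
  have k := hy (‖w‖⁻¹ • w) (by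
    rw [mem_sphere_zero_iff_norm, norm_smul, norm_inv, norm_norm,
      inv_mul_cancel₀ (norm_ne_zero_iff.2 hw)])
  have e : levi u y (‖w‖⁻¹ • w) = ‖w‖⁻¹ * ‖w‖⁻¹ * levi u y w := by
    rw [levi, levi, smul_comm Complex.I]
    simp only [map_smul, smul_apply, smul_eq_mul]
    ring
  rw [e] at k
  exact (mul_pos_iff_of_pos_left (mul_pos p p)).1 k

/-- one chart and one frame are enough -/
theorem posAt_of {V : Mf n} {B : Bd V.X} {ψ : B.ι → V.X → ℝ} (hB : IsLB n B) (hψ : IsMet n B ψ)
    {x : V.X} {i : B.ι} {e : Chart n V.X} (he : At e x) (hi : x ∈ B.U i)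
    (h : ∀ w, w ≠ 0 → 0 < levi (fun z => ψ i (e.symm z)) (e x) w) : PosAt n B ψ x := by
  intro j e' he' hj
  refine posDef_of_levi ((hψ.smooth j e' x he' hj).of_le two) fun w hw => ?_
  obtain ⟨l1, l2⟩ := P277Z.Pos.log_norm_c2 (hB.holo j i e' x he' hj hi).analyticAt
    (by rw [he'.left_inv]; exact hB.ne_zero j i x hj hi)
  have e1 : (fun z => ψ j (e'.symm z)) =ᶠ[𝓝 (e' x)]
      fun z => ψ i (e'.symm z) + 2 * Real.log ‖B.g j i (e'.symm z)‖ :=
    (ev_ch he' ((lb_near hB hj).and (lb_near hB hi))).mono fun z hz => by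
      simp only [hψ.change j i _ hz.1 hz.2, Real.log_pow, Nat.cast_ofNat]
  rw [levi_congr e1, levi_add ((hψ.smooth i e' x he' hi).of_le two) (contDiffAt_const.mul l1),
    levi_const_mul l1, l2, mul_zero, add_zero, levi_congr (ev_tr he' he (ψ i)),
    levi_pull (v := fun z => ψ i (e.symm z)) he' he ((hψ.smooth i e x he hi).of_le two)]
  exact h _ (D_ne he' he hw)

end O85

/-- **OPN** -/
theorem opn85 : OPN := by
  intro n V B ψ hB hψ
  refine isOpen_iff_mem_nhds.2 fun x hx => ?_
  obtain ⟨i, hi⟩ := hB.cover x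
  have he := at_chart (n := n) x
  have h2 := (hψ.smooth i _ x he hi).of_le O85.two
  have h3 := ((chartAt (Cm n) x).continuousAt he.2).eventually
    (O85.levi_open h2 fun w hw => O85.levi_pos h2 (hx i _ he hi) hw)
  filter_upwards [h3, at_near he, lb_near hB hi] with y y1 y2 y3
  exact O85.posAt_of hB hψ y2 y3 y1

/-- **MIN** -/
theorem min85 : MIN := by
  intro n V B φ R x hB hφ hR h0 hx h i e he hi
  have h1 := (hφ.smooth i e x he hi).of_le O85.two
  have h2 := (hR e x he).of_le O85.two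
  refine posDef_of_levi (h1.add h2) fun w hw => ?_
  have hm : IsLocalMax (fun z => -1 * R (e.symm z)) (e x) := Eventually.of_forall fun z => by
    simp only [he.left_inv, hx]
    linarith [h0 (e.symm z)]
  have h3 : levi (fun z => -1 * R (e.symm z)) (e x) w ≤ 0 :=
    add_nonpos (MP.fderiv2_nonpos_of_max hm (contDiffAt_const.mul h2) _)
      (MP.fderiv2_nonpos_of_max hm (contDiffAt_const.mul h2) _)
  rw [levi_const_mul h2] at h3
  rw [levi_add h1 h2]
  linarith [O85.levi_pos h1 (h i e he hi) hw]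

end Vale.Agent.P280X.Kl
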