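import Vale.Agent.P280X.Kl.Defs
import Vale.Agent.P277Z.Ps.Met
import Vale.Agent.P272.K.N.MaxP

/-!
# P280X, block KL: the rows OPN and MIN
-/

open scoped Manifold ContDiff Topology ComplexOrder
open Set Filter
open Vale.Agent.P272.K Vale.Agent.P285.H281.FD Vale.Agent.P281Z
open Vale.Agent.P277Z Vale.Agent.P277Z.Ps

namespace Vale.Agent.P280X.Kl

theorem opn90 : OPN := by
  intro n V B ψ hB hψ
  refine isOpen_iff_mem_nhds.2 fun x hx => ?_
  obtain ⟨i, hi⟩ := hB.cover x
  have he := at_chart (n := n) x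
  set e := chartAt (Cm n) x
  obtain ⟨ε, hε, h⟩ := N.posDef_of_near (hx i e he hi)
  have h2 : ∀ a b, ∀ᶠ y in 𝓝 x, ‖cHess (fun z => ψ i (e.symm z)) (e y) a b -
      cHess (fun z => ψ i (e.symm z)) (e x) a b‖ ≤ ε := fun a b => by
    have k1 := (INT.smooth_cHess (hψ.smooth i e x he hi) a b).continuousAt.comp
      (e.continuousAt he.2)
    have k3 := (k1.sub (continuousAt_const
      (y := cHess (fun z => ψ i (e.symm z)) (e x) a b))).norm
    exact k3.eventually (Iic_mem_nhds (by simpa using hε))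
  filter_upwards [eventually_all.2 fun a => eventually_all.2 (h2 a), (hB.isOpen i).mem_nhds hi,
    e.open_source.mem_nhds he.2] with y k1 k2 k3 j e' he' hj
  have k5 : At e y := ⟨he.1, k3⟩
  have k6 : Spsh n (ψ i) y := spsh_of_chart k5 (fun e he => hψ.smooth i e y he k2)
    (h _ (cHess_isHermitian (two (hψ.smooth i e y k5 k2))) k1)
  have k7 := spsh_add k6 (flat_psd (flatAt_log (b := B.g j i)
    (fun e he => (hB.holo j i e y he hj k2).analyticAt) (hB.ne_zero j i y hj k2)))
  have k8 : (fun z => ψ j (e'.symm z)) =ᶠ[𝓝 (e' y)]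
      fun z => ψ i (e'.symm z) + Real.log (‖B.g j i (e'.symm z)‖ ^ 2) := by
    have c : Tendsto e'.symm (𝓝 (e' y)) (𝓝 y) := e'.tendsto_symm he'.2
    filter_upwards [c.eventually ((hB.isOpen i).mem_nhds k2),
      c.eventually ((hB.isOpen j).mem_nhds hj)] with z a1 a2
    exact hψ.change j i _ a2 a1
  rw [cHess_congr k8]
  exact (k7 e' he').2

theorem min90 : MIN := by
  intro n V B φ R x _ hφ hR h0 hx h i e he hi
  have h1 := two (hR e x he)
  have h2 := N.neg_cHess_posSemidef (f := fun z => -R (e.symm z)) h1.neg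
    (Eventually.of_forall fun z => by
      show -R (e.symm z) ≤ -R (e.symm (e x))
      rw [e.left_inv he.2, hx]
      exact neg_le_neg (h0 _))
  rw [C2.cHess_neg h1, neg_neg] at h2
  rw [cHess_add (two (hφ.smooth i e x he hi)) h1]
  exact (h i e he hi).add_posSemidef h2

end Vale.Agent.P280X.Kl
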