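import Vale.Agent.P280X.Kl.Defs
import Vale.Agent.P281Z.Pb.Api2

/-!
# P280X, block KL: row PTA
-/

open scoped Matrix
open Vale.Agent.P272.K Vale.Agent.P285.H281.FD Vale.Agent.P281Z Vale.Agent.P280Z

namespace Vale.Agent.P280X.Kl

theorem PtaH.lb_inv {n : ℕ} {V : Mf n} {L : Bd V.X} (h : IsLB n L) : IsLB n (P277.Bd.inv L) where
  isOpen := h.isOpen
  cover := h.cover
  holo i j e x he hi hj := (h.holo i j e x he hi hj).inv (by
    rw [e.left_inv he.2]
    exact h.ne_zero i j x hi hj)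
  ne_zero i j x hi hj := inv_ne_zero (h.ne_zero i j x hi hj)
  cocycle i j k x hi hj hk := (mul_inv _ _).symm.trans (congrArg _ (h.cocycle i j k x hi hj hk))

theorem pta : PTA := by
  intro d V P ⟨⟨hc, hp⟩, hn⟩
  refine ⟨P.conn, P.prj ⟨_, PtaH.lb_inv P277Z.Slc.isLB_can, hp⟩, fun C f cC hf => ?_⟩
  refine hn C (fun z => P.pr (f z)) _ (fun e a z => P.x e a (f z)) cC (P.hol.comp hf) (hf.lb P.lb)
    ⟨fun e a z he ha c hz => analyticAt_pi_iff.2 fun k => hf.hol (P.xhol e a _ he ha k) c hz,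
      fun e a z he ha => P.xnz e a _ he ha, fun e a b z he ha hb => P.xH e a b _ he ha hb,
      fun e e' a z he he' ha => (P.xE e e' a _ he he' ha).trans ?_⟩
  rw [← dfM_id he he', ← Matrix.mulVec_transpose]
  rfl

end Vale.Agent.P280X.Kl
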