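import Vale.Agent.P280X.Kl.Defs
import Vale.Agent.P280Z.Co.Vbl
import Vale.Agent.P281Z.Pb.Api2

/-!
# P280X, block KL: the tautological quotient of the tangent bundle
-/

open scoped Manifold ContDiff Topology Matrix
open Set Filter Function
open Vale.Agent.P272.K Vale.Agent.P285.H281.FD Vale.Agent.P281Z Vale.Agent.P280Z
open Vale.Agent.P277Z (at_chart)

noncomputable section

namespace Vale.Agent.P280X.Kl

namespace PtbH

variable {d N : ℕ} {V : Mf (d + 1)} (P : PB (cotV V) N)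

/-- the preferred chart of the base -/
abbrev e0 (p : P.P.X) : Chart (d + 1) V.X := chartAt (Cm (d + 1)) (P.pr p)

/-- the tautological covector -/
def tau (p : P.P.X) : Cm (d + 1) := P.x (e0 P p) (P.lb.cover p).choose p

theorem tau_ne (p : P.P.X) : tau P p ≠ 0 :=
  P.xnz _ _ p (at_chart (n := d + 1) (P.pr p)) (P.lb.cover p).choose_spec

/-- the evaluation on the tautological covector -/
def psi (p : P.P.X) : Cm (d + 1) →ₗ[ℂ] (Fin 1 → ℂ) where
  toFun v _ := tau P p ⬝ᵥ v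
  map_add' v w := funext fun _ => dotProduct_add _ v w
  map_smul' c v := funext fun _ => dotProduct_smul c _ v

theorem psi_surj (p : P.P.X) : Surjective (psi P p) := fun w => by
  obtain ⟨l, hl⟩ := Function.ne_iff.1 (tau_ne P p)
  have hl' : tau P p l ≠ 0 := hl
  refine ⟨Pi.single l (w 0 / tau P p l), funext fun j => ?_⟩
  show tau P p ⬝ᵥ _ = _
  rw [dotProduct_single, Subsingleton.elim j 0, mul_div_cancel₀ _ hl']

theorem psi_hom : IsHom N ((VB.tan (d + 1) V.X).pull P.pr) (VB.ln P.H) (psi P) := by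
  intro p
  obtain ⟨a, ha⟩ := P.lb.cover p
  have he := at_chart (n := d + 1) (P.pr p)
  refine ⟨e0 P p, ((), a), he, ⟨trivial, ha⟩, fun q => Matrix.of fun _ j => P.x (e0 P p) a q j,
    fun c hc j k => ((P.xhol _ a p he ha k c hc).restrictScalars (𝕜 := ℝ)).contDiffAt, ?_⟩
  filter_upwards [P.near he ha] with q hq
  refine LinearMap.ext fun (v : Cm (d + 1)) => funext fun (j : Fin 1) => ?_
  have h0 := at_chart (n := d + 1) (P.pr q)
  show tau P q ⬝ᵥ df (fun y => y) (e0 P p) (e0 P q) (P.pr q) v =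
    cf P.H a q * (P.x (e0 P p) a q ⬝ᵥ v)
  rw [tau, P.xH _ _ a q h0 (P.lb.cover q).choose_spec hq.2, P.xE (e0 P p) (e0 P q) a q hq.1 h0 hq.2,
    cf, dif_pos (P.lb.cover q), ← dfM_mulVec, smul_dotProduct, smul_eq_mul,
    Matrix.dotProduct_mulVec, ← Matrix.mulVec_transpose]
  rfl

end PtbH

open PtbH in
/-- ROW PTB -/
theorem ptb : PTB := by
  intro d V P
  obtain ⟨ι, U, b, h⟩ := vbl.ker (E'' := VB.ln P.H) d (vbl.pull _ P.hol (vbl.tan V))
    (vbl.tw _ _ _ (vbl.triv _ 1) P.lb) (psi_hom P) (psi_surj P) rfl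
  exact ⟨_, _, _, rfl, h⟩

end Vale.Agent.P280X.Kl
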