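import Vale.Agent.P280X.Kl.Defs
import Vale.Agent.P280Z.Hr.Pto
import Vale.Agent.P280Z.Hr.BlC
import Vale.Agent.P280Z.Rh.Api

/-!
# P280X, block KL: the top Segre number
-/

open Vale.Agent.P272.K Vale.Agent.P285.H281.FD Vale.Agent.P281Z Vale.Agent.P280Z
open Vale.Agent.P277Z.Slc (isLB_can)

noncomputable section

namespace Vale.Agent.P280X.Kl

theorem seg_of (hL : Ld.LD) (h1 : KL) (h2 : TOPN) (h3 : PTA) (h4 : PTB) (h5 : SGA) : SEG := by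
  intro T hT n V hV h k0 k1
  rcases n with _ | d
  · rw [k0, hT.ok.rg.int_pt]
    exact Nat.cast_nonneg _
  obtain ⟨P⟩ := Pb.pbex (d + 1) d (d + 1 + d) V (cotV V) rfl
  obtain ⟨a1, a2, a3⟩ := h3 d V P hV
  obtain ⟨K, φ, ψ, b1, b2⟩ := h4 d V P
  have hp : V.Prj := ⟨_, Rh.lb_inv isLB_can, hV.1.2⟩
  rw [← h5 T hT.ok d V P.P P.pr P.H K φ ψ h ⟨P.hol, P.sbm⟩ P.lb b1 b2 (Hr.pto hL hT.ok P hp)
    ⟨k0, k1⟩]
  exact h2 T hT.ok _ _ _ a2 P.lb (h1 _ _ _ a1 a2 P.lb a3)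

end Vale.Agent.P280X.Kl
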