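import Vale.Agent.P280X.Kl.Defs
import Vale.Agent.P280Z.Co.Vbl
import Vale.Agent.P280Z.Co.ChA

/-!
# P280X, block KL, row SGA: the Segre classes
-/

open Finset PowerSeries
open Vale.Agent.P272.K Vale.Agent.P285.H281.FD Vale.Agent.P281Z Vale.Agent.P280Z
open Vale.Agent.P231.ChW (NewtonRec)

noncomputable section

namespace Vale.Agent.P280X.Kl

namespace SgH

variable {R : Type} [CommRing R] [Algebra ℝ R]

theorem cst (n : ℕ) (a : R) : a * ((n : R) + 1) = ((n : ℝ) + 1) • a := by
  rw [Algebra.smul_def, map_add, map_natCast, map_one, mul_comm]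

theorem ode {W F G : R⟦X⟧} (hF : derivative R F = W * F) (hG : derivative R G = W * G)
    (h0 : coeff 0 F = coeff 0 G) : F = G := by
  ext n
  induction n using Nat.strong_induction_on with
  | _ n ih =>
    rcases n with _ | n
    · exact h0
    · have h1 := congrArg (coeff n) hF
      have h2 := congrArg (coeff n) hG
      rw [coeff_derivative, coeff_mul, cst] at h1 h2
      refine smul_right_injective _ (Nat.cast_add_one_ne_zero (R := ℝ) n) (h1.trans
        (Eq.trans (sum_congr rfl fun p hp => ?_) h2.symm))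
      rw [ih p.2 (by have := mem_antidiagonal.1 hp; omega)]

theorem alg {p q h e : ℕ → R} {x : R} (h0 : h 0 = 1)
    (hh : ∀ k, ((k + 1 : ℕ) : ℝ) • h (k + 1) = ∑ i ∈ range (k + 1), p (i + 1) * h (k - i))
    (he : NewtonRec ℝ q e) (hq : ∀ k, p (k + 1) = q (k + 1) + x ^ (k + 1)) (m : ℕ) :
    x ^ m = ∑ i ∈ range (m + 1), (-1 : ℝ) ^ i • e i * h (m - i) := by
  have a : derivative R (mk fun i => (-1 : ℝ) ^ i • e i) =
      -(mk fun i => q (i + 1)) * mk fun i => (-1 : ℝ) ^ i • e i := by
    ext n
    rw [coeff_derivative, cst, coeff_mk, smul_comm, he.2, neg_mul, map_neg, coeff_mul,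
      Nat.sum_antidiagonal_eq_sum_range_succ_mk, smul_sum, ← sum_neg_distrib]
    refine sum_congr rfl fun i hi => ?_
    obtain ⟨j, rfl⟩ := Nat.exists_eq_add_of_le (Nat.lt_succ_iff.1 (mem_range.1 hi))
    rw [coeff_mk, coeff_mk, Nat.add_sub_cancel_left, smul_smul, mul_smul_comm, ← neg_smul,
      ← pow_add, show i + j + 1 + i = 2 * i + j + 1 by ring, pow_succ, pow_add, pow_mul]
    norm_num
  have b : derivative R (mk h) = (mk fun i => p (i + 1)) * mk h := by
    ext n
    rw [coeff_derivative, cst, coeff_mk, ← Nat.cast_add_one, hh, coeff_mul,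
      Nat.sum_antidiagonal_eq_sum_range_succ_mk]
    simp only [coeff_mk]
  have c : derivative R (mk fun i => x ^ i) = (mk fun i => x ^ (i + 1)) * mk fun i => x ^ i := by
    ext n
    rw [coeff_derivative, coeff_mk, coeff_mul, sum_congr rfl fun p hp => by
      rw [coeff_mk, coeff_mk, ← pow_add, add_right_comm, mem_antidiagonal.1 hp], sum_const,
      Nat.card_antidiagonal, nsmul_eq_mul, mul_comm, Nat.cast_add_one]
  have k : (mk fun i => p (i + 1)) = (mk fun i => q (i + 1)) + mk fun i => x ^ (i + 1) := by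
    ext n
    rw [map_add, coeff_mk, coeff_mk, coeff_mk, hq]
  have := congrArg (coeff m) (ode (G := (PowerSeries.mk fun i => (-1 : ℝ) ^ i • e i) *
    PowerSeries.mk h) c (by
    rw [Derivation.leibniz, a, b, k, smul_eq_mul, smul_eq_mul]
    ring) (by simp [he.1, h0]))
  rw [coeff_mk, coeff_mul, Nat.sum_antidiagonal_eq_sum_range_succ_mk] at this
  simpa only [coeff_mk] using this

theorem dg {T : CT} (hT : T.OK) {n : ℕ} {V : Mf n} {q e : ℕ → T.H V} (hq : ∀ k, T.Dg V k (q k))
    (he : NewtonRec ℝ q e) (j : ℕ) : T.Dg V j (e j) := by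
  induction j using Nat.strong_induction_on with
  | _ j ih =>
    rcases j with _ | j
    · rw [he.1]
      exact hT.rg.dg_one V
    · refine smul_right_injective _ (Nat.cast_add_one_ne_zero (R := ℝ) j) ?_
      show _ • _ = _ • _
      rw [← map_smul, he.2, map_sum]
      refine sum_congr rfl fun i hi => ?_
      have := hT.rg.dg_mul V _ _ _ _ (hq (i + 1)) (ih (j - i) (by omega))
      rw [show i + 1 + (j - i) = j + 1 by have := mem_range.1 hi; omega] at this
      rw [map_smul, this]

end SgH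

open SgH

/-- **SGA** -/
theorem sga : SGA := by
  intro T hT d V P π H K φ ψ h hs lH hr S h1 hh
  have he := Co.ChH.nwt_spec (K := ℝ) (T.ps P K)
  set e := Co.ChH.nwt ℝ (T.ps P K)
  have v := P280Z.vbl
  have hl : ∀ k, T.ps P (VB.ln H) k = T.c1 P H ^ k := fun k => by
    rw [VB.ln, hT.ch.tw P _ H (v.triv P 1) lH, sum_range_succ', hT.ch.zero P _ (v.triv P 1)]
    simp [hT.ch.triv, show (P280Z.VB.triv P.X 1).r = 1 from rfl]
  have key := alg (p := fun k => T.pull hs.hol (T.ps V (VB.tan (d + 1) V.X) k))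
    (h := fun k => T.pull hs.hol (h k)) (x := T.c1 P H) (by rw [hh.1, map_one])
    (fun k => by simp only [← map_smul, hh.2, map_sum, map_mul]) he fun k => by
      rw [← hT.ch.pull hs.hol _ (v.tan V), hT.ch.ses P S, hl]
  have z : ∀ i, i ≠ d → T.push π (e i) = 0 := fun i hi => by
    rcases hi.lt_or_gt with c | c
    · rw [← hT.rg.pr_sum V (T.push π (e i))]
      refine sum_eq_zero fun k _ => ?_
      rw [hT.pu.deg hs d rfl, ← dg hT (hT.ch.deg P K) he i, hT.rg.pr_pr, if_neg (by omega),
        map_zero]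
    · rw [hT.ch.rank P K S.v1 e he i (hr.trans_lt c), map_zero]
  have w : ∀ k, T.push π (T.c1 P H ^ (k + d)) = (-1 : ℝ) ^ d • T.push π (e d) * h k := fun k => by
    rw [key, map_sum, sum_eq_single d (fun i _ hi => by
      rw [hT.pu.proj hs, map_smul, z i hi, smul_zero, zero_mul]) fun c =>
        absurd (mem_range.2 (by omega)) c, hT.pu.proj hs, map_smul, Nat.add_sub_cancel]
  have w0 := w 0
  rw [zero_add, h1, hh.1, mul_one] at w0
  rw [← hT.pu.int hs, w, ← w0, one_mul]

end Vale.Agent.P280X.Kl
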