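import Vale.Agent.P280X.Kl.Rsv
import Vale.Agent.P280X.Kl.Thn
import Vale.Agent.P280X.Kl.Sec60
import Vale.Agent.P280X.Kl.Opn
import Vale.Agent.P280X.Kl.Ext
import Vale.Agent.P280X.Kl.Step
import Vale.Agent.P280X.Kl.Ind
import Vale.Agent.P280X.Kl.Nk
import Vale.Agent.P280X.Kl.Num
import Vale.Agent.P280X.Kl.Impr
import Vale.Agent.P280X.Kl.Pta
import Vale.Agent.P280X.Kl.Ptb
import Vale.Agent.P280X.Kl.Sga
import Vale.Agent.P280X.Kl.Seg
import Vale.Agent.P280Z.Ld.All

/-!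
# P280X, block KL: assembly from the two analytic rows
-/

noncomputable section

namespace Vale.Agent.P280X.Kl

theorem kl_pre (hM : MAXG) (hL : LOC) : KL :=
  kl_of (impr_of num (nk_of (thn_of rsv)
    (ind_of rsv (thn_of rsv) sec60 (step_of opn min hM ext hL)) opn hM))

theorem seg_pre (hM : MAXG) (hL : LOC) : SEG :=
  seg_of P280Z.Ld.ld (kl_pre hM hL) topn pta ptb sga

end Vale.Agent.P280X.Kl
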