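import Vale.Agent.P280X.Kl.Defs
import Vale.Agent.P281Z.Rs.All
import Vale.Agent.P281Z.Fi.Stein

/-!
# P280X, block KL: resolution of the image of a holomorphic map
-/

open scoped Manifold ContDiff Topology
open Set Filter Function
open Vale.Agent.P272.K Vale.Agent.P285.H281.FD Vale.Agent.P281Z
open Vale.Agent.P277Z (at_chart)

noncomputable section

namespace Vale.Agent.P280X.Kl

theorem rsv1 : RSV := by
  intro n e V F f S hV hF hf hS hn
  obtain ⟨ρ, C, c1, c2, c3, c4⟩ := img e n F V f hf hF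
  have t1 : Thin e (f ⁻¹' (C ∪ S)) := by
    rw [preimage_union]
    exact Thin.union ⟨c1.pre hf, c2⟩ ((hS.pre hf).thin fun h => hn (by
      rintro _ ⟨x, rfl⟩
      exact (h ▸ mem_univ x : x ∈ f ⁻¹' S)))
  obtain ⟨I, hI⟩ := Rs.idl' Rs.idl _ V (C ∪ S) (c1.union hS)
  have c5 : SubM n ρ (range f \ I.Z) := by
    rw [hI]
    intro x hx
    obtain ⟨c, h, k1, k2, k3⟩ := c3 x ⟨hx.1, fun a => hx.2 (.inl a)⟩
    refine ⟨c, h, k1, k2, ?_⟩
    filter_upwards [k3, hS.closed.isOpen_compl.mem_nhds fun a => hx.2 (.inr a)] with y a b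
    rw [← a]
    exact ⟨fun k => ⟨k.1, fun c => k.2 (.inl c)⟩, fun k => ⟨k.1, fun c => c.elim k.2 b⟩⟩
  have hA : An n (range f) := image_univ ▸ rem e n F V f univ hf an_univ
  obtain ⟨W, ν, -, -, z1, -, -, -, -, z2⟩ := res _ _ V _ I hA c5
  obtain ⟨V', μ, γ, -, -, m1, m2, m3, -, -, -⟩ := Fi.lift res hf mem_range_self z1
    (B := f ⁻¹' I.Z) (hI ▸ t1) fun _ => id
  have hγ := Fi.lift_surj z1 m1.surj m2.cont m3
  have := m1.conn
  have e1 : range ν = range f := by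
    refine (range_subset_iff.2 z1.maps).antisymm ?_
    rintro _ ⟨x, rfl⟩
    obtain ⟨y, rfl⟩ := m1.surj x
    exact ⟨γ y, m3 y⟩
  obtain ⟨L, l1, l2⟩ := hV
  refine ⟨ρ, ?_, W, ν, I.Z, hγ.connectedSpace m2.cont, z2 L l1 l2,
    ⟨e1 ▸ z1, hI ▸ c1.union hS, e1 ▸ c5⟩, hI ▸ subset_union_right, e1⟩
  obtain ⟨x, hx⟩ := c2.nonempty
  rw [← c4 x hx _ _ (at_chart _) (at_chart _)]
  exact (LinearMap.finrank_range_le _).trans (by simp)

end Vale.Agent.P280X.Kl
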