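import Vale.Agent.P280X.Kl.Defs
import Vale.Agent.P285N.Tp.Kodp
import Vale.Agent.P285N.Tp.Mon
import Vale.Agent.P285S.Ca.Sad

/-!
# P280X, block KL, row SEC: the lemma of Kodaira, with a section which vanishes on a thin set
-/

open scoped Manifold ContDiff Topology
open Set Filter
open Vale.Agent.P272.K Vale.Agent.P285.H281.FD Vale.Agent.P281Z Vale.Agent.P280Z
open Vale.Agent.P277Z (Hol at_chart)
open Vale.Agent.P277Z.Slc (Ind dd lin)
open Vale.Agent.P277.HD (pull)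
open Vale.Agent.P280Z.Ld (Bs Va)
open Vale.Agent.P285N.Tp (KpH.sel KpH.dd_ratio sec_mon mon_ne)

noncomputable section

namespace Vale.Agent.P280X.Kl

namespace SecX

/-- the pull back of a very ample bundle along a map which is immersive at one point is big -/
theorem kap {m n : ℕ} {Y : Mf m} {V : Mf n} {π : Y.X → V.X} (hπ : HolM m n π) {y : Y.X}
    (hy : Imm m n π y) {L : Bd V.X} {r : ℕ} {s : Fin r → L.ι → V.X → ℂ} (h : Va n L s) :
    En.Kap0 m (pull π L) m := by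
  obtain ⟨b, hb⟩ := h.lb.cover (π y)
  obtain ⟨l, hl⟩ := not_forall.1 (show π y ∉ Bs L s from h.bpf ▸ notMem_empty _)
  have h0 : s l b (π y) ≠ 0 := (of_not_not hl : NZ L (s l) (π y)) b hb
  have hh : ∀ j, Hol n (s j b) (π y) := fun j => sec_hol (h.sec j).1 hb
  have he := at_chart (n := n) (π y)
  have he' := at_chart (n := m) y
  have hq := fun j => (hh j).div (hh l) h0
  obtain ⟨τ, hτ⟩ := KpH.sel
    (fun j => dd (fun z => s j b (π z) / s l b (π z)) (chartAt (Cm m) y) y)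
    fun v k => (injective_iff_map_eq_zero _).1 (hy _ _ he' he) v (by
      have k' : ∀ j, dd (fun z => s j b z / s l b z) (chartAt (Cm n) (π y)) (π y)
          (df π (chartAt (Cm m) y) (chartAt (Cm n) (π y)) y v) = 0 := fun j =>
        (DFunLike.congr_fun (dd_comp (hq j) (hπ.at y) he' he) v).symm.trans (k j)
      exact h.tan _ b _ _ hb he fun j j' => mul_right_cancel₀ h0 (by
        rw [mul_right_comm, KpH.dd_ratio (hh j) (hh l) h0 he (k' j),
          mul_right_comm _ (s j b _) (s l b _), KpH.dd_ratio (hh j') (hh l) h0 he (k' j'),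
          mul_right_comm]))
  refine ⟨Fin.cons (fun a z => s l a (π z)) fun c a z => s (τ c) a (π z), fun c => ?_, y, trivial,
    b, hb, h0, Ind.of_chart (fun c => hπ.hol (hq (τ c))) he' hτ⟩
  induction c using Fin.cases with
  | zero => exact hπ.sec (h.sec l).1
  | succ c => exact hπ.sec (h.sec (τ c)).1

theorem nzi {n : ℕ} {V : Mf n} {L : Bd V.X} {s : L.ι → V.X → ℂ} (h : IsLB n L) (hs : IsSec n L s)
    {a : L.ι} {x : V.X} (ha : x ∈ L.U a) (k : s a x ≠ 0) : NZ L s x :=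
  (nz_iff h (fun b c => hs.change b c x) ha).2 k

theorem smul {n : ℕ} {V : Mf n} {L M : Bd V.X} {s : L.ι → V.X → ℂ} {t : M.ι → V.X → ℂ}
    (hs : IsSec n L s) (ht : IsSec n M t) : IsSec n (L.mul M) fun c y => s c.1 y * t c.2 y :=
  isSec_of (fun _ _ ha => (sec_hol hs ha.1).mul (sec_hol ht ha.2)) fun a b y ha hb => by
    rw [hs.change a.1 b.1 y ha.1 hb.1, ht.change a.2 b.2 y ha.2 hb.2]
    exact mul_mul_mul_comm _ _ _ _

end SecX

open SecX in
/-- **SEC** -/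
theorem sec : SEC := by
  intro ρ n W V ν H S hW ⟨A, hA, pA⟩ hν ⟨w, hw⟩ hH hP hS
  obtain ⟨I, rfl⟩ := idl ρ W S hS.1
  obtain ⟨Y, π, r, E, ov, snc, hE, -⟩ := P281Z.res ρ ρ W univ I an_univ
    (subM_open (isOpen_univ.sdiff hS.closed))
  have hM : Modif ρ π I.Z := ⟨hS, ov⟩
  obtain ⟨D, σ, hD⟩ := (Hyp.of_snc snc).exists_div
  obtain ⟨k, q, s, hk, hs⟩ := P280Z.Ld.va V H hH hP
  obtain ⟨w', h1, h2⟩ := ((hS.freq w).and_eventually (hw.near (hν.at w))).exists
  obtain ⟨y, rfl⟩ := hM.ex h1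
  have lB := hν.lb hH
  have lP := lb_pow lB k
  have l1 := lb_mul lP (lb_zp hA (-1))
  have lD := lb_lin fun l => (hD l).lb
  have l2 := lb_mul (hM.hol.lb l1) (lD fun _ => -1)
  obtain ⟨j, u, hu, x, -, a, x1, x2, -⟩ := En.kod Rs.res (St.start_of genS) genS ρ Y _ _ hM.conn
    (hM.hol.lb lP) l2 (kap (hν.comp hM.hol) (.comp (hν.at _) (hM.hol.at _) h2 (hM.imm h1)) hs)
  have lO := lb_mul (lb_pow lP j) l1
  have l3 := lb_pow (hM.hol.lb lP) j
  have l4 := lb_mul l3 l2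
  have lT := lb_mul l4 (lD fun _ => (1 : ℕ))
  obtain ⟨t, ht⟩ := (cls_eq (hM.hol.lb lO) lT).1 ((cls_mul l3 (hM.hol.lb l1)).trans (by
    rw [cls_mul l4 (lD _), cls_mul l3 l2, cls_mul (hM.hol.lb l1) (lD _),
      cls_lin fun l => (hD l).lb, cls_lin fun l => (hD l).lb]
    simp [add_assoc]))
  have sT := smul (hu 0) (sec_mon (fun l => (hD l).sec) fun _ => 1)
  obtain ⟨v, v1, v2⟩ := P285S.Ca.SadX.down hM lO (ht.sec (hM.hol.lb lO) lT sT)
  refine ⟨A, _, v, k * (j + 1), ⟨lB, hA, lO, pA, v1, by positivity, ?_⟩, ?_, fun w hw hz => ?_⟩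
  · rw [cls_mul (lb_pow lP j) l1, cls_mul lP (lb_zp hA _), cls_pow lP, cls_pow lB, cls_zp hA]
    module
  · obtain ⟨z, z1, z2, z3⟩ := ((hM.thin_pre.freq x).and_eventually ((lb_near l4 x1).and
      ((sec_hol (hu 0) x1).cont.eventually_ne x2))).exists
    have z4 := ht.nz lT (nzi lT sT (a := (a, a.2.2)) ⟨z2, z2.2.2⟩ (mul_ne_zero z3
      (mon_ne hD _ z2.2.2 fun l _ c => z1 (hE ▸ mem_iUnion.2 ⟨l, c⟩))))
    exact ⟨π z, fun b hb => (v2 b z hb).trans_ne (z4 b hb)⟩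
  · obtain ⟨z, rfl⟩ := hM.surj w
    obtain ⟨l, hl⟩ := mem_iUnion.1 (hE ▸ (show z ∈ π ⁻¹' I.Z from hw))
    obtain ⟨b, hb⟩ := lO.cover (π z)
    refine hz b hb ((v2 b z hb).trans (mul_eq_zero_of_right _ (mul_eq_zero_of_right _
      (Finset.prod_eq_zero (Finset.mem_univ l) ?_))))
    rw [pow_one]
    exact ((hD l).leq _ z ((lT.cover z).choose_spec.2 l)).mem.2 hl

end Vale.Agent.P280X.Kl
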