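import Vale.Agent.P280X.Kl.Defs
import Vale.Agent.P285N.Tp.Kodp
import Vale.Agent.P280Z.Gm.Ch
import Vale.Agent.P280Z.Gm.Sys

/-!
# P280X, block KL, row SEC: the lemma of Kodaira with zeros along a thin set
-/

open scoped Topology
open Set Filter
open Vale.Agent.P272.K Vale.Agent.P285.H281.FD Vale.Agent.P281Z
open Vale.Agent.P277Z (Hol at_chart)
open Vale.Agent.P277Z.Slc (Ind dd)
open Vale.Agent.P277.HD (pull)
open Vale.Agent.P280Z.Ld (Bs Va)
open Vale.Agent.P285N.Tp.KpH (sel dd_ratio)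

namespace Vale.Agent.P280X.Kl

namespace Sec29

theorem kap {ρ n : ℕ} {W : Mf ρ} {V : Mf n} {π : W.X → V.X} (hπ : HolM ρ n π) {y : W.X}
    (hy : Imm ρ n π y) {L : Bd V.X} {r : ℕ} {s : Fin r → L.ι → V.X → ℂ} (h : Va n L s) :
    En.Kap0 ρ (pull π L) ρ := by
  obtain ⟨b, hb⟩ := h.lb.cover (π y)
  obtain ⟨l, hl⟩ := not_forall.1 (show π y ∉ Bs L s from h.bpf ▸ notMem_empty _)
  have h0 : s l b (π y) ≠ 0 := (of_not_not hl : NZ L (s l) (π y)) b hb
  have hh : ∀ j, Hol n (s j b) (π y) := fun j => sec_hol (h.sec j).1 hb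
  have he := at_chart (n := n) (π y)
  have he' := at_chart (n := ρ) y
  have hq := fun j => (hh j).div (hh l) h0
  obtain ⟨τ, hτ⟩ := sel (fun j => dd (fun z => s j b (π z) / s l b (π z)) (chartAt (Cm ρ) y) y)
    fun v k => (injective_iff_map_eq_zero _).1 (hy _ _ he' he) v (by
      have k' : ∀ j, dd (fun z => s j b z / s l b z) _ (π y) (df π _ _ y v) = 0 := fun j =>
        (DFunLike.congr_fun (dd_comp (hq j) (hπ.at y) he' he) v).symm.trans (k j)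
      exact h.tan _ b _ _ hb he fun j j' => mul_right_cancel₀ h0 (by
        rw [mul_right_comm, dd_ratio (hh j) (hh l) h0 he (k' j),
          mul_right_comm _ (s j b _) (s l b _), dd_ratio (hh j') (hh l) h0 he (k' j'),
          mul_right_comm]))
  refine ⟨Fin.cons (fun a z => s l a (π z)) fun c a z => s (τ c) a (π z), fun c => ?_, y, trivial,
    b, hb, h0, Ind.of_chart (fun c => hπ.hol (hq (τ c))) he' hτ⟩
  induction c using Fin.cases with
  | zero => exact hπ.sec (h.sec l).1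
  | succ c => exact hπ.sec (h.sec (τ c)).1

theorem dn {n : ℕ} {Y : Mf n} [ConnectedSpace Y.X] {H : Bd Y.X} {t : H.ι → Y.X → ℂ} (hH : IsLB n H)
    (ht : IsSec n H t) (h : ∃ x, NZ H t x) : Thin n {y | ¬ NZ H t y} :=
  An.thin (fun y => (hH.cover y).elim fun a ha => ⟨1, fun _ => t a, fun _ => sec_hol ht ha,
    (lb_near hH ha).mono fun _ k => (not_congr (nz_iff hH (fun a b => ht.change a b _) k)).trans
      (by simp)⟩)
    fun k => h.elim fun x hx => eq_univ_iff_forall.1 k x hx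

end Sec29

open Sec29 in
/-- **SEC** -/
theorem sec29 : SEC := by
  intro ρ n W V ν H S hW ⟨A, hA, pA⟩ hν ⟨w, hw⟩ hH pH hS
  obtain ⟨k₁, r₁, s₁, -, v₁⟩ := P280Z.Ld.va W A hA pA
  obtain ⟨D, r, t, t1, t2, -⟩ := P280Z.Gm.sys_of P280Z.Gm.ch W _ s₁ S v₁ hS.1
  obtain ⟨x₀, hx₀⟩ := hS.2.nonempty
  obtain ⟨i, hi⟩ := not_forall.1 (show x₀ ∉ Bs _ t from t2 ▸ hx₀)
  have hE := lb_pow v₁.lb D
  generalize (A.pow k₁).pow D = E at t t1 t2 hi hE
  obtain ⟨k, r', s, hk, hs⟩ := P280Z.Ld.va V H hH pH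
  have hL := hν.lb hs.lb
  have hN := lb_mul hL (lb_zp (lb_mul hA hE) (-1))
  obtain ⟨j, u, hu, x, -, a, h1, h2, -⟩ := En.kod Rs.res (St.start_of genS) genS ρ W _ _ hW hL hN
    (kap hν hw hs)
  have hM := lb_mul (lb_pow hL j) hN
  obtain ⟨z, z1, z2⟩ := ((dn hM (hu 0) ⟨x, (nz_iff hM (fun a b => (hu 0).change a b x) h1).2
    h2⟩).2.inter_of_isOpen_right (dn hE (t1 i) ⟨x₀, of_not_not hi⟩).2
      (dn hE (t1 i) ⟨x₀, of_not_not hi⟩).1.closed.isOpen_compl).nonempty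
  refine ⟨A, Bd.mul _ E, fun p y => u 0 p.1 y * t i p.2 y, (j + 1) * k, ⟨hν.lb hH, hA,
    lb_mul hM hE, pA, ⟨fun p e y he hp => ((hu 0).holo _ e y he hp.1).mul
      ((t1 i).holo _ e y he hp.2), fun p q y hp hq => ?_⟩, Nat.mul_pos j.succ_pos hk, ?_⟩,
    ⟨z, fun p hp => mul_ne_zero (of_not_not z1 _ hp.1) (of_not_not z2 _ hp.2)⟩, fun y hy c => ?_⟩
  · rw [(hu 0).change _ _ y hp.1 hq.1, (t1 i).change _ _ y hp.2 hq.2]
    exact mul_mul_mul_comm _ _ _ _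
  · rw [cls_mul hM hE, cls_mul (lb_pow hL j) hN, cls_pow hL, cls_mul hL (lb_zp (lb_mul hA hE) _),
      cls_zp (lb_mul hA hE), cls_mul hA hE,
      show cls ρ (pull ν (H.pow k)) = k • cls ρ (pull ν H) from cls_pow (hν.lb hH) k]
    module
  · obtain ⟨b, hb⟩ := hM.cover y
    exact (t2.symm ▸ hy : y ∈ Bs E t) i fun c' hc => right_ne_zero_of_mul (c (b, c') ⟨hb, hc⟩)

end Vale.Agent.P280X.Kl
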