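import Vale.Agent.P280X.Kl.Defs
import Vale.Agent.P280Z.Co.ChA
import Vale.Agent.P280Z.Co.Vbl

/-!
# P280X, block KL, row SGA: the top Segre number
-/

open Finset PowerSeries
open Vale.Agent.P272.K Vale.Agent.P285.H281.FD Vale.Agent.P281Z Vale.Agent.P280Z
open Vale.Agent.P231.ChW (NewtonRec)

namespace Vale.Agent.P280X.Kl

namespace S53

theorem key {R : Type} [CommRing R] [Algebra ℝ R] {h p s e : ℕ → R} {x : R} (h0 : h 0 = 1)
    (hh : ∀ k, ((k + 1 : ℕ) : ℝ) • h (k + 1) = ∑ i ∈ range (k + 1), p (i + 1) * h (k - i))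
    (he : NewtonRec ℝ s e) (hs : ∀ i, p (i + 1) = s (i + 1) + x ^ (i + 1)) (j : ℕ) :
    x ^ j = ∑ a ∈ antidiagonal j, ((-1) ^ a.1 * e a.1) * h a.2 := by
  have hH : d⁄dX R (mk h) = (mk (fun i => s (i + 1)) + mk fun i => x ^ (i + 1)) * mk h := by
    ext k
    rw [coeff_derivative, coeff_mul, coeff_mk, Finset.Nat.sum_antidiagonal_eq_sum_range_succ_mk]
    simp only [map_add, coeff_mk, ← hs]
    rw [← hh, Nat.cast_smul_eq_nsmul, nsmul_eq_mul]
    push_cast
    ring
  have hG : d⁄dX R (mk fun j => (-1) ^ j * e j) =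
      -(mk (fun i => s (i + 1)) * mk fun j => (-1) ^ j * e j) := by
    ext k
    rw [coeff_derivative, map_neg, coeff_mul, coeff_mk,
      Finset.Nat.sum_antidiagonal_eq_sum_range_succ_mk]
    simp only [coeff_mk]
    have k1 := he.2 k
    rw [← Nat.cast_succ, Nat.cast_smul_eq_nsmul, nsmul_eq_mul, Nat.cast_succ] at k1
    rw [mul_assoc, mul_comm (e _), k1, mul_sum, ← sum_neg_distrib]
    refine sum_congr rfl fun i hi => ?_
    obtain ⟨m, rfl⟩ := Nat.exists_eq_add_of_le (Nat.lt_succ_iff.1 (mem_range.1 hi))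
    have k2 : ((-1 : R) ^ i) * (-1) ^ i = 1 := by rw [← mul_pow]; simp
    rw [Algebra.smul_def, map_pow, map_neg, map_one, Nat.add_sub_cancel_left]
    linear_combination (-(-1) ^ m * s (i + 1) * e m) * k2
  have hY : (mk fun i => x ^ i) * (1 - C x * X) = 1 := by
    ext k
    rw [mul_sub, mul_one, ← mul_assoc, map_sub]
    cases k with
    | zero => simp
    | succ k => simp [coeff_succ_mul_X, pow_succ, coeff_one]
  have hX : (mk fun i => x ^ (i + 1)) = C x * mk fun i => x ^ i := by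
    ext k
    simp [pow_succ']
  have : IsAddTorsionFree R := .of_isTorsionFree ℝ R
  have hF : (mk fun j => (-1) ^ j * e j) * mk h * (1 - C x * X) = 1 := by
    refine derivative.ext ?_ (by simp [constantCoeff_mk, h0, he.1])
    simp only [Derivation.leibniz, map_sub, hH, hG, hX, Derivation.map_one_eq_zero, derivative_C,
      derivative_X, smul_eq_mul]
    linear_combination (C x * (mk fun j => (-1) ^ j * e j) * mk h) * hY
  have k : (mk fun i => x ^ i) = (mk fun j => (-1) ^ j * e j) * mk h := by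
    linear_combination ((mk fun j => (-1) ^ j * e j) * mk h) * hY - (mk fun i => x ^ i) * hF
  simpa [coeff_mul] using congrArg (coeff j) k

end S53

theorem sga53 : SGA := by
  intro T hT d V P π H K φ ψ h hπ hH hK hS h1 hh
  have hx : ∀ k, T.ps P (VB.ln H) (k + 1) = T.c1 P H ^ (k + 1) := fun k => by
    rw [VB.ln, hT.ch.tw P _ H (P280Z.vbl.triv P 1) hH, sum_range_succ',
      hT.ch.zero P _ (P280Z.vbl.triv P 1)]
    simp [hT.ch.triv, show (P280Z.VB.triv P.X 1).r = 1 from rfl]
  have he := P280Z.Co.ChH.nwt_spec (K := ℝ) (T.ps P K)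
  have k := S53.key (h := fun k => T.pull hπ.hol (h k))
    (p := fun k => T.pull hπ.hol (T.ps V (VB.tan (d + 1) V.X) k)) (x := T.c1 P H)
    (by simp [hh.1]) (fun k => by simp only [← map_mul, ← map_sum, ← hh.2, map_smul]) he
    fun i => by rw [← hT.ch.pull hπ.hol _ (P280Z.vbl.tan V), hT.ch.ses P hS, hx]
  set g := fun j => T.push π ((-1) ^ j * P280Z.Co.ChH.nwt ℝ (T.ps P K) j) with hg
  have k1 : ∀ j, T.push π (T.c1 P H ^ j) = ∑ a ∈ antidiagonal j, g a.1 * h a.2 := fun j => by
    rw [k, map_sum]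
    exact sum_congr rfl fun a _ => hT.pu.proj hπ _ _
  have k2 : ∀ j, d < j → g j = 0 := fun j hj => by
    simp [hg, hT.ch.rank P K hS.v1 _ he j (hK.trans_lt hj)]
  have dg : ∀ j, T.Dg P j (T.c1 P H ^ j) := fun j => by
    induction j with
    | zero => simpa using hT.rg.dg_one P
    | succ j ih => exact pow_succ (T.c1 P H) j ▸ hT.rg.dg_mul P _ _ _ _ ih (hT.c1.deg P H)
  have k3 : ∀ j < d, T.push π (T.c1 P H ^ j) = 0 := fun j hj => by
    rw [← hT.rg.pr_sum V (T.push π _)]
    refine sum_eq_zero fun i _ => ?_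
    rw [hT.pu.deg hπ d rfl, ← dg j, hT.rg.pr_pr, if_neg (by omega), map_zero]
  have k4 : ∀ j, (∀ i < j, g i = 0) → g j = T.push π (T.c1 P H ^ j) := fun j hj => by
    rw [k1, sum_eq_single (j, 0) (fun a ha k => ?_) (by simp), hh.1, mul_one]
    rw [hj a.1 ?_, zero_mul]
    have := mem_antidiagonal.1 ha
    by_contra k'
    exact k (Prod.ext (by simp only; omega) (by simp only; omega))
  have k5 : ∀ j < d, g j = 0 := fun j => by
    induction j using Nat.strong_induction_on with
    | _ j ih => exact fun hj => (k4 j fun i hi => ih i hi (hi.trans hj)).trans (k3 j hj)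
  rw [← hT.pu.int hπ, k1, sum_eq_single (d, d + 1) (fun a ha k => ?_) (by simp [add_comm]), k4 d k5,
    h1, one_mul]
  have := mem_antidiagonal.1 ha
  rcases lt_trichotomy a.1 d with k' | k' | k'
  · rw [k5 _ k', zero_mul]
  · exact (k (Prod.ext k' (by simp only; omega))).elim
  · rw [k2 _ k', zero_mul]

end Vale.Agent.P280X.Kl
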