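import Vale.Agent.P280X.Kl.Defs
import Vale.Agent.P281Z.Lf.Rech
import Vale.Agent.P281Z.Ld.Lad
import Vale.Agent.P272.K.C2.Wirt

/-!
# P280X, block KL, row STEP: gluing along one stratum
-/

open scoped Manifold ContDiff Topology Matrix ComplexOrder
open Set Filter
open Vale.Agent.P272.K Vale.Agent.P285.H281.FD Vale.Agent.P281Z Vale.Agent.P280Z
open Vale.Agent.P277Z (at_chart)
open Vale.Agent.P277.HD (pull)

noncomputable section

namespace Vale.Agent.P280X.Kl

namespace S17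

variable {ρ n : ℕ} {W : Mf ρ} {V : Mf n} {B : Bd V.X} {ψ ψ' : B.ι → V.X → ℝ} {x : V.X}

theorem met_add (h : IsMet n B ψ) {G : V.X → ℝ} (hG : SmoothFn (n := n) G) :
    IsMet n B fun i y => ψ i y + G y :=
  ⟨fun i e x he hi => (h.smooth i e x he hi).add (hG e x he), fun i j x hi hj => by
    rw [h.change i j x hi hj]
    ring⟩

theorem pos_congr (h : PosAt n B ψ x) (k : ∀ᶠ y in 𝓝 x, ∀ i, ψ' i y = ψ i y) : PosAt n B ψ' x :=
  fun i e he hi => by
    rw [C2.cHess_congr (v := fun z => ψ i (e.symm z)) (at_ev he (k.mono fun y hy => hy i))]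
    exact h i e he hi

theorem pos_pull {f : W.X → V.X} (hf : HolM ρ n f) {x : W.X} (h : Imm ρ n f x)
    (h1 : IsMet n B ψ) (h2 : PosAt n B ψ (f x)) :
    PosAt ρ (pull f B) (fun i y => ψ i (f y)) x := fun i e he hi => by
  have t : (2 : WithTop ℕ∞) ≤ ∞ := WithTop.coe_le_coe.2 le_top
  have e0 := Ld.comp_near hf he (at_chart (f x)) (ψ i)
  refine (Lf.posDef_iff (((Ld.met_pull hf h1).smooth i e x he hi).of_le t)).2 fun w hw => ?_
  have s2 := (h1.smooth i _ _ (at_chart (f x)) hi).of_le t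
  have s3 : ContDiffAt ℝ 2 (fun z => ψ i ((chartAt (Cm n) (f x)).symm z))
      (chartAt (Cm n) (f x) (f (e.symm (e x)))) := he.left_inv.symm ▸ s2
  refine lt_of_lt_of_eq ?_ ((Hm.levi_congr e0 w).trans (Hm.levi_comp
    (g := fun z => chartAt (Cm n) (f x) (f (e.symm z))) s3 ((hf.at x).an he (at_chart _)) w)).symm
  rw [he.left_inv]
  exact (Lf.posDef_iff s2).1 (h2 i _ (at_chart _) hi) _ fun k =>
    hw ((injective_iff_map_eq_zero _).1 (h e _ he (at_chart _)) w k)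

theorem sm_sum {α : Type} (T : Finset α) {R : α → V.X → ℝ} (h : ∀ a, SmoothFn (n := n) (R a)) :
    SmoothFn (n := n) fun y => ∑ a ∈ T, R a y :=
  fun e x he => ContDiffAt.sum fun a _ => h a e x he

end S17

open S17 in
theorem step17 (opn : OPN) (mx : MAXG) (ext : EXT) (loc : LOC) (mn : MIN) : STEP := by
  classical
  intro ρ n W V ν Z S B M O σ k rs hB dc h1 h2 ⟨ψ, m0, p0⟩
  have hν := rs.ov.hol
  have m1 := Ld.met_pull hν m0
  obtain ⟨g, g1, g2, g3⟩ := mx ρ W _ M O σ k _ (ν ⁻¹' {x | PosAt n B ψ x}) dc m1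
    ((opn n V B ψ hB m0).preimage hν.cont) fun x hx => p0 _ (h2 x hx)
  obtain ⟨G, G1, G2, G3⟩ := ext ρ n W V ν Z g rs g1 fun w hw => g2 w (h1 w hw)
  have m2 := met_add m0 G1
  have pz : ∀ x ∈ S, x ∈ Z → PosAt n B (fun i y => ψ i y + G y) x := fun x hx hz =>
    pos_congr (p0 x hx) ((G3 x hz).mono fun y hy i => by rw [hy, add_zero])
  have key : ∀ w, ∃ R : V.X → ℝ, SmoothFn (n := n) R ∧ (∀ x ∈ Z, ∀ᶠ y in 𝓝 x, R y = 0) ∧
      (∀ x, 0 ≤ R x) ∧ (∀ y, R (ν y) = 0) ∧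
      PosAt n B (fun i y => (ψ i y + G y) + R y) (ν w) := fun w => by
    by_cases hw : ν w ∈ Z
    · exact ⟨fun _ => 0, fun _ _ _ => contDiffAt_const, fun _ _ => .of_forall fun _ => rfl,
        fun _ => le_rfl, fun _ => rfl,
        pos_congr (pz _ (h2 w (h1 w hw)) hw) (.of_forall fun y i => add_zero _)⟩
    refine loc ρ n W V ν Z B _ w rs hB m2 hw ?_
    have hi := rs.ov.imm w hw
    by_cases hs : NZ O σ w
    · exact pos_congr (B := pull ν B) (g3 w hs (pos_pull hν hi m0))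
        (.of_forall fun y i => by rw [G2])
    · exact pos_congr (B := pull ν B) (pos_pull hν hi m0 (p0 _ (h2 w hs)))
        ((g2 w hs).mono fun y hy i => by rw [G2, hy, add_zero])
  choose R r1 r2 r3 r4 r5 using key
  obtain ⟨T, hT⟩ := (isCompact_range hν.cont).elim_finite_subcover
    (fun w => {x | PosAt n B (fun i y => (ψ i y + G y) + R w y) x})
    (fun w => opn n V B _ hB (met_add m2 (r1 w))) (by
      rintro _ ⟨w, rfl⟩
      exact mem_iUnion.2 ⟨w, r5 w⟩)
  refine ⟨_, met_add m2 (sm_sum T r1), ?_⟩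
  rintro x (⟨y, rfl⟩ | ⟨hx, hz⟩)
  · obtain ⟨w, hw, k1⟩ := mem_iUnion₂.1 (hT ⟨y, rfl⟩)
    refine pos_congr (mn n V B _ _ (ν y) hB (met_add m2 (r1 w)) (sm_sum (T.erase w) r1)
      (fun z => Finset.sum_nonneg fun a _ => r3 a z) (Finset.sum_eq_zero fun a _ => r4 a y) k1)
      (.of_forall fun z i => ?_)
    rw [← Finset.add_sum_erase T (fun a => R a z) hw, add_assoc (ψ i z + G z)]
  · refine pos_congr (pz x hx hz) ?_
    filter_upwards [(eventually_all_finset T).2 fun a _ => r2 a x hz] with y hy i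
    rw [Finset.sum_eq_zero hy, add_zero]

end Vale.Agent.P280X.Kl
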