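import Vale.Agent.P280X.Kl.Defs
import Vale.Agent.P281Z.Lf.Rech
import Vale.Agent.P281Z.Ld.Lad

/-!
# P280X, block KL: row STEP
-/

open scoped Manifold ContDiff Topology Matrix ComplexOrder
open Set Filter
open Vale.Agent.P272.K Vale.Agent.P285.H281.FD Vale.Agent.P281Z Vale.Agent.P280Z
open Vale.Agent.P277Z (at_chart)
open Vale.Agent.P277.HD (pull)

noncomputable section

namespace Vale.Agent.P280X.Kl.S32

theorem posAt_congr {n : ℕ} {V : Mf n} {B : Bd V.X} {ψ φ : B.ι → V.X → ℝ} {x : V.X}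
    (h : ∀ᶠ y in 𝓝 x, ∀ i, ψ i y = φ i y) (p : PosAt n B ψ x) : PosAt n B φ x := by
  intro i e he hi
  rw [← C2.cHess_congr (u := fun z => ψ i (e.symm z)) ((at_ev he h).mono fun z hz => hz i)]
  exact p i e he hi

theorem met_add {n : ℕ} {V : Mf n} {B : Bd V.X} {ψ : B.ι → V.X → ℝ} {g : V.X → ℝ}
    (h : IsMet n B ψ) (hg : SmoothFn (n := n) g) : IsMet n B fun i y => ψ i y + g y where
  smooth i e x he hi := (h.smooth i e x he hi).add (hg e x he)
  change i j x hi hj := by rw [h.change i j x hi hj]; ring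

theorem posAt_pull {ρ n : ℕ} {W : Mf ρ} {V : Mf n} {f : W.X → V.X} (hf : HolM ρ n f)
    {L : Bd V.X} {ψ : L.ι → V.X → ℝ} (h1 : IsMet n L ψ) {x : W.X} (h : Imm ρ n f x)
    (h2 : PosAt n L ψ (f x)) : PosAt ρ (pull f L) (fun i y => ψ i (f y)) x := by
  intro i e he hi
  have e0 : (fun z => ψ i (f (e.symm z))) =ᶠ[𝓝 (e x)] fun z =>
      ψ i ((chartAt (Cm n) (f x)).symm (chartAt (Cm n) (f x) (f (e.symm z)))) :=
    (at_map (hf.at x).cont he (at_chart _)).mono fun z hz => congrArg (ψ i) hz.left_inv.symm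
  have s0 : ContDiffAt ℝ ∞
      (fun z => ψ i ((chartAt (Cm n) (f x)).symm z)) (chartAt (Cm n) (f x) (f (e.symm (e x)))) :=
    he.left_inv.symm ▸ h1.smooth i _ _ (at_chart _) hi
  have t : (2 : WithTop ℕ∞) ≤ ∞ := WithTop.coe_le_coe.2 le_top
  refine (Lf.posDef_iff (((Ld.met_pull hf h1).smooth i e x he hi).of_le t)).2 fun w hw => ?_
  have s2 := s0.of_le t
  rw [Hm.levi_congr e0, Hm.levi_comp
    (g := fun z => chartAt (Cm n) (f x) (f (e.symm z))) s2 ((hf.at x).an he (at_chart _))]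
  rw [he.left_inv] at s2 ⊢
  exact (Lf.posDef_iff s2).1 (h2 i _ (at_chart _) hi) _ fun k =>
    hw ((injective_iff_map_eq_zero _).1 (h e _ he (at_chart _)) w k)

theorem sm_sum {n : ℕ} {V : Mf n} {κ : Type} (t : Finset κ) {R : κ → V.X → ℝ}
    (h : ∀ k, SmoothFn (n := n) (R k)) : SmoothFn (n := n) fun y => ∑ k ∈ t, R k y :=
  fun e x he => ContDiffAt.sum fun k _ => h k e x he

theorem step32 (opn : OPN) (mx : MAXG) (ex : EXT) (loc : LOC) (mn : MIN) : STEP := by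
  intro ρ n W V ν Z S B M O σ k rs hB dc hZ hS ⟨ψ, hψ, pψ⟩
  classical
  have hol := rs.ov.hol
  obtain ⟨g, g1, g2, g3⟩ := mx ρ W _ M O σ k _ (ν ⁻¹' {x | PosAt n B ψ x}) dc
    (Ld.met_pull hol hψ) ((opn n V B ψ hB hψ).preimage hol.continuous) fun x hx => pψ _ (hS x hx)
  obtain ⟨G, G1, G2, G3⟩ := ex ρ n W V ν Z g rs g1 fun w hw => g2 w (hZ w hw)
  have hφ := met_add hψ G1
  set φ : B.ι → V.X → ℝ := fun i y => ψ i y + G y with eφ
  have pZ : ∀ x ∈ S ∩ Z, PosAt n B φ x := fun x hx =>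
    posAt_congr ((G3 x hx.2).mono fun y hy i => by simp [eφ, hy]) (pψ x hx.1)
  have pW : ∀ w, ν w ∉ Z → PosAt ρ (pull ν B) (fun i y => φ i (ν y)) w := fun w hw => by
    have im := rs.ov.imm w hw
    by_cases nz : NZ O σ w
    · simpa only [eφ, G2] using g3 w nz fun h => posAt_pull hol hψ im h
    · exact posAt_congr ((g2 w nz).mono fun y hy i => by simp [eφ, G2, hy])
        (posAt_pull hol hψ im (pψ _ (hS w nz)))
  choose R R1 R2 R3 R4 R5 using fun w : {w // ν w ∉ Z} =>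
    loc ρ n W V ν Z B φ w.1 rs hB hφ w.2 (pW w.1 w.2)
  have K : IsCompact (range ν \ {x | PosAt n B φ x}) :=
    (isCompact_range hol.continuous).diff (opn n V B φ hB hφ)
  obtain ⟨t, ht⟩ := K.elim_finite_subcover (fun w => {x | PosAt n B (fun i y => φ i y + R w y) x})
    (fun w => opn n V B _ hB (met_add hφ (R1 w))) (by
      rintro _ ⟨⟨w, rfl⟩, hw⟩
      have : ν w ∉ Z := fun h => hw (pZ _ ⟨hS w (hZ w h), h⟩)
      exact mem_iUnion.2 ⟨⟨w, this⟩, R5 ⟨w, this⟩⟩)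
  have z0 : ∀ x ∈ range ν ∪ S ∩ Z, ∀ w, R w x = 0 := by
    rintro x (⟨y, rfl⟩ | hx) w
    exacts [R4 w y, (R2 w x hx.2).self_of_nhds]
  refine ⟨_, met_add hφ (sm_sum t R1), fun x hx => ?_⟩
  by_cases p : PosAt n B φ x
  · exact mn n V B φ _ x hB hφ (sm_sum t R1) (fun y => Finset.sum_nonneg fun w _ => R3 w y)
      (Finset.sum_eq_zero fun w _ => z0 x hx w) p
  obtain ⟨w, hw, q⟩ := mem_iUnion₂.1 (ht ⟨hx.resolve_right fun h => p (pZ x h), p⟩)
  refine posAt_congr (Eventually.of_forall fun y i => ?_)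
    (mn n V B _ _ x hB (met_add hφ (R1 w)) (sm_sum (t.erase w) R1)
      (fun y => Finset.sum_nonneg fun w _ => R3 w y) (Finset.sum_eq_zero fun w _ => z0 x hx w) q)
  rw [add_assoc, Finset.add_sum_erase t (fun w => R w y) hw]

end Vale.Agent.P280X.Kl.S32
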