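import Vale.Agent.P280X.Kl.Defs
import Vale.Agent.P281Z.Rs.All
import Vale.Agent.P281Z.Mf.Sub
import Vale.Agent.P281Z.Mf.An

/-!
# P280X, block KL: thin sets are covered by images of manifolds of lower dimension (row THN)
-/

open scoped Topology
open Set Filter
open Vale.Agent.P272.K Vale.Agent.P285.H281.FD Vale.Agent.P281Z

namespace Vale.Agent.P280X.Kl

theorem T77.un {n d : ℕ} {V : Mf n} {A B : Set V.X} (hA : Cv V d A) (hB : Cv V d B) :
    Cv V d (A ∪ B) := by
  induction hA with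
  | nil => rwa [empty_union]
  | add F f h1 h2 h3 _ ih => exact union_assoc _ _ _ ▸ .add F f h1 h2 h3 ih

/-- **row THN** -/
theorem thn77 (hR : RSV) : THN := by
  intro d W S hW hS
  obtain ⟨V, g, hg, hU, -⟩ := par_of_res res d W S hS.1
  have key : ∀ e, ∃ A, Cv W d A ∧ g e '' univ ⊆ A := fun e => by
    refine isCompact_univ.induction_on (p := fun T => ∃ A, Cv W d A ∧ g e '' T ⊆ A)
      ⟨∅, .nil, by simp⟩ (fun s t h ⟨A, h1, h2⟩ => ⟨A, h1, (image_mono h).trans h2⟩)
      (fun s t ⟨A, h1, h2⟩ ⟨B, h3, h4⟩ =>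
        ⟨_, T77.un h1 h3, (image_union _ _ _).trans_subset (union_subset_union h2 h4)⟩)
      fun x _ => ?_
    obtain ⟨F, i, hF, hi⟩ := comp_emb (V e) x
    obtain ⟨z, -⟩ : x ∈ range i := hi.rng.symm ▸ mem_connectedComponent
    obtain ⟨ρ, h1, W', ν, Z, h2, -, h3, -, h4⟩ := hR d e W F (fun y => g e (i y)) ∅ hW hF
      ((hg e).comp hi.hol) an_empty fun h => h ⟨z, rfl⟩
    have h5 : range ν ⊆ S := by
      rw [h4, hU]
      rintro _ ⟨y, rfl⟩
      exact mem_iUnion.2 ⟨e, _, rfl⟩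
    have h6 : ρ < d := by
      obtain ⟨w, hw⟩ := h3.ov.dense.nonempty
      obtain ⟨c, h, k1, -, k2⟩ := h3.sub (ν w) ⟨⟨w, rfl⟩, hw⟩
      by_contra k
      obtain rfl : c = 0 := by omega
      obtain ⟨y, k3, k4⟩ := hS.2.inter_nhds_nonempty k2
      exact k3 (h5 (k4.2 fun a => a.elim0).1)
    have := ChartedSpace.locallyConnectedSpace (Cm e) (V e).X
    refine ⟨connectedComponent x, nhdsWithin_le_nhds
      (isOpen_connectedComponent.mem_nhds mem_connectedComponent), _,
      .add W' ν h6 h2 h3.ov.hol .nil, ?_⟩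
    rw [h4, ← hi.rng]
    rintro _ ⟨_, ⟨y, rfl⟩, rfl⟩
    exact .inl ⟨y, rfl⟩
  choose A hA hA' using key
  have k : ∀ s : Finset (Fin (d + 1)), Cv W d (⋃ e ∈ s, A e) := fun s => by
    induction s using Finset.induction_on with
    | empty => simpa using Cv.nil
    | insert a s _ ih => simpa using T77.un (hA a) ih
  refine ⟨_, k Finset.univ, hU ▸ iUnion_subset fun e => ?_⟩
  exact image_univ.symm.trans_subset ((hA' e).trans
    (subset_biUnion_of_mem (u := A) (Finset.mem_univ e)))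

end Vale.Agent.P280X.Kl
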