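import Vale.Agent.P280X.Kl.Defs
import Vale.Agent.P281Z.Rs.All
import Vale.Agent.P281Z.Mf.Sub

/-!
# P280X, block KL: thin sets are covered by images of manifolds of lower dimension
-/

open scoped Manifold ContDiff Topology
open Set Filter
open Vale.Agent.P272.K Vale.Agent.P281Z

namespace Vale.Agent.P280X.Kl

namespace T88

variable {n d : ℕ} {V : Mf n}

theorem un {A B : Set V.X} (hA : Cv V d A) (hB : Cv V d B) : Cv V d (A ∪ B) := by
  induction hA with
  | nil => rwa [empty_union]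
  | add F f h1 h2 h3 _ ih => rw [union_assoc]; exact .add F f h1 h2 h3 ih

theorem fin {J : Type} [Fintype J] (A : J → Set V.X) (h : ∀ j, Cv V d (A j)) :
    Cv V d (⋃ j, A j) := by
  classical
  have k : ∀ s : Finset J, Cv V d (⋃ j ∈ s, A j) := fun s => by
    induction s using Finset.induction_on with
    | empty => simpa using Cv.nil
    | insert a s _ ih => rw [Finset.set_biUnion_insert]; exact un (h a) ih
  simpa using k Finset.univ

theorem one (hR : RSV) (hP : V.Prj) {S : Set V.X} (hS : Dense Sᶜ) {e : ℕ} (F : Mf e)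
    (f : F.X → V.X) (hc : ConnectedSpace F.X) (hf : HolM e n f) (hs : range f ⊆ S) :
    Cv V n (range f) := by
  have h0 : An n (∅ : Set V.X) := fun x =>
    ⟨1, fun _ _ => 1, fun _ => _root_.Vale.Agent.P281Z.Rs.Cmp.hol_one, .of_forall fun y => by simp⟩
  obtain ⟨ρ, -, W, ν, Z, c, -, r, -, q⟩ := hR n e V F f ∅ hP hc hf h0 fun h =>
    h ⟨Classical.arbitrary _, rfl⟩
  obtain ⟨w, hw⟩ := r.ov.dense.nonempty
  obtain ⟨k, g, a, -, b⟩ := r.sub (ν w) ⟨⟨w, rfl⟩, hw⟩
  have l : ρ < n := by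
    rcases k with _ | k
    · obtain ⟨y, y1, y2⟩ := mem_closure_iff_nhds.1 (hS (ν w)) _ b
      exact (y2 (hs (q ▸ (y1.2 fun i => i.elim0).1))).elim
    · omega
  rw [← q, ← union_empty (range ν)]
  exact .add W ν l c r.ov.hol .nil

end T88

theorem thn88 (hR : RSV) : THN := fun d W S hP hS => by
  obtain ⟨V, g, hg, e, -⟩ := par_of_res res d W S hS.1
  refine ⟨S, ?_, Subset.rfl⟩
  have k : ∀ a, Cv W d (range (g a)) := fun a => by
    obtain ⟨J, _, U, i, c, m, -, v, -⟩ := comps (V a)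
    have q : range (g a) = ⋃ j, range (g a ∘ i j) := by
      ext y
      simp only [mem_iUnion, mem_range, Function.comp]
      exact ⟨fun ⟨x, hx⟩ => let ⟨j, z, hz⟩ := v x; ⟨j, z, hz ▸ hx⟩, fun ⟨j, z, hz⟩ => ⟨_, hz⟩⟩
    rw [q]
    refine T88.fin _ fun j => T88.one hR hP hS.2 (U j) _ (c j) ((hg a).comp (m j).hol) ?_
    rintro _ ⟨z, rfl⟩
    rw [e]
    exact mem_iUnion.2 ⟨a, _, rfl⟩
  rw [e]
  exact T88.fin _ k

end Vale.Agent.P280X.Kl
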